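import Mathlib.Algebra.Order.BigOperators.Group.Finset
import Mathlib.Analysis.Convex.Measure
import Mathlib.Data.Fintype.BigOperators
import Mathlib.Data.Real.Basic
import Mathlib.LinearAlgebra.Span.Basic
import Mathlib.Logic.Function.DependsOn
import Mathlib.MeasureTheory.Measure.LevyConvergence
import Mathlib.Probability.CentralLimitTheorem
import Mathlib.Probability.Distributions.Gaussian.Real
import Mathlib.Probability.Moments.Variance
import Mathlib.Tactic
import Mathlib.Algebra.Order.Floor.Ring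
import Mathlib.Analysis.SpecialFunctions.Exp
import Mathlib.Analysis.SpecialFunctions.Gaussian.GaussianIntegral
import Mathlib.Combinatorics.Pigeonhole
import Mathlib.Data.Int.Interval
import Mathlib.MeasureTheory.Integral.IntegralEqImproper
import Mathlib.Algebra.Order.Chebyshev
import Mathlib.Analysis.Real.Pi.Bounds
import Mathlib.Algebra.BigOperators.Group.Finset.Basic
import Mathlib.Analysis.SpecialFunctions.Pow.Real
import Mathlib.Data.Nat.Log
import Vale.Agent.P047.Defs

set_option linter.all false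

section

section

open Finset

namespace Vale.Agent.P047

variable {ι κ Ω Λ : Type}

/-- `F` has block degree at most `k`: it is a finite sum of functions each of which depends
on at most `k` coordinates. -/
def BDeg (k : ℕ) (F : (ι → Ω) → ℝ) : Prop :=
  F ∈ Submodule.span ℝ {G : (ι → Ω) → ℝ | ∃ S : Finset ι, S.card ≤ k ∧ DependsOn G (S : Set ι)}

theorem BDeg.of_dependsOn {k : ℕ} {F : (ι → Ω) → ℝ} {S : Finset ι} (hS : S.card ≤ k)
    (h : DependsOn F (S : Set ι)) : BDeg k F :=
  Submodule.subset_span ⟨S, hS, h⟩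

theorem BDeg.mono {k l : ℕ} {F : (ι → Ω) → ℝ} (h : BDeg k F) (hkl : k ≤ l) : BDeg l F := by
  refine Submodule.span_mono ?_ h
  rintro G ⟨S, hS, hG⟩
  exact ⟨S, hS.trans hkl, hG⟩

theorem BDeg.const (c : ℝ) (k : ℕ) : BDeg k (fun _ : ι → Ω => c) :=
  BDeg.of_dependsOn (S := ∅) (by simp) (fun _ _ _ => rfl)

theorem BDeg.add {k : ℕ} {F G : (ι → Ω) → ℝ} (hF : BDeg k F) (hG : BDeg k G) :
    BDeg k (fun x => F x + G x) := Submodule.add_mem _ hF hG

theorem BDeg.sub {k : ℕ} {F G : (ι → Ω) → ℝ} (hF : BDeg k F) (hG : BDeg k G) :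
    BDeg k (fun x => F x - G x) := Submodule.sub_mem _ hF hG

theorem BDeg.smul {k : ℕ} {F : (ι → Ω) → ℝ} (c : ℝ) (hF : BDeg k F) :
    BDeg k (fun x => c * F x) := Submodule.smul_mem _ c hF

theorem BDeg.sum {k : ℕ} {α : Type} (s : Finset α) {F : α → (ι → Ω) → ℝ}
    (h : ∀ a ∈ s, BDeg k (F a)) : BDeg k (fun x => ∑ a ∈ s, F a x) := by
  have := Submodule.sum_mem (Submodule.span ℝ {G : (ι → Ω) → ℝ | ∃ S : Finset ι, S.card ≤ k ∧
    DependsOn G (S : Set ι)}) (t := s) (f := F) h
  have e : (fun x => ∑ a ∈ s, F a x) = ∑ a ∈ s, F a := by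
    funext x; simp
  rw [BDeg, e]; exact this

theorem BDeg.full [Fintype ι] (F : (ι → Ω) → ℝ) : BDeg (Fintype.card ι) F :=
  BDeg.of_dependsOn (S := Finset.univ) (by simp only [card_univ, Std.le_refl]) (fun x y h => by
    have : x = y := by funext i; exact h i (by simp only [coe_univ, Set.mem_univ])
    rw [this])

theorem BDeg.mul {k l : ℕ} {F G : (ι → Ω) → ℝ} (hF : BDeg k F) (hG : BDeg l G) :
    BDeg (k + l) (fun x => F x * G x) := by
  classical
  unfold BDeg at hF hG
  induction hF using Submodule.span_induction with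
  | mem F hF =>
    obtain ⟨S, hS, hSF⟩ := hF
    induction hG using Submodule.span_induction with
    | mem G hG =>
      obtain ⟨T, hT, hTG⟩ := hG
      refine BDeg.of_dependsOn (S := S ∪ T) ((card_union_le _ _).trans (add_le_add hS hT)) ?_
      intro x y h
      have h1 : F x = F y := hSF (fun i hi => h i (by simp at hi ⊢; exact Or.inl hi))
      have h2 : G x = G y := hTG (fun i hi => h i (by simp at hi ⊢; exact Or.inr hi))
      simp only [h1, h2]
    | zero => simpa using BDeg.const (ι := ι) (Ω := Ω) 0 (k + l)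
    | add G H _ _ hG hH => simpa only [Pi.add_apply, mul_add] using BDeg.add hG hH
    | smul c G _ hG => simpa [mul_left_comm] using BDeg.smul c hG
  | zero => simpa using BDeg.const (ι := ι) (Ω := Ω) 0 (k + l)
  | add G H _ _ hG hH => simpa only [Pi.add_apply, add_mul] using BDeg.add hG hH
  | smul c G _ hG => simpa [mul_assoc] using BDeg.smul c hG

theorem BDeg.prod {α : Type} (s : Finset α) {F : α → (ι → Ω) → ℝ} {k : α → ℕ}
    (h : ∀ a ∈ s, BDeg (k a) (F a)) : BDeg (∑ a ∈ s, k a) (fun x => ∏ a ∈ s, F a x) := by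
  classical
  induction s using Finset.induction_on with
  | empty => simpa using BDeg.const (ι := ι) (Ω := Ω) 1 0
  | insert a s ha ih =>
    simp only [Finset.prod_insert ha, Finset.sum_insert ha]
    exact BDeg.mul (h a (by simp)) (ih (fun b hb => h b (by simp [hb])))

/-- Reindexing of the coordinates. -/
theorem BDeg.reindex {k : ℕ} {F : (ι → Ω) → ℝ} (hF : BDeg k F) (e : ι → κ) :
    BDeg k (fun z : κ → Ω => F (fun i => z (e i))) := by
  classical
  unfold BDeg at hF
  induction hF using Submodule.span_induction with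
  | mem F hF =>
    obtain ⟨S, hS, hSF⟩ := hF
    refine BDeg.of_dependsOn (S := S.image e) (card_image_le.trans hS) ?_
    intro x y h
    exact hSF (fun i hi => h (e i) (by simp only [coe_image, Set.mem_image, SetLike.mem_coe]; exact ⟨i, by simpa using hi, rfl⟩))
  | zero => exact BDeg.const 0 k
  | add G H _ _ hG hH => exact BDeg.add hG hH
  | smul c G _ hG => exact BDeg.smul c hG

/-- Coordinatewise change of alphabet. -/
theorem BDeg.relabel {Ω' : Type} {k : ℕ} {F : (ι → Ω) → ℝ} (hF : BDeg k F) (φ : ι → Ω' → Ω) :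
    BDeg k (fun z : ι → Ω' => F (fun i => φ i (z i))) := by
  classical
  unfold BDeg at hF
  induction hF using Submodule.span_induction with
  | mem F hF =>
    obtain ⟨S, hS, hSF⟩ := hF
    refine BDeg.of_dependsOn (S := S) hS ?_
    intro x y h
    exact hSF (fun i hi => by simp only [h i hi])
  | zero => exact BDeg.const 0 k
  | add G H _ _ hG hH => exact BDeg.add hG hH
  | smul c G _ hG => exact BDeg.smul c hG

/-- Composition with block labels: if the indicator of every value of every label `L i` has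
block degree at most `w`, then `F ∘ L` has block degree at most `k * w`. -/
theorem BDeg.compLabel [Fintype Λ] [DecidableEq Λ] [Fintype ι] {k w : ℕ}
    {F : (ι → Λ) → ℝ} (hF : BDeg k F) (L : ι → (κ → Ω) → Λ)
    (hL : ∀ i l, BDeg w (fun x => if L i x = l then (1 : ℝ) else 0)) :
    BDeg (k * w) (fun x => F (fun i => L i x)) := by
  classical
  unfold BDeg at hF
  induction hF using Submodule.span_induction with
  | mem F hF =>
    obtain ⟨S, hS, hSF⟩ := hF
    rcases isEmpty_or_nonempty (κ → Ω) with hE | ⟨⟨x0⟩⟩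
    · have : (fun x : κ → Ω => F (fun i => L i x)) = fun _ => 0 := by
        funext x; exact (hE.false x).elim
      rw [this]; exact BDeg.const 0 _
    · have e : (fun x : κ → Ω => F (fun i => L i x)) = fun x =>
          ∑ y : ι → Λ, (if ∀ i ∉ S, y i = L i x0 then F y else 0) *
            ∏ i ∈ S, (if L i x = y i then (1 : ℝ) else 0) := by
        funext x
        rw [Finset.sum_eq_single (fun i => if i ∈ S then L i x else L i x0)]
        · have h1 : ∀ i ∉ S, (fun i => if i ∈ S then L i x else L i x0) i = L i x0 := by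
            intro i hi; simp [hi]
          rw [if_pos h1]
          have h2 : ∏ i ∈ S, (if L i x = (fun i => if i ∈ S then L i x else L i x0) i
              then (1 : ℝ) else 0) = 1 := by
            refine Finset.prod_eq_one (fun i hi => ?_)
            simp [hi]
          rw [h2, mul_one]
          exact hSF (fun i hi => by simp at hi; simp [hi])
        · intro y _ hy
          by_cases h1 : ∀ i ∉ S, y i = L i x0
          · have : ∃ i ∈ S, L i x ≠ y i := by
              by_contra hcon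
              push Not at hcon
              apply hy
              funext i
              by_cases hi : i ∈ S
              · simp [hi, hcon i hi]
              · simp [hi, h1 i hi]
            obtain ⟨i, hi, hne⟩ := this
            rw [Finset.prod_eq_zero hi (by simp [hne]), mul_zero]
          · simp only [h1, ↓reduceIte, zero_mul]
        · intro h; exact (h (Finset.mem_univ _)).elim
      rw [e]
      refine BDeg.sum _ (fun y _ => BDeg.smul _ ?_)
      have := BDeg.prod (ι := κ) (Ω := Ω) S (F := fun i x => if L i x = y i then (1 : ℝ) else 0)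
        (k := fun _ => w) (fun i _ => hL i (y i))
      refine BDeg.mono this ?_
      simp only [Finset.sum_const, smul_eq_mul]
      exact Nat.mul_le_mul_right w hS
  | zero => exact BDeg.const 0 _
  | add G H _ _ hG hH => exact BDeg.add hG hH
  | smul c G _ hG => exact BDeg.smul c hG

end Vale.Agent.P047
end
end

section

section

open Finset Filter MeasureTheory ProbabilityTheory
open scoped Topology

namespace Vale.Agent.P047

/-- Expectation of `F` over independent coordinates with law `P`. -/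
noncomputable def Ex {ι Λ : Type} [Fintype ι] [DecidableEq ι] [Fintype Λ] (P : Λ → ℝ)
    (F : (ι → Λ) → ℝ) : ℝ := ∑ z : ι → Λ, (∏ i, P (z i)) * F z

/-- `P` is a probability vector and the score `a` has mean zero and second moment `I`. -/
structure FinLaw {Λ : Type} [Fintype Λ] (P a : Λ → ℝ) (I : ℝ) : Prop where
  nonneg : ∀ l, 0 ≤ P l
  sum_one : ∑ l, P l = 1
  mean : ∑ l, P l * a l = 0
  second : ∑ l, P l * a l ^ 2 = I

/-- Uniform average over sign vectors. -/
noncomputable def cubeAvg {κ : Type} [Fintype κ] [DecidableEq κ] (F : (κ → ℤˣ) → ℝ) : ℝ :=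
  (∑ x : κ → ℤˣ, F x) / 2 ^ Fintype.card κ

/-- `(P, a)` is the law of the label and the conditional mean of the sum of the signs, for a
labelling of a cube each of whose classes has degree at most `w`. -/
def IsScheme {Λ : Type} [Fintype Λ] [DecidableEq Λ] (w : ℕ) (P a : Λ → ℝ) : Prop :=
  ∃ (N : ℕ) (lab : (Fin N → ℤˣ) → Λ),
    (∀ l, BDeg w (fun x => if lab x = l then (1 : ℝ) else 0)) ∧
    (∀ l, cubeAvg (fun x => if lab x = l then (1 : ℝ) else 0) = P l) ∧
    (∀ l, cubeAvg (fun x => if lab x = l then ∑ i, ((x i : ℤ) : ℝ) else 0) = P l * a l)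

/-- The quadratic form `E[(sum G - c)^2 ; cells = z]` in terms of the partial moments
`mm r ω = E[G^r ; cell ω]`. -/
noncomputable def quad {ι Ω : Type} [Fintype ι] [DecidableEq ι] (mm : ℕ → Ω → ℝ) (c : ℝ)
    (z : ι → Ω) : ℝ :=
  (∑ i, ∑ j, ∏ k, mm ((if k = i then 1 else 0) + (if k = j then 1 else 0)) (z k))
    - 2 * c * ∑ i, ∏ k, mm (if k = i then 1 else 0) (z k) + c ^ 2 * ∏ k, mm 0 (z k)

/-- Partial moment of the standard Gaussian over a set. -/
noncomputable def gm (A : Set ℝ) (r : ℕ) : ℝ := ∫ t in A, t ^ r ∂(gaussianReal 0 1)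

/-- The normalized sum of the scores of the labels `z`. -/
noncomputable def wire {Λ : Type} (a : Λ → ℝ) (I : ℝ) {K : ℕ} (z : Fin K → Λ) : ℝ :=
  (∑ k, a (z k)) / Real.sqrt (K * I)

/-- Labelling of `r` independent copies: full label vector, except that copies with `C` are
merged, and everything is merged when fewer than `z0` copies satisfy `C`. -/
def mlab {X : Type} (C : X → Prop) [DecidablePred C] (z0 : ℕ) {r : ℕ} (z : Fin r → X) :
    Option (Fin r → Option X) :=
  if z0 ≤ (univ.filter (fun i => C (z i))).card then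
    some (fun i => if C (z i) then none else some (z i)) else none

/-- index of the grid cell: `max (-(n+1)) (min n ⌊x / d⌋) + (n+1)`. -/
noncomputable def gcell (n : ℕ) (d : ℝ) (x : ℝ) : Fin (2 * n + 2) :=
  ⟨(max (-((n : ℤ) + 1)) (min (n : ℤ) ⌊x / d⌋) + (n + 1)).toNat, by
    have h1 : max (-((n : ℤ) + 1)) (min (n : ℤ) ⌊x / d⌋) ≤ n := by
      refine max_le (by omega) (min_le_left _ _)
    have h2 : -((n : ℤ) + 1) ≤ max (-((n : ℤ) + 1)) (min (n : ℤ) ⌊x / d⌋) := le_max_left _ _
    omega⟩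

end Vale.Agent.P047
end
end

section

section

open Finset

namespace Vale.Agent.P047

theorem sum_prod_fun {ι C : Type} [Fintype ι] [DecidableEq ι] [Fintype C] (φ : ι → C → ℝ) :
    ∑ y : ι → C, ∏ i, φ i (y i) = ∏ i, ∑ c, φ i c := by
  rw [Finset.prod_univ_sum]
  simp only [Fintype.piFinset_univ]

theorem card_cube_fun {κ : Type} [Fintype κ] [DecidableEq κ] :
    ((Fintype.card (κ → ℤˣ) : ℕ) : ℝ) = 2 ^ Fintype.card κ := by
  simp only [Fintype.card_pi, Fintype.card_units_int, prod_const, card_univ, Nat.cast_pow, Nat.cast_ofNat]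

theorem cubeAvg_const {κ : Type} [Fintype κ] [DecidableEq κ] (c : ℝ) :
    cubeAvg (fun _ : κ → ℤˣ => c) = c := by
  unfold cubeAvg
  rw [Finset.sum_const, nsmul_eq_mul, Finset.card_univ, card_cube_fun]
  (clear * -; field_simp)

theorem cubeAvg_sum {κ α : Type} [Fintype κ] [DecidableEq κ] (s : Finset α)
    (F : α → (κ → ℤˣ) → ℝ) :
    cubeAvg (fun x => ∑ a ∈ s, F a x) = ∑ a ∈ s, cubeAvg (F a) := by
  unfold cubeAvg
  rw [Finset.sum_comm, Finset.sum_div]

theorem cubeAvg_nonneg {κ : Type} [Fintype κ] [DecidableEq κ] {F : (κ → ℤˣ) → ℝ}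
    (h : ∀ x, 0 ≤ F x) : 0 ≤ cubeAvg F :=
  div_nonneg (Finset.sum_nonneg (fun x _ => h x)) (by positivity)

theorem cubeAvg_neg_invariant {κ : Type} [Fintype κ] [DecidableEq κ] (F : (κ → ℤˣ) → ℝ) :
    cubeAvg (fun x => F (fun i => - x i)) = cubeAvg F := by
  unfold cubeAvg
  congr 1
  exact Fintype.sum_equiv (Equiv.neg (κ → ℤˣ)) _ _ (fun x => rfl)

theorem cubeAvg_linear {κ : Type} [Fintype κ] [DecidableEq κ] :
    cubeAvg (fun x : κ → ℤˣ => ∑ i, ((x i : ℤ) : ℝ)) = 0 := by
  have h := cubeAvg_neg_invariant (κ := κ) (fun x => ∑ i, ((x i : ℤ) : ℝ))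
  have h2 : cubeAvg (fun x : κ → ℤˣ => ∑ i, (((- x i : ℤˣ) : ℤ) : ℝ)) =
      - cubeAvg (fun x : κ → ℤˣ => ∑ i, ((x i : ℤ) : ℝ)) := by
    unfold cubeAvg
    rw [← neg_div, ← Finset.sum_neg_distrib]
    congr 1
    refine Finset.sum_congr rfl (fun x _ => ?_)
    rw [← Finset.sum_neg_distrib]
    refine Finset.sum_congr rfl (fun i _ => ?_)
    push_cast
    rfl
  rw [h2] at h
  linarith only [h]

theorem IsScheme.finLaw {Λ : Type} [Fintype Λ] [DecidableEq Λ] {w : ℕ} {P a : Λ → ℝ}
    (h : IsScheme w P a) : FinLaw P a (∑ l, P l * a l ^ 2) := by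
  obtain ⟨N, lab, _, h1, h2⟩ := h
  refine ⟨fun l => ?_, ?_, ?_, rfl⟩
  · rw [← h1 l]
    exact cubeAvg_nonneg (fun x => by split_ifs <;> norm_num)
  · simp_rw [← h1]
    rw [← cubeAvg_sum]
    simp only [sum_ite_eq, mem_univ, ↓reduceIte, cubeAvg_const]
  · simp_rw [← h2]
    rw [← cubeAvg_sum]
    simp only [sum_ite_eq, mem_univ, ↓reduceIte, cubeAvg_linear]

theorem sum_cube_one (φ : ℤˣ → ℝ) : ∑ x : Fin 1 → ℤˣ, φ (x 0) = φ 1 + φ (-1) := by
  have h : ∑ x : Fin 1 → ℤˣ, φ (x 0) = ∑ b : ℤˣ, φ b :=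
    Fintype.sum_equiv (Equiv.funUnique (Fin 1) ℤˣ) _ _ (fun x => rfl)
  rw [h]
  have hu : (Finset.univ : Finset ℤˣ) = {1, -1} := rfl
  rw [hu, Finset.sum_pair (by decide)]

theorem isScheme_bit : IsScheme 1 (fun _ : ℤˣ => (1 / 2 : ℝ)) (fun b => ((b : ℤ) : ℝ)) := by
  refine ⟨1, fun x => x 0, fun l => ?_, fun l => ?_, fun l => ?_⟩
  · exact BDeg.full (ι := Fin 1) _
  · unfold cubeAvg
    have := sum_cube_one (fun b => if b = l then (1 : ℝ) else 0)
    simp only [Fintype.card_fin, pow_one] at *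
    rw [this]
    rcases Int.units_eq_one_or l with rfl | rfl
    · simp
    · simp
  · unfold cubeAvg
    have := sum_cube_one (fun b => if b = l then ((b : ℤ) : ℝ) else 0)
    simp only [Fintype.card_fin, pow_one, Fin.sum_univ_one] at *
    rw [this]
    rcases Int.units_eq_one_or l with rfl | rfl
    · simp
    · (clear * -; norm_num)

/-- A labelling indexed by an arbitrary finite type gives a scheme. -/
theorem isScheme_of_index {κ Λ : Type} [Fintype κ] [DecidableEq κ] [Fintype Λ] [DecidableEq Λ]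
    {w : ℕ} {P a : Λ → ℝ} (lab : (κ → ℤˣ) → Λ)
    (h0 : ∀ l, BDeg w (fun x => if lab x = l then (1 : ℝ) else 0))
    (h1 : ∀ l, cubeAvg (fun x => if lab x = l then (1 : ℝ) else 0) = P l)
    (h2 : ∀ l, cubeAvg (fun x => if lab x = l then ∑ i, ((x i : ℤ) : ℝ) else 0) = P l * a l) :
    IsScheme w P a := by
  let e : κ ≃ Fin (Fintype.card κ) := Fintype.equivFin κ
  have key : ∀ F : (κ → ℤˣ) → ℝ,
      cubeAvg (fun x : Fin (Fintype.card κ) → ℤˣ => F (fun i => x (e i))) = cubeAvg F := by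
    intro F
    unfold cubeAvg
    rw [Fintype.card_fin]
    congr 1
    exact Fintype.sum_equiv (Equiv.arrowCongr e.symm (Equiv.refl _)) _ _ (fun x => by
      congr 1)
  refine ⟨Fintype.card κ, fun x => lab (fun i => x (e i)), fun l => ?_, fun l => ?_, fun l => ?_⟩
  · exact (h0 l).reindex e
  · rw [← h1 l, ← key]
  · rw [← h2 l, ← key]
    congr 1
    funext x
    split_ifs
    · exact (Fintype.sum_equiv e _ _ (fun i => rfl)).symm
    · rfl

/-- Averages of functions of independent labels. -/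
theorem cubeAvg_labels {ι Λ : Type} [Fintype ι] [DecidableEq ι] [Fintype Λ] [DecidableEq Λ]
    {N : ℕ} {P : Λ → ℝ} (lab : (Fin N → ℤˣ) → Λ)
    (h1 : ∀ l, cubeAvg (fun x => if lab x = l then (1 : ℝ) else 0) = P l)
    (F : (ι → Λ) → ℝ) :
    cubeAvg (fun x : ι × Fin N → ℤˣ => F (fun i => lab (fun j => x (i, j)))) = Ex P F := by
  have hP : ∀ l, ∑ x : Fin N → ℤˣ, (if lab x = l then (1 : ℝ) else 0) = 2 ^ N * P l := by
    intro l
    rw [← h1 l, cubeAvg, Fintype.card_fin]
    field_simp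
  have e1 : ∑ x : ι × Fin N → ℤˣ, F (fun i => lab (fun j => x (i, j))) =
      ∑ y : ι → Fin N → ℤˣ, F (fun i => lab (y i)) :=
    Fintype.sum_equiv (Equiv.curry ι (Fin N) ℤˣ) _ _ (fun x => rfl)
  have e2 : ∀ y : ι → Fin N → ℤˣ, F (fun i => lab (y i)) =
      ∑ z : ι → Λ, F z * ∏ i, (if lab (y i) = z i then (1 : ℝ) else 0) := by
    intro y
    rw [Finset.sum_eq_single (fun i => lab (y i))]
    · simp only [↓reduceIte, prod_const_one, mul_one]
    · intro z _ hz
      have : ∃ i, lab (y i) ≠ z i := by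
        by_contra hcon
        push Not at hcon
        exact hz (funext (fun i => (hcon i).symm))
      obtain ⟨i, hi⟩ := this
      rw [Finset.prod_eq_zero (Finset.mem_univ i) (by simp [hi]), mul_zero]
    · intro h; exact (h (Finset.mem_univ _)).elim
  unfold cubeAvg Ex
  rw [e1, Finset.sum_congr rfl (fun y _ => e2 y), Finset.sum_comm]
  rw [Finset.sum_div]
  refine Finset.sum_congr rfl (fun z _ => ?_)
  rw [← Finset.mul_sum, sum_prod_fun (fun i c => if lab c = z i then (1 : ℝ) else 0)]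
  simp_rw [hP]
  rw [Finset.prod_mul_distrib, Finset.prod_const, Finset.card_univ]
  rw [Fintype.card_prod, Fintype.card_fin, mul_comm (Fintype.card ι) N, pow_mul]
  field_simp

theorem cubeAvg_labels_sum {ι Λ : Type} [Fintype ι] [DecidableEq ι] [Fintype Λ] [DecidableEq Λ]
    {N : ℕ} {P a : Λ → ℝ} (lab : (Fin N → ℤˣ) → Λ)
    (h1 : ∀ l, cubeAvg (fun x => if lab x = l then (1 : ℝ) else 0) = P l)
    (h2 : ∀ l, cubeAvg (fun x => if lab x = l then ∑ i, ((x i : ℤ) : ℝ) else 0) = P l * a l)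
    (F : (ι → Λ) → ℝ) :
    cubeAvg (fun x : ι × Fin N → ℤˣ => F (fun i => lab (fun j => x (i, j))) *
      ∑ p, ((x p : ℤ) : ℝ)) = Ex P (fun z => F z * ∑ i, a (z i)) := by
  have hP : ∀ l, ∑ x : Fin N → ℤˣ, (if lab x = l then (1 : ℝ) else 0) = 2 ^ N * P l := by
    intro l
    rw [← h1 l, cubeAvg, Fintype.card_fin]
    field_simp
  have hPa : ∀ l, ∑ x : Fin N → ℤˣ, (if lab x = l then ∑ i, ((x i : ℤ) : ℝ) else 0) =
      2 ^ N * (P l * a l) := by
    intro l
    rw [← h2 l, cubeAvg, Fintype.card_fin]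
    field_simp
  have e1 : ∑ x : ι × Fin N → ℤˣ, F (fun i => lab (fun j => x (i, j))) *
        ∑ p, ((x p : ℤ) : ℝ) =
      ∑ y : ι → Fin N → ℤˣ, F (fun i => lab (y i)) * ∑ i, ∑ j, ((y i j : ℤ) : ℝ) :=
    Fintype.sum_equiv (Equiv.curry ι (Fin N) ℤˣ) _ _ (fun x => by
      rw [Fintype.sum_prod_type]; rfl)
  have e2 : ∀ y : ι → Fin N → ℤˣ, F (fun i => lab (y i)) * ∑ i, ∑ j, ((y i j : ℤ) : ℝ) =
      ∑ z : ι → Λ, ∑ i0, F z * ∏ i, (if i = i0 then
        (if lab (y i) = z i then ∑ j, ((y i j : ℤ) : ℝ) else 0) else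
        (if lab (y i) = z i then (1 : ℝ) else 0)) := by
    intro y
    rw [Finset.sum_eq_single (fun i => lab (y i))]
    · rw [Finset.mul_sum]
      refine Finset.sum_congr rfl (fun i0 _ => ?_)
      congr 1
      rw [Finset.prod_eq_single i0]
      · simp
      · intro i _ hi; simp [hi]
      · intro h; exact (h (Finset.mem_univ _)).elim
    · intro z _ hz
      have : ∃ i, lab (y i) ≠ z i := by
        by_contra hcon
        push Not at hcon
        exact hz (funext (fun i => (hcon i).symm))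
      obtain ⟨i, hi⟩ := this
      refine Finset.sum_eq_zero (fun i0 _ => ?_)
      rw [Finset.prod_eq_zero (Finset.mem_univ i) (by simp [hi]), mul_zero]
    · intro h; exact (h (Finset.mem_univ _)).elim
  unfold cubeAvg Ex
  rw [e1, Finset.sum_congr rfl (fun y _ => e2 y), Finset.sum_comm, Finset.sum_div]
  refine Finset.sum_congr rfl (fun z _ => ?_)
  rw [Finset.sum_comm, Finset.sum_div]
  simp only [Finset.mul_sum]
  refine Finset.sum_congr rfl (fun i0 _ => ?_)
  rw [← Finset.mul_sum, sum_prod_fun (fun i c => if i = i0 then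
        (if lab c = z i then ∑ j, ((c j : ℤ) : ℝ) else 0) else
        (if lab c = z i then (1 : ℝ) else 0))]
  have e3 : ∏ i, ∑ c : Fin N → ℤˣ, (if i = i0 then
        (if lab c = z i then ∑ j, ((c j : ℤ) : ℝ) else 0) else
        (if lab c = z i then (1 : ℝ) else 0)) =
      ∏ i, (2 ^ N * P (z i)) * (if i = i0 then a (z i) else 1) := by
    refine Finset.prod_congr rfl (fun i _ => ?_)
    by_cases hi : i = i0
    · subst hi
      simp only [if_true]
      rw [hPa]; ring
    · simp only [hi, if_false]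
      rw [hP]; ring
  rw [e3, Finset.prod_mul_distrib, Finset.prod_mul_distrib, Finset.prod_const, Finset.card_univ]
  rw [Fintype.card_prod, Fintype.card_fin, mul_comm (Fintype.card ι) N, pow_mul]
  rw [Finset.prod_ite_eq' (s := Finset.univ)]
  simp only [Finset.mem_univ, if_true]
  (clear * -; field_simp)

theorem IsScheme.comp {Λ Λ' ι : Type} [Fintype Λ] [DecidableEq Λ] [Fintype Λ'] [DecidableEq Λ']
    [Fintype ι] [DecidableEq ι] {w k : ℕ} {P a : Λ → ℝ} (h : IsScheme w P a)
    (g : (ι → Λ) → Λ') (hg : ∀ l, BDeg k (fun z => if g z = l then (1 : ℝ) else 0))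
    (a' : Λ' → ℝ)
    (ha : ∀ l, Ex P (fun z => if g z = l then ∑ i, a (z i) else 0) =
      Ex P (fun z => if g z = l then (1 : ℝ) else 0) * a' l) :
    IsScheme (k * w) (fun l => Ex P (fun z => if g z = l then (1 : ℝ) else 0)) a' := by
  obtain ⟨N, lab, h0, h1, h2⟩ := h
  refine isScheme_of_index (κ := ι × Fin N)
    (fun x => g (fun i => lab (fun j => x (i, j)))) (fun l => ?_) (fun l => ?_) (fun l => ?_)
  · exact (hg l).compLabel (fun i x => lab (fun j => x (i, j)))
      (fun i l' => (h0 l').reindex (fun j => (i, j)))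
  · exact cubeAvg_labels lab h1 (fun z => if g z = l then (1 : ℝ) else 0)
  · rw [← ha l]
    have := cubeAvg_labels_sum lab h1 h2 (fun z : ι → Λ => if g z = l then (1 : ℝ) else 0)
    simpa only [ite_mul, one_mul, zero_mul] using this

end Vale.Agent.P047
end
end

section

section

open Finset

namespace Vale.Agent.P047

/-- the elementary inequality behind the fourth moment method. -/
theorem sign_cubic_bound (x τ : ℝ) (hτ : 0 < τ) :
    x ^ 2 / τ - 4 / 27 * x ^ 4 / τ ^ 3 ≤ |x| := by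
  have hu : 0 ≤ |x| := abs_nonneg x
  have h2 : x ^ 2 = |x| ^ 2 := (sq_abs x).symm
  have h4 : x ^ 4 = |x| ^ 4 := by
    rw [show x ^ 4 = (x ^ 2) ^ 2 by ring, h2]; ring
  rw [h2, h4]
  generalize |x| = u at *
  rw [div_sub_div _ _ hτ.ne' (pow_pos hτ 3).ne', div_le_iff₀ (by positivity)]
  have key : 0 ≤ τ * u * ((2 * u - 3 * τ) ^ 2 * (u + 3 * τ)) := by (clear * - hτ hu; positivity)
  linarith

theorem sign_units_sum (F : ℤˣ → ℝ) : ∑ b : ℤˣ, F b = F 1 + F (-1) := by
  have : (Finset.univ : Finset ℤˣ) = {1, -1} := by decide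
  rw [this, Finset.sum_pair (by decide)]

theorem sign_cubeAvg_succ {N : ℕ} (F : (Fin (N + 1) → ℤˣ) → ℝ) :
    cubeAvg F = (1 / 2) * ∑ c : ℤˣ, cubeAvg (fun y : Fin N → ℤˣ => F (Fin.cons c y)) := by
  unfold cubeAvg
  rw [← (Fin.consEquiv (fun _ => ℤˣ)).sum_comp, Fintype.sum_prod_type, ← Finset.sum_div]
  simp only [Fin.consEquiv, Equiv.coe_fn_mk, Fintype.card_fin, pow_succ]
  rw [mul_comm ((2 : ℝ) ^ N) 2]
  field_simp

theorem sign_cubeAvg_flip {N : ℕ} (c : ℤˣ) (F : (Fin N → ℤˣ) → ℝ) :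
    cubeAvg (fun y => F (fun i => c * y i)) = cubeAvg F := by
  unfold cubeAvg
  congr 1
  exact Equiv.sum_comp (Equiv.mulLeft (fun _ : Fin N => c)) F

theorem sign_units_sq (c : ℤˣ) : c * c = 1 := by
  rcases Int.units_eq_one_or c with h | h <;> subst h <;> decide

theorem sign_units_sq_real (c : ℤˣ) : ((c : ℤ) : ℝ) * ((c : ℤ) : ℝ) = 1 := by
  rcases Int.units_eq_one_or c with h | h <;> subst h <;> norm_num

/-- Oddization of a scheme with a Boolean label. -/
theorem isScheme_odd {w : ℕ} {P a : ℤˣ → ℝ} (h : IsScheme w P a) :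
    IsScheme (1 + w) (fun _ : ℤˣ => (1 / 2 : ℝ))
      (fun b => ((b : ℤ) : ℝ) * (∑ c : ℤˣ, ((c : ℤ) : ℝ) * (P c * (1 + a c)))) := by
  have hlaw := h.finLaw
  obtain ⟨N, lab, hdeg, hP, ha⟩ := h
  refine ⟨N + 1, fun x => x 0 * lab (fun i => x 0 * x i.succ), ?_, ?_, ?_⟩
  · intro l
    have e : (fun x : Fin (N + 1) → ℤˣ =>
        if x 0 * lab (fun i => x 0 * x i.succ) = l then (1 : ℝ) else 0) = fun x =>
        ∑ c : ℤˣ, (if x 0 = c then (1 : ℝ) else 0) *
          (if lab (fun i => c * x i.succ) = c * l then (1 : ℝ) else 0) := by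
      funext x
      rw [Finset.sum_eq_single (x 0)]
      · have : (x 0 * lab (fun i => x 0 * x i.succ) = l) ↔
            (lab (fun i => x 0 * x i.succ) = x 0 * l) := by
          constructor
          · intro h; rw [← h, ← mul_assoc, sign_units_sq, one_mul]
          · intro h; rw [h, ← mul_assoc, sign_units_sq, one_mul]
        simp only [this]
        simp
      · intro c _ hc
        simp [hc.symm]
      · intro h; exact (h (Finset.mem_univ _)).elim
    rw [e]
    refine BDeg.sum _ (fun c _ => BDeg.mul ?_ ?_)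
    · refine BDeg.of_dependsOn (S := {0}) (by simp) ?_
      intro x y hxy
      have : x 0 = y 0 := hxy 0 (by simp)
      simp only [this]
    · exact BDeg.reindex (F := fun y : Fin N → ℤˣ =>
        if lab (fun i => c * y i) = c * l then (1 : ℝ) else 0)
        (BDeg.relabel (hdeg (c * l)) (fun _ b => c * b)) Fin.succ
  · intro l
    rw [sign_cubeAvg_succ]
    have e : ∀ c : ℤˣ, cubeAvg (fun y : Fin N → ℤˣ =>
        if (Fin.cons c y : Fin (N + 1) → ℤˣ) 0 *
          lab (fun i => (Fin.cons c y : Fin (N + 1) → ℤˣ) 0 *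
            (Fin.cons c y : Fin (N + 1) → ℤˣ) i.succ) = l then (1 : ℝ) else 0) =
        P (c * l) := by
      intro c
      rw [← hP (c * l), ← sign_cubeAvg_flip c (fun x => if lab x = c * l then (1 : ℝ) else 0)]
      refine congrArg _ (funext fun y => ?_)
      simp only [Fin.cons_zero, Fin.cons_succ]
      have : (c * lab (fun i => c * y i) = l) ↔ (lab (fun i => c * y i) = c * l) := by
        constructor
        · intro h; rw [← h, ← mul_assoc, sign_units_sq, one_mul]
        · intro h; rw [h, ← mul_assoc, sign_units_sq, one_mul]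
      simp only [this]
    simp only [e]
    rw [show ∑ c : ℤˣ, P (c * l) = ∑ c : ℤˣ, P c from Equiv.sum_comp (Equiv.mulRight l) P,
      hlaw.sum_one]
    norm_num
  · intro l
    rw [sign_cubeAvg_succ]
    have e : ∀ c : ℤˣ, cubeAvg (fun y : Fin N → ℤˣ =>
        if (Fin.cons c y : Fin (N + 1) → ℤˣ) 0 *
          lab (fun i => (Fin.cons c y : Fin (N + 1) → ℤˣ) 0 *
            (Fin.cons c y : Fin (N + 1) → ℤˣ) i.succ) = l then
          ∑ i, (((Fin.cons c y : Fin (N + 1) → ℤˣ) i : ℤ) : ℝ) else 0) =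
        ((c : ℤ) : ℝ) * (P (c * l) * (1 + a (c * l))) := by
      intro c
      have e2 : (fun y : Fin N → ℤˣ =>
        if (Fin.cons c y : Fin (N + 1) → ℤˣ) 0 *
          lab (fun i => (Fin.cons c y : Fin (N + 1) → ℤˣ) 0 *
            (Fin.cons c y : Fin (N + 1) → ℤˣ) i.succ) = l then
          ∑ i, (((Fin.cons c y : Fin (N + 1) → ℤˣ) i : ℤ) : ℝ) else 0) =
          fun y => (fun x : Fin N → ℤˣ => ((c : ℤ) : ℝ) *
            ((if lab x = c * l then (1 : ℝ) else 0) +
              (if lab x = c * l then ∑ i, ((x i : ℤ) : ℝ) else 0))) (fun i => c * y i) := by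
        funext y
        simp only [Fin.cons_zero, Fin.cons_succ, Fin.sum_univ_succ]
        have : (c * lab (fun i => c * y i) = l) ↔ (lab (fun i => c * y i) = c * l) := by
          constructor
          · intro h; rw [← h, ← mul_assoc, sign_units_sq, one_mul]
          · intro h; rw [h, ← mul_assoc, sign_units_sq, one_mul]
        simp only [this]
        by_cases hc : lab (fun i => c * y i) = c * l
        · simp only [hc, if_true]
          push_cast
          rw [mul_add, mul_one, ← Finset.mul_sum, ← mul_assoc, sign_units_sq_real, one_mul]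
        · simp [hc]
      rw [e2, sign_cubeAvg_flip c (fun x : Fin N → ℤˣ => ((c : ℤ) : ℝ) *
            ((if lab x = c * l then (1 : ℝ) else 0) +
              (if lab x = c * l then ∑ i, ((x i : ℤ) : ℝ) else 0)))]
      have e3 : cubeAvg (fun x : Fin N → ℤˣ => ((c : ℤ) : ℝ) *
            ((if lab x = c * l then (1 : ℝ) else 0) +
              (if lab x = c * l then ∑ i, ((x i : ℤ) : ℝ) else 0))) =
          ((c : ℤ) : ℝ) * (cubeAvg (fun x => if lab x = c * l then (1 : ℝ) else 0) +
            cubeAvg (fun x => if lab x = c * l then ∑ i, ((x i : ℤ) : ℝ) else 0)) := by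
        unfold cubeAvg
        rw [← Finset.mul_sum, Finset.sum_add_distrib]
        ring
      rw [e3, hP, ha]
      ring
    simp only [e]
    rw [← Equiv.sum_comp (Equiv.mulRight l)
      (fun c : ℤˣ => ((c : ℤ) : ℝ) * (P (c * l) * (1 + a (c * l))))]
    rw [Finset.mul_sum, Finset.mul_sum, Finset.mul_sum]
    refine Finset.sum_congr rfl (fun b _ => ?_)
    simp only [Equiv.coe_mulRight, mul_assoc, sign_units_sq, mul_one]
    push_cast
    ring

/-- Toolbox for `Ex`. -/
theorem sign_Ex_mono {ι Λ : Type} [Fintype ι] [DecidableEq ι] [Fintype Λ] {P : Λ → ℝ}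
    (hP : ∀ l, 0 ≤ P l) {F G : (ι → Λ) → ℝ} (h : ∀ z, F z ≤ G z) : Ex P F ≤ Ex P G :=
  Finset.sum_le_sum fun z _ => mul_le_mul_of_nonneg_left (h z)
    (Finset.prod_nonneg fun _ _ => hP _)

theorem sign_Ex_comb {ι Λ : Type} [Fintype ι] [DecidableEq ι] [Fintype Λ] (P : Λ → ℝ)
    (F G : (ι → Λ) → ℝ) (b c : ℝ) :
    Ex P (fun z => b * F z + c * G z) = b * Ex P F + c * Ex P G := by
  unfold Ex
  rw [Finset.mul_sum, Finset.mul_sum, ← Finset.sum_add_distrib]
  refine Finset.sum_congr rfl fun z _ => ?_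
  ring

theorem sign_Ex_one {ι Λ : Type} [Fintype ι] [DecidableEq ι] [Fintype Λ] {P : Λ → ℝ}
    (hP : ∑ l, P l = 1) : Ex P (fun _ : ι → Λ => (1 : ℝ)) = 1 := by
  unfold Ex
  simp only [mul_one]
  have := Finset.prod_univ_sum (fun _ : ι => (Finset.univ : Finset Λ)) (fun _ l => P l)
  rw [Fintype.piFinset_univ] at this
  rw [← this]
  simp only [hP, prod_const_one]

theorem sign_Ex_succ {Λ : Type} [Fintype Λ] {K : ℕ} (P : Λ → ℝ)
    (F : (Fin (K + 1) → Λ) → ℝ) :
    Ex P F = ∑ l, P l * Ex P (fun z : Fin K → Λ => F (Fin.cons l z)) := by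
  unfold Ex
  rw [← (Fin.consEquiv (fun _ => Λ)).sum_comp, Fintype.sum_prod_type]
  refine Finset.sum_congr rfl fun l _ => ?_
  rw [Finset.mul_sum]
  refine Finset.sum_congr rfl fun z _ => ?_
  simp only [Fin.consEquiv, Equiv.coe_fn_mk, Fin.prod_univ_succ, Fin.cons_zero, Fin.cons_succ]
  ring

/-- First, second and fourth moment of a sum of independent copies of a centered score. -/
theorem sign_moments {Λ : Type} [Fintype Λ] {P a : Λ → ℝ} {I : ℝ} (h : FinLaw P a I) (K : ℕ) :
    Ex P (fun z : Fin K → Λ => ∑ i, a (z i)) = 0 ∧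
    Ex P (fun z : Fin K → Λ => (∑ i, a (z i)) ^ 2) = K * I ∧
    Ex P (fun z : Fin K → Λ => (∑ i, a (z i)) ^ 4) =
      K * (∑ l, P l * a l ^ 4) + 3 * K * (K - 1) * I ^ 2 := by
  induction K with
  | zero => simp only [Ex, univ_unique, univ_eq_empty, prod_empty, sum_empty, mul_zero, sum_const_zero, ne_eq, OfNat.ofNat_ne_zero, not_false_eq_true, zero_pow, CharP.cast_eq_zero, zero_mul, zero_sub, mul_neg, mul_one, neg_zero, add_zero, and_self]
  | succ K ih =>
    obtain ⟨h1, h2, h4⟩ := ih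
    have hone := sign_Ex_one (ι := Fin K) h.sum_one
    refine ⟨?_, ?_, ?_⟩
    · rw [sign_Ex_succ]
      have e : ∀ l, Ex P (fun z : Fin K → Λ => ∑ i, a ((Fin.cons l z : Fin (K + 1) → Λ) i)) =
          a l := by
        intro l
        simp only [Fin.sum_univ_succ, Fin.cons_zero, Fin.cons_succ]
        have := sign_Ex_comb P (fun _ : Fin K → Λ => (1 : ℝ))
          (fun z : Fin K → Λ => ∑ i, a (z i)) (a l) 1
        simp only [mul_one, one_mul] at this
        rw [this, hone, h1]
        ring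
      simp only [e]
      exact h.mean
    · rw [sign_Ex_succ]
      have e : ∀ l, Ex P (fun z : Fin K → Λ =>
          (∑ i, a ((Fin.cons l z : Fin (K + 1) → Λ) i)) ^ 2) = a l ^ 2 + K * I := by
        intro l
        simp only [Fin.sum_univ_succ, Fin.cons_zero, Fin.cons_succ]
        have t1 := sign_Ex_comb P (fun _ : Fin K → Λ => (1 : ℝ))
          (fun z : Fin K → Λ => ∑ i, a (z i)) (a l ^ 2) (2 * a l)
        have t2 := sign_Ex_comb P (fun z : Fin K → Λ => a l ^ 2 * 1 + 2 * a l * ∑ i, a (z i))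
          (fun z : Fin K → Λ => (∑ i, a (z i)) ^ 2) 1 1
        rw [t1, hone, h1, h2] at t2
        rw [show a l ^ 2 + K * I = 1 * (a l ^ 2 * 1 + 2 * a l * 0) + 1 * (K * I) by ring, ← t2]
        refine congrArg _ (funext fun z => ?_)
        ring
      simp only [e, mul_add, Finset.sum_add_distrib, h.second]
      rw [← Finset.sum_mul, h.sum_one]
      push_cast
      ring
    · rw [sign_Ex_succ]
      set m3 : ℝ := Ex P (fun z : Fin K → Λ => (∑ i, a (z i)) ^ 3) with hm3
      have e : ∀ l, Ex P (fun z : Fin K → Λ =>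
          (∑ i, a ((Fin.cons l z : Fin (K + 1) → Λ) i)) ^ 4) =
          a l ^ 4 + 6 * (K * I) * a l ^ 2 + 4 * m3 * a l +
            (K * (∑ l, P l * a l ^ 4) + 3 * K * (K - 1) * I ^ 2) := by
        intro l
        simp only [Fin.sum_univ_succ, Fin.cons_zero, Fin.cons_succ]
        have t1 := sign_Ex_comb P (fun _ : Fin K → Λ => (1 : ℝ))
          (fun z : Fin K → Λ => ∑ i, a (z i)) (a l ^ 4) (4 * a l ^ 3)
        have t2 := sign_Ex_comb P (fun z : Fin K → Λ => a l ^ 4 * 1 + 4 * a l ^ 3 * ∑ i, a (z i))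
          (fun z : Fin K → Λ => (∑ i, a (z i)) ^ 2) 1 (6 * a l ^ 2)
        have t3 := sign_Ex_comb P (fun z : Fin K → Λ =>
            1 * (a l ^ 4 * 1 + 4 * a l ^ 3 * ∑ i, a (z i)) + 6 * a l ^ 2 * (∑ i, a (z i)) ^ 2)
          (fun z : Fin K → Λ => (∑ i, a (z i)) ^ 3) 1 (4 * a l)
        have t4 := sign_Ex_comb P (fun z : Fin K → Λ =>
            1 * (1 * (a l ^ 4 * 1 + 4 * a l ^ 3 * ∑ i, a (z i)) +
              6 * a l ^ 2 * (∑ i, a (z i)) ^ 2) + 4 * a l * (∑ i, a (z i)) ^ 3)
          (fun z : Fin K → Λ => (∑ i, a (z i)) ^ 4) 1 1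
        rw [t3, t2, t1, hone, h1, h2, h4, ← hm3] at t4
        rw [show a l ^ 4 + 6 * (K * I) * a l ^ 2 + 4 * m3 * a l +
            (K * (∑ l, P l * a l ^ 4) + 3 * K * (K - 1) * I ^ 2) =
            1 * (1 * (1 * (a l ^ 4 * 1 + 4 * a l ^ 3 * 0) + 6 * a l ^ 2 * (K * I)) +
              4 * a l * m3) +
            1 * (K * (∑ l, P l * a l ^ 4) + 3 * K * (K - 1) * I ^ 2) by ring, ← t4]
        refine congrArg _ (funext fun z => ?_)
        ring
      have e2 : ∀ l, P l * (a l ^ 4 + 6 * (K * I) * a l ^ 2 + 4 * m3 * a l +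
            (K * (∑ l, P l * a l ^ 4) + 3 * K * (K - 1) * I ^ 2)) =
          P l * a l ^ 4 + 6 * (K * I) * (P l * a l ^ 2) + 4 * m3 * (P l * a l) +
            (K * (∑ l, P l * a l ^ 4) + 3 * K * (K - 1) * I ^ 2) * P l := fun l => by ring
      simp only [e, e2, Finset.sum_add_distrib]
      rw [← Finset.mul_sum, ← Finset.mul_sum, ← Finset.mul_sum, h.sum_one, h.mean, h.second]
      push_cast
      ring

theorem sign_Ex_abs {Λ : Type} [Fintype Λ] {K : ℕ} (hK1 : 1 ≤ K)
    {P a : Λ → ℝ} {I : ℝ} (h : FinLaw P a I) (hI : 0 < I)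
    (hK : ∑ l, P l * a l ^ 4 ≤ K * I ^ 2) :
    Real.sqrt (K * I) / 2 ≤ Ex P (fun z : Fin K → Λ => |∑ i, a (z i)|) := by
  have hK0 : (0 : ℝ) < K := by exact_mod_cast hK1
  have hv : 0 < K * I := mul_pos hK0 hI
  set s := Real.sqrt (K * I) with hs
  have hs0 : 0 < s := Real.sqrt_pos.2 hv
  have hss : s ^ 2 = K * I := Real.sq_sqrt hv.le
  obtain ⟨-, h2, h4⟩ := sign_moments h K
  set τ : ℝ := 4 / 3 * s with hτ
  have hτ0 : 0 < τ := by positivity
  have hmono : Ex P (fun z : Fin K → Λ => 1 / τ * (∑ i, a (z i)) ^ 2 +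
      (-(4 / 27 / τ ^ 3)) * (∑ i, a (z i)) ^ 4) ≤ Ex P (fun z : Fin K → Λ => |∑ i, a (z i)|) := by
    refine sign_Ex_mono h.nonneg (fun z => ?_)
    have := sign_cubic_bound (∑ i, a (z i)) τ hτ0
    refine le_trans (le_of_eq ?_) this
    field_simp
    ring
  rw [sign_Ex_comb, h2, h4] at hmono
  refine le_trans ?_ hmono
  have h4' : K * (∑ l, P l * a l ^ 4) + 3 * K * (K - 1) * I ^ 2 ≤ 4 * s ^ 4 := by
    have : s ^ 4 = K ^ 2 * I ^ 2 := by
      rw [show s ^ 4 = (s ^ 2) ^ 2 by ring, hss]; ring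
    rw [this]
    nlinarith only [hK]
  have h5 : 1 / τ * (K * I) + -(4 / 27 / τ ^ 3) * (4 * s ^ 4) = s / 2 := by
    rw [← hss, hτ]
    field_simp
    ring
  rw [← h5]
  have : 0 ≤ 4 / 27 / τ ^ 3 := by positivity
  nlinarith only [h4', this]

theorem boolScheme_of_unbounded
    (h : ∀ R : ℝ, ∃ (Λ : Type) (_ : Fintype Λ) (_ : DecidableEq Λ) (w : ℕ) (P a : Λ → ℝ),
      1 ≤ w ∧ IsScheme w P a ∧ R * w ≤ ∑ l, P l * a l ^ 2) :
    ∃ (w : ℕ) (L : ℝ), 2 ≤ w ∧ Real.sqrt w < L ∧
      IsScheme w (fun _ : ℤˣ => (1 / 2 : ℝ)) (fun b => ((b : ℤ) : ℝ) * L) := by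
  obtain ⟨Λ, _, _, w, P, a, hw, hsch, hR⟩ := h 100
  have hlaw := hsch.finLaw
  set I : ℝ := ∑ l, P l * a l ^ 2 with hIdef
  have hw' : (1 : ℝ) ≤ w := by exact_mod_cast hw
  have hI : 0 < I := by linarith
  -- the number of copies
  obtain ⟨K0, hK0⟩ := exists_nat_ge ((∑ l, P l * a l ^ 4) / I ^ 2)
  set K : ℕ := K0 + 1 with hKdef
  have hK1 : (1 : ℝ) ≤ K := by rw [hKdef]; push_cast; linarith only []
  have hK : ∑ l, P l * a l ^ 4 ≤ K * I ^ 2 := by
    rw [div_le_iff₀ (by (clear * - hI; positivity))] at hK0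
    refine hK0.trans ?_
    rw [hKdef]; push_cast
    nlinarith only []
  set g : (Fin K → Λ) → ℤˣ := fun z => if 0 ≤ ∑ i, a (z i) then 1 else -1 with hg
  set P' : ℤˣ → ℝ := fun l => Ex P (fun z => if g z = l then (1 : ℝ) else 0) with hP'
  set X : ℤˣ → ℝ := fun l => Ex P (fun z => if g z = l then ∑ i, a (z i) else 0) with hX
  have hind : ∀ (l : ℤˣ) (z : Fin K → Λ), (0 : ℝ) ≤ if g z = l then (1 : ℝ) else 0 := by
    intro l z
    split_ifs <;> norm_num
  have hP'0 : ∀ l, 0 ≤ P' l := fun l => Finset.sum_nonneg fun z _ => mul_nonneg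
    (Finset.prod_nonneg fun _ _ => hlaw.nonneg _) (hind l z)
  have ha' : ∀ l, X l = P' l * (X l / P' l) := by
    intro l
    by_cases h0 : P' l = 0
    · rw [h0, zero_mul]
      have hz : ∀ z ∈ (Finset.univ : Finset (Fin K → Λ)),
          (∏ i, P (z i)) * (if g z = l then (1 : ℝ) else 0) = 0 :=
        (Finset.sum_eq_zero_iff_of_nonneg (fun z _ => mul_nonneg
          (Finset.prod_nonneg fun _ _ => hlaw.nonneg _) (hind l z))).1 h0
      refine Finset.sum_eq_zero (fun z hz' => ?_)
      have h1 := hz z hz'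
      by_cases h2 : g z = l
      · simp only [h2, if_true, mul_one] at h1 ⊢
        rw [h1, zero_mul]
      · simp [h2]
    · (clear * - h0; field_simp)
  have hcomp := IsScheme.comp (k := K) hsch g
    (fun l => by
      have := BDeg.full (fun z : Fin K → Λ => if g z = l then (1 : ℝ) else 0)
      rwa [Fintype.card_fin] at this)
    (fun l => X l / P' l) ha'
  have hodd := isScheme_odd hcomp
  set L : ℝ := ∑ c : ℤˣ, ((c : ℤ) : ℝ) * (P' c * (1 + X c / P' c)) with hL
  refine ⟨1 + K * w, L, ?_, ?_, hodd⟩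
  · have : 1 ≤ K * w := Nat.one_le_iff_ne_zero.2 (Nat.mul_ne_zero (by omega) (by omega))
    omega
  · have hL1 : L = (P' 1 - P' (-1)) + (X 1 - X (-1)) := by
      have e1 : ∀ l, P' l * (1 + X l / P' l) = P' l + X l := fun l => by
        rw [mul_add, mul_one, ← ha' l]
      rw [hL, sign_units_sum, e1, e1]
      push_cast
      ring
    have hXabs : X 1 - X (-1) = Ex P (fun z : Fin K → Λ => |∑ i, a (z i)|) := by
      have := sign_Ex_comb P (fun z : Fin K → Λ => if g z = 1 then ∑ i, a (z i) else 0)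
        (fun z : Fin K → Λ => if g z = -1 then ∑ i, a (z i) else 0) 1 (-1)
      rw [one_mul] at this
      have e : X 1 - X (-1) = X 1 + -1 * X (-1) := by ring
      rw [e, ← this]
      refine congrArg _ (funext fun z => ?_)
      by_cases h0 : 0 ≤ ∑ i, a (z i)
      · have h1 : g z = 1 := if_pos h0
        have h2 : (1 : ℤˣ) ≠ -1 := by decide
        simp only [h1, if_true, h2, if_false]
        rw [abs_of_nonneg h0]; ring
      · have h1 : g z = -1 := if_neg h0
        have h2 : (-1 : ℤˣ) ≠ 1 := by decide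
        simp only [h1, if_true, h2, if_false]
        rw [abs_of_neg (not_le.1 h0)]; ring
    have hPsum : P' 1 + P' (-1) = 1 := by
      have := sign_Ex_comb P (fun z : Fin K → Λ => if g z = 1 then (1 : ℝ) else 0)
        (fun z : Fin K → Λ => if g z = -1 then (1 : ℝ) else 0) 1 1
      rw [one_mul, one_mul] at this
      rw [hP']
      simp only
      rw [← this]
      refine Eq.trans (congrArg _ (funext fun z => ?_)) (sign_Ex_one (ι := Fin K) hlaw.sum_one)
      have h2 : (1 : ℤˣ) ≠ -1 := by decide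
      rcases Int.units_eq_one_or (g z) with h | h
      · rw [h]; simp [h2]
      · rw [h]; simp [h2.symm]
    have hPm := hP'0 1
    have habs := sign_Ex_abs (by omega) hlaw hI hK
    have hlow : 5 * Real.sqrt (K * w) ≤ Real.sqrt (K * I) / 2 := by
      have : Real.sqrt (100 * (K * w)) ≤ Real.sqrt (K * I) := by
        apply Real.sqrt_le_sqrt
        nlinarith only [hR]
      rw [Real.sqrt_mul (by norm_num), show (100 : ℝ) = 10 ^ 2 by norm_num,
        Real.sqrt_sq (by norm_num)] at this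
      linarith only [this]
    have h1 : 1 ≤ Real.sqrt (K * w) := by
      rw [Real.one_le_sqrt]
      nlinarith only [hw', hK1]
    have hKw : (0 : ℝ) ≤ K * w := by (clear * - hw; positivity)
    have hup : Real.sqrt ((1 + K * w : ℕ) : ℝ) ≤ 2 * Real.sqrt (K * w) := by
      rw [Real.sqrt_le_left (by positivity), mul_pow, Real.sq_sqrt hKw]
      push_cast
      nlinarith only [hw', hK1]
    rw [hL1, hXabs]
    nlinarith only [hPsum, hPm, habs, hlow, h1, hup]

end Vale.Agent.P047
end
end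

section

section

open MeasureTheory ProbabilityTheory Filter Topology
open scoped ENNReal NNReal

namespace Vale.Agent.P047

/-! ### Weak convergence and partial moments -/

lemma lintegral_open_le_liminf {μ : Measure ℝ} {μs : ℕ → Measure ℝ}
    (h_opens : ∀ G, IsOpen G → μ G ≤ atTop.liminf (fun i ↦ μs i G))
    {h : ℝ → ℝ} (hc : Continuous h) (hnn : ∀ t, 0 ≤ h t) {G : Set ℝ} (hG : IsOpen G) :
    ∫⁻ t in G, ENNReal.ofReal (h t) ∂μ ≤
      atTop.liminf (fun i ↦ ∫⁻ t in G, ENNReal.ofReal (h t) ∂(μs i)) := by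
  have key : ∀ ν : Measure ℝ, ∫⁻ t in G, ENNReal.ofReal (h t) ∂ν =
      ∫⁻ s in Set.Ioi (0 : ℝ), ν (G ∩ {a | s < h a}) := by
    intro ν
    rw [lintegral_eq_lintegral_meas_lt _ (Eventually.of_forall hnn) hc.aemeasurable]
    refine lintegral_congr fun s => ?_
    rw [Measure.restrict_apply' hG.measurableSet, Set.inter_comm]
  simp_rw [key]
  calc ∫⁻ s in Set.Ioi (0 : ℝ), μ (G ∩ {a | s < h a})
      ≤ ∫⁻ s in Set.Ioi (0 : ℝ), atTop.liminf (fun i ↦ (μs i) (G ∩ {a | s < h a})) :=
        lintegral_mono fun s => h_opens _ (hG.inter (isOpen_lt continuous_const hc))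
    _ ≤ atTop.liminf (fun i ↦ ∫⁻ s in Set.Ioi (0 : ℝ), (μs i) (G ∩ {a | s < h a})) := by
        refine lintegral_liminf_le (fun n ↦ Antitone.measurable (fun s t hst ↦
            measure_mono ?_))
        rintro x ⟨hx1, hx2⟩
        exact ⟨hx1, lt_of_le_of_lt hst hx2⟩

lemma tendsto_lintegral_of_null_frontier {μ : Measure ℝ} {μs : ℕ → Measure ℝ}
    (h_opens : ∀ G, IsOpen G → μ G ≤ atTop.liminf (fun i ↦ μs i G))
    {h : ℝ → ℝ} (hc : Continuous h) (hnn : ∀ t, 0 ≤ h t) (c : ℝ≥0∞) (hc0 : c ≠ 0) (hct : c ≠ ∞)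
    (hμ : ∫⁻ t, ENNReal.ofReal (h t) ∂μ = c) (hμs : ∀ i, ∫⁻ t, ENNReal.ofReal (h t) ∂(μs i) = c)
    {J : Set ℝ} (hJ : MeasurableSet J) (hfr : μ (frontier J) = 0) :
    Tendsto (fun i => ∫⁻ t in J, ENNReal.ofReal (h t) ∂(μs i)) atTop
      (𝓝 (∫⁻ t in J, ENNReal.ofReal (h t) ∂μ)) := by
  let D : Measure ℝ → Measure ℝ := fun ν => c⁻¹ • ν.withDensity (fun t => ENNReal.ofReal (h t))
  have hD : ∀ (ν : Measure ℝ) (S : Set ℝ), MeasurableSet S →
      D ν S = c⁻¹ * ∫⁻ t in S, ENNReal.ofReal (h t) ∂ν := by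
    intro ν S hS
    simp only [D, Measure.smul_apply, smul_eq_mul]
    rw [withDensity_apply _ hS]
  have hp : ∀ ν : Measure ℝ, ∫⁻ t, ENNReal.ofReal (h t) ∂ν = c → IsProbabilityMeasure (D ν) := by
    intro ν hν
    refine ⟨?_⟩
    rw [hD _ _ MeasurableSet.univ, Measure.restrict_univ, hν, ENNReal.inv_mul_cancel hc0 hct]
  have := hp μ hμ
  have := fun i => hp (μs i) (hμs i)
  have hop : ∀ G, IsOpen G → D μ G ≤ atTop.liminf (fun i ↦ D (μs i) G) := by
    intro G hG
    have h1 := lintegral_open_le_liminf h_opens hc hnn hG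
    have h2 : ∀ i, D (μs i) G = c⁻¹ * ∫⁻ t in G, ENNReal.ofReal (h t) ∂(μs i) := fun i =>
      hD _ _ hG.measurableSet
    simp_rw [h2, hD _ _ hG.measurableSet]
    rw [ENNReal.liminf_const_mul_of_ne_top (ENNReal.inv_ne_top.2 hc0)]
    (clear * - h1; gcongr)
  have hac : D μ (frontier J) = 0 := by
    simp only [D, Measure.smul_apply, smul_eq_mul]
    rw [(withDensity_absolutelyContinuous μ _) hfr, mul_zero]
  have h1 := tendsto_measure_of_null_frontier (μ := D μ) (μs := fun i => D (μs i)) hop hac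
  have h2 := ENNReal.Tendsto.const_mul (a := c) h1 (Or.inr hct)
  have h3 : ∀ ν : Measure ℝ, c * D ν J = ∫⁻ t in J, ENNReal.ofReal (h t) ∂ν := by
    intro ν
    rw [hD _ _ hJ, ← mul_assoc, ENNReal.mul_inv_cancel hc0 hct, one_mul]
  simpa only [h3] using h2

end Vale.Agent.P047
end
end

section

section

open MeasureTheory ProbabilityTheory Filter Topology
open scoped ENNReal NNReal

namespace Vale.Agent.P047

section FiniteLaw

variable {Λ : Type} [Fintype Λ]


/-- The measure with weights `P`. -/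
noncomputable def lawMeas [MeasurableSpace Λ] (P : Λ → ℝ) : Measure Λ :=
  ∑ x, ENNReal.ofReal (P x) • Measure.dirac x

variable [MeasurableSpace Λ] [MeasurableSingletonClass Λ]

lemma lawMeas_singleton (P : Λ → ℝ) (x : Λ) : lawMeas P {x} = ENNReal.ofReal (P x) := by
  classical
  rw [lawMeas, Measure.finsetSum_apply]
  simp only [Measure.smul_apply, MeasurableSet.singleton, Measure.dirac_apply', Set.indicator, Set.mem_singleton_iff, Pi.one_apply, smul_eq_mul, mul_ite, mul_one, mul_zero, Finset.sum_ite_eq', Finset.mem_univ, ↓reduceIte]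
  
lemma lawMeas_isProb {P : Λ → ℝ} (hP : ∀ x, 0 ≤ P x) (hP1 : ∑ x, P x = 1) :
    IsProbabilityMeasure (lawMeas P) := by
  refine ⟨?_⟩
  rw [lawMeas, Measure.finsetSum_apply]
  simp only [Measure.smul_apply, measure_univ, smul_eq_mul, mul_one]
  rw [← ENNReal.ofReal_sum_of_nonneg (fun x _ => hP x), hP1, ENNReal.ofReal_one]

lemma integral_lawMeas {P : Λ → ℝ} (hP : ∀ x, 0 ≤ P x) (hP1 : ∑ x, P x = 1) (f : Λ → ℝ) :
    ∫ x, f x ∂(lawMeas P) = ∑ x, P x * f x := by
  have := lawMeas_isProb hP hP1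
  rw [integral_fintype .of_finite]
  refine Finset.sum_congr rfl fun x _ => ?_
  rw [Measure.real, lawMeas_singleton, ENNReal.toReal_ofReal (hP x), smul_eq_mul]

lemma integral_pi_lawMeas {P : Λ → ℝ} (hP : ∀ x, 0 ≤ P x) (hP1 : ∑ x, P x = 1) {K : ℕ}
    (f : (Fin K → Λ) → ℝ) :
    ∫ x, f x ∂(Measure.pi (fun _ : Fin K => lawMeas P)) = ∑ x, (∏ k, P (x k)) * f x := by
  have := lawMeas_isProb hP hP1
  rw [integral_fintype .of_finite]
  refine Finset.sum_congr rfl fun x _ => ?_
  rw [Measure.real, Measure.pi_singleton, ENNReal.toReal_prod, smul_eq_mul]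
  congr 1
  refine Finset.prod_congr rfl fun k _ => ?_
  rw [lawMeas_singleton, ENNReal.toReal_ofReal (hP _)]

lemma wire_eq (a : Λ → ℝ) (I : ℝ) {K : ℕ} (x : Fin K → Λ) :
    wire a I x = (√(K : ℝ))⁻¹ * ∑ k, a (x k) / √I := by
  rw [wire, div_eq_inv_mul, Real.sqrt_mul (Nat.cast_nonneg K), mul_inv, mul_assoc]
  congr 1
  simp_rw [div_eq_inv_mul]
  rw [Finset.mul_sum]

/-- The law of the wire. -/
noncomputable def wireLaw (P a : Λ → ℝ) (I : ℝ) (K : ℕ) : Measure ℝ :=
  (Measure.pi (fun _ : Fin K => lawMeas P)).map (fun x => wire a I x)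

lemma wireLaw_isProb {P : Λ → ℝ} (hP : ∀ x, 0 ≤ P x) (hP1 : ∑ x, P x = 1) (a : Λ → ℝ) (I : ℝ)
    (K : ℕ) : IsProbabilityMeasure (wireLaw P a I K) := by
  have := lawMeas_isProb hP hP1
  exact Measure.isProbabilityMeasure_map (measurable_of_finite _).aemeasurable

lemma integral_wireLaw {P : Λ → ℝ} (hP : ∀ x, 0 ≤ P x) (hP1 : ∑ x, P x = 1) (a : Λ → ℝ) (I : ℝ)
    (K : ℕ) {f : ℝ → ℝ} (hf : Measurable f) :
    ∫ t, f t ∂(wireLaw P a I K) = ∑ x : Fin K → Λ, (∏ k, P (x k)) * f (wire a I x) := by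
  rw [wireLaw, integral_map (measurable_of_finite _).aemeasurable hf.aestronglyMeasurable,
    integral_pi_lawMeas hP hP1]

lemma charFun_wireLaw {P : Λ → ℝ} (hP : ∀ x, 0 ≤ P x) (hP1 : ∑ x, P x = 1) (a : Λ → ℝ) (I : ℝ)
    (hI : 0 < I) (K : ℕ) (t : ℝ) :
    charFun (wireLaw P a I K) t =
      (charFun ((lawMeas P).map (fun x => a x / √I)) ((√(K : ℝ))⁻¹ * t)) ^ K := by
  have := lawMeas_isProb hP hP1
  have hX : Measurable (fun x => a x / √I) := measurable_of_finite _
  have h1 : wireLaw P a I K = (Measure.pi (fun _ : Fin K => lawMeas P)).map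
      (fun x => (√(K : ℝ))⁻¹ * ∑ k, a (x k) / √I) := by
    rw [wireLaw]
    congr 1
    funext x
    exact wire_eq a I x
  have hind : iIndepFun (fun (k : Fin K) (x : Fin K → Λ) => a (x k) / √I)
      (Measure.pi (fun _ : Fin K => lawMeas P)) :=
    iIndepFun_pi (X := fun (_ : Fin K) (y : Λ) => a y / √I) (fun _ => hX.aemeasurable)
  rw [h1, charFun_map_mul_comp, hind.charFun_map_fun_sum_eq_prod
    (fun k => (measurable_of_finite _).aemeasurable)]
  · rw [Finset.prod_apply]
    have : ∀ k : Fin K, (Measure.pi (fun _ : Fin K => lawMeas P)).map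
        (fun x : Fin K → Λ => a (x k) / √I) = (lawMeas P).map (fun y => a y / √I) := by
      intro k
      have hm := (measurePreserving_eval (fun _ : Fin K => lawMeas P) k).map_eq
      calc (Measure.pi (fun _ : Fin K => lawMeas P)).map (fun x : Fin K → Λ => a (x k) / √I)
          = ((Measure.pi (fun _ : Fin K => lawMeas P)).map (Function.eval k)).map
              (fun y => a y / √I) := by
            rw [Measure.map_map hX (measurable_pi_apply k)]
            rfl
        _ = _ := by rw [hm]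
    simp only [this, Finset.prod_const, Finset.card_univ, Fintype.card_fin]
  · exact (measurable_of_finite _).aemeasurable

lemma tendsto_wireLaw {P : Λ → ℝ} (hP : ∀ x, 0 ≤ P x) (hP1 : ∑ x, P x = 1) (a : Λ → ℝ)
    (ha : ∑ x, P x * a x = 0) (I : ℝ) (haI : ∑ x, P x * a x ^ 2 = I) (hI : 0 < I) :
    Tendsto (β := ProbabilityMeasure ℝ)
      (fun K => ⟨wireLaw P a I K, wireLaw_isProb hP hP1 a I K⟩) atTop
      (𝓝 ⟨gaussianReal 0 1, inferInstance⟩) := by
  have := lawMeas_isProb hP hP1
  refine ProbabilityMeasure.tendsto_iff_tendsto_charFun.2 fun t ↦ ?_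
  have h0 : (lawMeas P)[fun x => a x / √I] = 0 := by
    rw [integral_lawMeas hP hP1]
    simp_rw [← mul_div_assoc]
    rw [← Finset.sum_div, ha, zero_div]
  have h1 : (lawMeas P)[(fun x => a x / √I) ^ 2] = 1 := by
    simp only [Pi.pow_apply]
    rw [integral_lawMeas hP hP1]
    simp_rw [div_pow, Real.sq_sqrt hI.le, ← mul_div_assoc]
    rw [← Finset.sum_div, haI, div_self hI.ne']
  have h2 := tendsto_charFun_inv_sqrt_mul_pow (P := lawMeas P) (X := fun x => a x / √I)
    (measurable_of_finite _).aemeasurable h0 h1 t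
  simp only [ProbabilityMeasure.coe_mk]
  simp_rw [charFun_wireLaw hP hP1 a I hI]
  simpa only [charFun_gaussianReal, Complex.ofReal_zero, mul_zero, zero_mul, NNReal.coe_one, Complex.ofReal_one,     one_mul, zero_sub, neg_div] using h2

omit [Fintype Λ] [MeasurableSpace Λ] [MeasurableSingletonClass Λ] in
lemma memLp_fin {α : Type*} [Finite α] [MeasurableSpace α] [MeasurableSingletonClass α]
    (μ : Measure α) [IsFiniteMeasure μ] (f : α → ℝ) : MemLp f 2 μ := by
  have := Fintype.ofFinite α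
  refine MemLp.of_bound (measurable_of_finite f).aestronglyMeasurable (∑ x, ‖f x‖)
    (Eventually.of_forall fun x => ?_)
  exact Finset.single_le_sum (f := fun x => ‖f x‖) (fun _ _ => norm_nonneg _) (Finset.mem_univ x)

lemma moments_wireLaw {P : Λ → ℝ} (hP : ∀ x, 0 ≤ P x) (hP1 : ∑ x, P x = 1) (a : Λ → ℝ)
    (ha : ∑ x, P x * a x = 0) (I : ℝ) (haI : ∑ x, P x * a x ^ 2 = I) (hI : 0 < I) {K : ℕ}
    (hK : K ≠ 0) :
    ∫ t, t ∂(wireLaw P a I K) = 0 ∧ ∫ t, t ^ 2 ∂(wireLaw P a I K) = 1 := by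
  have := lawMeas_isProb hP hP1
  set μ : Measure (Fin K → Λ) := Measure.pi (fun _ : Fin K => lawMeas P) with hμ
  have hX : Measurable (fun x => a x / √I) := measurable_of_finite _
  have h0 : (lawMeas P)[fun x => a x / √I] = 0 := by
    rw [integral_lawMeas hP hP1]
    simp_rw [← mul_div_assoc]
    rw [← Finset.sum_div, ha, zero_div]
  have h1 : (lawMeas P)[(fun x => a x / √I) ^ 2] = 1 := by
    simp only [Pi.pow_apply]
    rw [integral_lawMeas hP hP1]
    simp_rw [div_pow, Real.sq_sqrt hI.le, ← mul_div_assoc]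
    rw [← Finset.sum_div, haI, div_self hI.ne']
  have hmem : ∀ k : Fin K, MemLp (fun x : Λ => a x / √I) 2 (lawMeas P) := fun _ => memLp_fin _ _
  have hvar : Var[∑ k : Fin K, fun x : Fin K → Λ => a (x k) / √I; μ] = K := by
    rw [hμ, variance_sum_pi hmem]
    have : Var[fun x : Λ => a x / √I; lawMeas P] = 1 := by
      rw [variance_eq_sub (hmem ⟨0, Nat.pos_of_ne_zero hK⟩), h1, h0]
      norm_num
    simp only [this, Finset.sum_const, Finset.card_univ, Fintype.card_fin, nsmul_eq_mul, mul_one]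
  have hmean : μ[∑ k : Fin K, fun x : Fin K → Λ => a (x k) / √I] = 0 := by
    simp only [Finset.sum_apply]
    rw [integral_finsetSum _ (fun _ _ => .of_finite)]
    refine Finset.sum_eq_zero fun k _ => ?_
    rw [hμ, integral_comp_eval (μ := fun _ : Fin K => lawMeas P) (i := k)
      (f := fun y => a y / √I) hX.aestronglyMeasurable]
    exact h0
  have hsq : μ[(∑ k : Fin K, fun x : Fin K → Λ => a (x k) / √I) ^ 2] = (K : ℝ) := by
    have := variance_eq_sub (μ := μ) (X := ∑ k : Fin K, fun x : Fin K → Λ => a (x k) / √I)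
      (memLp_fin _ _)
    rw [hvar, hmean] at this
    linarith only [this]
  have hwire : ∀ x : Fin K → Λ, wire a I x =
      (√(K : ℝ))⁻¹ * (∑ k : Fin K, fun x : Fin K → Λ => a (x k) / √I) x := by
    intro x
    rw [wire_eq a I, Finset.sum_apply]
  constructor
  · rw [wireLaw, integral_map (f := fun t : ℝ => t) (measurable_of_finite _).aemeasurable
      (by fun_prop)]
    simp_rw [hwire]
    rw [integral_const_mul, hmean, mul_zero]
  · rw [wireLaw, integral_map (f := fun t : ℝ => t ^ 2) (measurable_of_finite _).aemeasurable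
      (by fun_prop)]
    simp_rw [hwire, mul_pow]
    rw [integral_const_mul]
    have h3 : ∫ x, ((∑ k : Fin K, fun x : Fin K → Λ => a (x k) / √I) x) ^ 2 ∂μ = K := hsq
    rw [h3, inv_pow, Real.sq_sqrt (Nat.cast_nonneg K)]
    exact inv_mul_cancel₀ (Nat.cast_ne_zero.2 hK)

lemma integrable_wireLaw {P : Λ → ℝ} (hP : ∀ x, 0 ≤ P x) (hP1 : ∑ x, P x = 1) (a : Λ → ℝ)
    (I : ℝ) (K : ℕ) {f : ℝ → ℝ} (hf : Measurable f) : Integrable f (wireLaw P a I K) := by
  have := lawMeas_isProb hP hP1
  rw [wireLaw, integrable_map_measure hf.aestronglyMeasurable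
    (measurable_of_finite _).aemeasurable]
  exact .of_finite

lemma tendsto_setIntegral_wireLaw {P : Λ → ℝ} (hP : ∀ x, 0 ≤ P x) (hP1 : ∑ x, P x = 1)
    (a : Λ → ℝ) (ha : ∑ x, P x * a x = 0) (I : ℝ) (haI : ∑ x, P x * a x ^ 2 = I) (hI : 0 < I)
    {J : Set ℝ} (hJ : MeasurableSet J) (hfr : volume (frontier J) = 0)
    {h : ℝ → ℝ} (hc : Continuous h) (hnn : ∀ t, 0 ≤ h t) (c : ℝ) (hc0 : 0 < c)
    (hγi : Integrable h (gaussianReal 0 1)) (hγ : ∫ t, h t ∂(gaussianReal 0 1) = c)
    (hw : ∀ K, K ≠ 0 → ∫ t, h t ∂(wireLaw P a I K) = c) :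
    Tendsto (fun K => ∫ t in J, h t ∂(wireLaw P a I K)) atTop
      (𝓝 (∫ t in J, h t ∂(gaussianReal 0 1))) := by
  have hprob := wireLaw_isProb hP hP1 a I
  have hlim := tendsto_wireLaw hP hP1 a ha I haI hI
  rw [← tendsto_add_atTop_iff_nat 1]
  have hlim' := hlim.comp (tendsto_add_atTop_nat 1)
  have h_opens : ∀ G, IsOpen G → gaussianReal 0 1 G ≤
      atTop.liminf (fun K ↦ wireLaw P a I (K + 1) G) := fun G hG =>
    ProbabilityMeasure.le_liminf_measure_open_of_tendsto hlim' hG
  have hi : ∀ K, Integrable h (wireLaw P a I K) := fun K =>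
    integrable_wireLaw hP hP1 a I K hc.measurable
  have h1 : ∀ ν : Measure ℝ, Integrable h ν → ∫ t, h t ∂ν = c →
      ∫⁻ t, ENNReal.ofReal (h t) ∂ν = ENNReal.ofReal c := by
    intro ν hν1 hν2
    rw [← ofReal_integral_eq_lintegral_ofReal hν1 (Eventually.of_forall hnn), hν2]
  have h2 := tendsto_lintegral_of_null_frontier h_opens hc hnn (ENNReal.ofReal c)
    (by simpa only [ne_eq, ENNReal.ofReal_eq_zero, not_le] using hc0) ENNReal.ofReal_ne_top (h1 _ hγi hγ)
    (fun K => h1 _ (hi _) (hw (K + 1) (Nat.succ_ne_zero K))) hJ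
    ((gaussianReal_absolutelyContinuous 0 one_ne_zero) hfr)
  have h3 : ∀ ν : Measure ℝ, Integrable h ν →
      ∫ t in J, h t ∂ν = (∫⁻ t in J, ENNReal.ofReal (h t) ∂ν).toReal := by
    intro ν hν
    rw [integral_eq_lintegral_of_nonneg_ae (Eventually.of_forall hnn)
      hν.restrict.aestronglyMeasurable]
  rw [h3 _ hγi]
  simp_rw [fun K => h3 _ (hi K)]
  refine (ENNReal.tendsto_toReal ?_).comp h2
  refine ne_top_of_le_ne_top (ENNReal.ofReal_ne_top (r := c)) ?_
  rw [← h1 _ hγi hγ]
  exact setLIntegral_le_lintegral _ _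

lemma gaussian_sq : Integrable (fun t : ℝ => t ^ 2) (gaussianReal 0 1) ∧
    ∫ t, t ^ 2 ∂(gaussianReal 0 1) = 1 := by
  have h := memLp_id_gaussianReal (μ := 0) (v := 1) 2
  refine ⟨by simpa only [id_eq] using h.integrable_sq, ?_⟩
  have h1 := variance_eq_sub (μ := gaussianReal 0 1) (X := id) (by simpa using h)
  have h2 : ∫ x, id x ∂(gaussianReal 0 1) = 0 := integral_id_gaussianReal
  rw [variance_id_gaussianReal, h2] at h1
  simpa using h1.symm

lemma gaussian_id : Integrable (fun t : ℝ => t) (gaussianReal 0 1) ∧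
    ∫ t, t ∂(gaussianReal 0 1) = 0 := by
  have h := memLp_id_gaussianReal (μ := 0) (v := 1) 1
  have h1 : Integrable (id : ℝ → ℝ) (gaussianReal 0 1) := h.integrable (by simp)
  exact ⟨h1, integral_id_gaussianReal⟩

/-- The partial moments of the wires converge to those of the Gaussian law. -/
theorem tendsto_partial_moment {P : Λ → ℝ} (hP : ∀ x, 0 ≤ P x) (hP1 : ∑ x, P x = 1)
    (a : Λ → ℝ) (ha : ∑ x, P x * a x = 0) (I : ℝ) (haI : ∑ x, P x * a x ^ 2 = I) (hI : 0 < I)
    {J : Set ℝ} (hJ : MeasurableSet J) (hfr : volume (frontier J) = 0) (r : ℕ) (hr : r ≤ 2) :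
    Tendsto (fun K : ℕ => ∑ x : Fin K → Λ, (∏ k, P (x k)) *
      J.indicator (fun t => t ^ r) (wire a I x)) atTop
      (𝓝 (∫ t in J, t ^ r ∂(gaussianReal 0 1))) := by
  have hm : ∀ K, K ≠ 0 → _ := fun K hK => moments_wireLaw hP hP1 a ha I haI hI (K := K) hK
  have hprob := wireLaw_isProb hP hP1 a I
  have hγ1 := gaussian_id
  have hγ2 := gaussian_sq
  have hsum : ∀ (K : ℕ) (r : ℕ), ∑ x : Fin K → Λ, (∏ k, P (x k)) *
      J.indicator (fun t => t ^ r) (wire a I x) = ∫ t in J, t ^ r ∂(wireLaw P a I K) := by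
    intro K r
    rw [← integral_indicator hJ, integral_wireLaw hP hP1]
    exact (measurable_id.pow_const r).indicator hJ
  simp_rw [hsum]
  have hint : ∀ (K : ℕ) (f : ℝ → ℝ), Measurable f → Integrable f (wireLaw P a I K) :=
    fun K f hf => integrable_wireLaw hP hP1 a I K hf
  have t0 : Tendsto (fun K => ∫ t in J, (1 : ℝ) ∂(wireLaw P a I K)) atTop
      (𝓝 (∫ t in J, (1 : ℝ) ∂(gaussianReal 0 1))) :=
    tendsto_setIntegral_wireLaw hP hP1 a ha I haI hI hJ hfr (h := fun _ => 1) continuous_const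
      (fun _ => zero_le_one) 1 one_pos (integrable_const 1) (by simp) (fun K hK => by simp)
  have t2 : Tendsto (fun K => ∫ t in J, t ^ 2 ∂(wireLaw P a I K)) atTop
      (𝓝 (∫ t in J, t ^ 2 ∂(gaussianReal 0 1))) :=
    tendsto_setIntegral_wireLaw hP hP1 a ha I haI hI hJ hfr (h := fun t => t ^ 2) (by fun_prop)
      (fun t => sq_nonneg t) 1 one_pos hγ2.1 hγ2.2 (fun K hK => (hm K hK).2)
  have e1 : ∀ ν : Measure ℝ, IsProbabilityMeasure ν → Integrable (fun t : ℝ => t) ν →
      Integrable (fun t : ℝ => t ^ 2) ν → ∀ S : Set ℝ,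
      ∫ t in S, (1 + t) ^ 2 ∂ν = ∫ t in S, (1 : ℝ) ∂ν + 2 * ∫ t in S, t ∂ν +
        ∫ t in S, t ^ 2 ∂ν := by
    intro ν hν h1 h2 S
    have : ∀ t : ℝ, (1 + t) ^ 2 = 1 + 2 * t + t ^ 2 := fun t => by ring
    simp_rw [this]
    rw [integral_add, integral_add, integral_const_mul]
    · exact (integrable_const 1).restrict
    · exact (h1.const_mul 2).restrict
    · exact ((integrable_const 1).add (h1.const_mul 2)).restrict
    · exact h2.restrict
  have t12 : Tendsto (fun K => ∫ t in J, (1 + t) ^ 2 ∂(wireLaw P a I K)) atTop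
      (𝓝 (∫ t in J, (1 + t) ^ 2 ∂(gaussianReal 0 1))) := by
    refine tendsto_setIntegral_wireLaw hP hP1 a ha I haI hI hJ hfr (h := fun t => (1 + t) ^ 2)
      (by fun_prop) (fun t => sq_nonneg _) 2 two_pos ?_ ?_ ?_
    · have : (fun t : ℝ => (1 + t) ^ 2) = fun t => 1 + 2 * t + t ^ 2 := by
        funext t; ring
      rw [this]
      exact ((integrable_const 1).add (hγ1.1.const_mul 2)).add hγ2.1
    · have := e1 (gaussianReal 0 1) inferInstance hγ1.1 hγ2.1 Set.univ
      simp only [Measure.restrict_univ] at this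
      rw [this, hγ1.2, hγ2.2]
      simp only [integral_const, probReal_univ, smul_eq_mul, mul_one, mul_zero, add_zero]
      norm_num
    · intro K hK
      have := e1 (wireLaw P a I K) (hprob K) (hint K _ measurable_id)
        (hint K _ (measurable_id.pow_const 2)) Set.univ
      simp only [Measure.restrict_univ] at this
      rw [this, (hm K hK).1, (hm K hK).2]
      simp only [integral_const, probReal_univ, smul_eq_mul, mul_one, mul_zero, add_zero]
      norm_num
  interval_cases r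
  · simpa only [pow_zero, integral_const, MeasurableSet.univ, measureReal_restrict_apply, Set.univ_inter,     smul_eq_mul, mul_one] using t0
  · have e2 : ∀ ν : Measure ℝ, IsProbabilityMeasure ν → Integrable (fun t : ℝ => t) ν →
        Integrable (fun t : ℝ => t ^ 2) ν →
        ∫ t in J, t ^ 1 ∂ν = (∫ t in J, (1 + t) ^ 2 ∂ν - ∫ t in J, (1 : ℝ) ∂ν -
          ∫ t in J, t ^ 2 ∂ν) / 2 := by
      intro ν hν h1 h2
      rw [e1 ν hν h1 h2 J]
      simp only [pow_one]
      ring
    rw [e2 _ inferInstance hγ1.1 hγ2.1]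
    simp_rw [fun K => e2 (wireLaw P a I K) (hprob K) (hint K _ measurable_id)
      (hint K _ (measurable_id.pow_const 2))]
    exact ((t12.sub t0).sub t2).div_const 2
  · exact t2

end FiniteLaw

/-- Central limit theorem for the partial moments of a wire over a cell. -/
theorem clt_cell {Λ : Type} [Fintype Λ] {P a : Λ → ℝ} {I : ℝ} (h : FinLaw P a I) (hI : 0 < I)
    (A : Set ℝ) (hA : A.OrdConnected) (r : ℕ) (hr : r ≤ 2) :
    Tendsto (fun K : ℕ => Ex P (fun z : Fin K → Λ => A.indicator (fun t => t ^ r) (wire a I z)))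
      atTop (𝓝 (gm A r)) := by
  let : MeasurableSpace Λ := ⊤
  have hms : MeasurableSingletonClass Λ := ⟨fun _ => trivial⟩
  have hc : Convex ℝ A := hA.convex
  have hfr : volume (frontier A) = 0 := hc.addHaar_frontier volume
  exact tendsto_partial_moment h.nonneg h.sum_one a h.mean I h.second hI hA.measurableSet hfr r hr

end Vale.Agent.P047
end
end

section

section

open Finset Filter MeasureTheory ProbabilityTheory
open scoped Topology

namespace Vale.Agent.P047

/-! ### Moments of sums over `Fin r` -/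

section
variable {X : Type} [Fintype X] {P : X → ℝ}

theorem llnEx_succ {r : ℕ} (F : (Fin (r + 1) → X) → ℝ) :
    Ex P F = ∑ x, P x * Ex P (fun z : Fin r → X => F (Fin.cons x z)) := by
  unfold Ex
  rw [← (Fin.consEquiv (fun _ : Fin (r + 1) => X)).sum_comp, Fintype.sum_prod_type]
  refine Finset.sum_congr rfl (fun x _ => ?_)
  rw [Finset.mul_sum]
  refine Finset.sum_congr rfl (fun z _ => ?_)
  simp only [Fin.consEquiv, Equiv.coe_fn_mk, Fin.prod_univ_succ, Fin.cons_zero, Fin.cons_succ]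
  ring

theorem llnEx_poly {r : ℕ} (h1 : ∑ x, P x = 1) (c0 c1 c2 c3 c4 : ℝ)
    (T : (Fin r → X) → ℝ) :
    Ex P (fun z => c0 + c1 * T z + c2 * T z ^ 2 + c3 * T z ^ 3 + c4 * T z ^ 4) =
      c0 + c1 * Ex P T + c2 * Ex P (fun z => T z ^ 2) + c3 * Ex P (fun z => T z ^ 3) +
        c4 * Ex P (fun z => T z ^ 4) := by
  have hone : ∑ z : Fin r → X, ∏ i, P (z i) = 1 := by
    rw [← Fintype.piFinset_univ, ← Finset.prod_univ_sum]
    simp only [h1, prod_const_one]
  have hc : c0 = ∑ z : Fin r → X, (∏ i, P (z i)) * c0 := by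
    rw [← Finset.sum_mul, hone, one_mul]
  unfold Ex
  conv_rhs => rw [hc]
  simp only [Finset.mul_sum, ← Finset.sum_add_distrib]
  exact Finset.sum_congr rfl (fun z _ => by ring)

theorem lln_moments {a : X → ℝ} {I : ℝ} (h : FinLaw P a I) (r : ℕ) :
    Ex P (fun z : Fin r → X => ∑ i, a (z i)) = 0 ∧
    Ex P (fun z : Fin r → X => (∑ i, a (z i)) ^ 2) = r * I ∧
    Ex P (fun z : Fin r → X => (∑ i, a (z i)) ^ 4) =
      r * (∑ l, P l * a l ^ 4) + 3 * r * (r - 1) * I ^ 2 := by
  induction r with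
  | zero => simp only [Ex, univ_unique, univ_eq_empty, prod_empty, sum_empty, mul_zero, sum_const_zero, ne_eq, OfNat.ofNat_ne_zero, not_false_eq_true, zero_pow, CharP.cast_eq_zero, zero_mul, zero_sub, mul_neg, mul_one, neg_zero, add_zero, and_self]
  | succ r ih =>
    obtain ⟨i1, i2, i4⟩ := ih
    refine ⟨?_, ?_, ?_⟩
    · rw [llnEx_succ]
      have : ∀ x ∈ (univ : Finset X), P x * Ex P (fun z : Fin r → X =>
          ∑ i, a ((Fin.cons x z : Fin (r + 1) → X) i)) = P x * a x := by
        intro x _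
        congr 1
        have := llnEx_poly h.sum_one (a x) 1 0 0 0 (fun z : Fin r → X => ∑ i, a (z i))
        simp only [zero_mul, add_zero, one_mul, i1] at this
        rw [← this]
        simp only [Fin.sum_univ_succ, Fin.cons_zero, Fin.cons_succ]
      rw [Finset.sum_congr rfl this, h.mean]
    · rw [llnEx_succ]
      have : ∀ x ∈ (univ : Finset X), P x * Ex P (fun z : Fin r → X =>
          (∑ i, a ((Fin.cons x z : Fin (r + 1) → X) i)) ^ 2) =
            P x * a x ^ 2 + r * I * P x := by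
        intro x _
        have := llnEx_poly h.sum_one (a x ^ 2) (2 * a x) 1 0 0
          (fun z : Fin r → X => ∑ i, a (z i))
        simp only [zero_mul, add_zero, one_mul, i1, i2, mul_zero] at this
        rw [show P x * a x ^ 2 + r * I * P x = P x * (a x ^ 2 + r * I) by ring, ← this]
        congr 2
        funext z
        simp only [Fin.sum_univ_succ, Fin.cons_zero, Fin.cons_succ]
        ring
      rw [Finset.sum_congr rfl this, Finset.sum_add_distrib, ← Finset.mul_sum, h.second,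
        h.sum_one]
      push_cast
      ring
    · rw [llnEx_succ]
      have : ∀ x ∈ (univ : Finset X), P x * Ex P (fun z : Fin r → X =>
          (∑ i, a ((Fin.cons x z : Fin (r + 1) → X) i)) ^ 4) =
            P x * a x ^ 4 + 6 * (r * I) * (P x * a x ^ 2) +
            4 * Ex P (fun z : Fin r → X => (∑ i, a (z i)) ^ 3) * (P x * a x) +
            (r * (∑ l, P l * a l ^ 4) + 3 * r * (r - 1) * I ^ 2) * P x := by
        intro x _
        have := llnEx_poly h.sum_one (a x ^ 4) (4 * a x ^ 3) (6 * a x ^ 2) (4 * a x) 1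
          (fun z : Fin r → X => ∑ i, a (z i))
        simp only [one_mul, i1, i2, mul_zero, i4, add_zero] at this
        rw [show P x * a x ^ 4 + 6 * (r * I) * (P x * a x ^ 2) +
            4 * Ex P (fun z : Fin r → X => (∑ i, a (z i)) ^ 3) * (P x * a x) +
            (r * (∑ l, P l * a l ^ 4) + 3 * r * (r - 1) * I ^ 2) * P x =
            P x * (a x ^ 4 + 6 * a x ^ 2 * (r * I) +
              4 * a x * Ex P (fun z : Fin r → X => (∑ i, a (z i)) ^ 3) +
              (r * (∑ l, P l * a l ^ 4) + 3 * r * (r - 1) * I ^ 2)) by ring, ← this]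
        congr 2
        funext z
        simp only [Fin.sum_univ_succ, Fin.cons_zero, Fin.cons_succ]
        ring
      rw [Finset.sum_congr rfl this, Finset.sum_add_distrib, Finset.sum_add_distrib,
        Finset.sum_add_distrib, ← Finset.mul_sum, ← Finset.mul_sum, ← Finset.mul_sum, h.second,
        h.sum_one, h.mean]
      push_cast
      ring

end

/-! ### Degree of the merged labelling -/

theorem mlab_eq_some_iff {X : Type} (C : X → Prop) [DecidablePred C] (z0 : ℕ) {r : ℕ}
    (z : Fin r → X) (f : Fin r → Option X) :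
    mlab C z0 z = some f ↔ z0 ≤ (univ.filter (fun i => f i = none)).card ∧
      ∀ i, (if C (z i) then none else some (z i)) = f i := by
  unfold mlab
  constructor
  · intro h
    split_ifs at h with h0
    have hf : (fun i => if C (z i) then none else some (z i)) = f := Option.some.inj h
    have hall : ∀ i, (if C (z i) then none else some (z i)) = f i := fun i => congrFun hf i
    refine ⟨?_, hall⟩
    refine h0.trans (le_of_eq ?_)
    congr 1
    ext i
    simp only [mem_filter, mem_univ, true_and]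
    rw [← hall i]
    by_cases hc : C (z i) <;> simp [hc]
  · rintro ⟨h0, hall⟩
    have hcard : (univ.filter (fun i => f i = none)).card =
        (univ.filter (fun i => C (z i))).card := by
      congr 1
      ext i
      simp only [mem_filter, mem_univ, true_and]
      rw [← hall i]
      by_cases hc : C (z i) <;> simp [hc]
    rw [hcard] at h0
    rw [if_pos h0]
    congr 1
    funext i
    exact hall i

theorem mlab_bdeg_some {κ Λ : Type} [Fintype κ] [DecidableEq κ] [Fintype Λ] [DecidableEq Λ]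
    (C : (κ → Λ) → Prop) [DecidablePred C] (v : ℕ) (hv : v ≤ Fintype.card κ)
    (hC : BDeg (Fintype.card κ - v) (fun x => if C x then (1 : ℝ) else 0)) (r z0 : ℕ)
    (f : Fin r → Option (κ → Λ)) :
    BDeg (r * Fintype.card κ - z0 * v)
      (fun z : Fin r × κ → Λ => if mlab C z0 (fun i j => z (i, j)) = some f
        then (1 : ℝ) else 0) := by
  by_cases h0 : z0 ≤ (univ.filter (fun i => f i = none)).card
  · have e : (fun z : Fin r × κ → Λ => if mlab C z0 (fun i j => z (i, j)) = some f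
        then (1 : ℝ) else 0) = fun z => ∏ i : Fin r,
          (if (if C (fun j => z (i, j)) then none else some (fun j => z (i, j))) = f i
            then (1 : ℝ) else 0) := by
      funext z
      by_cases h : mlab C z0 (fun i j => z (i, j)) = some f
      · rw [if_pos h]
        rw [mlab_eq_some_iff] at h
        symm
        refine Finset.prod_eq_one (fun i _ => ?_)
        rw [if_pos (h.2 i)]
      · rw [if_neg h]
        rw [mlab_eq_some_iff] at h
        push Not at h
        obtain ⟨i, hi⟩ := h h0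
        symm
        refine Finset.prod_eq_zero (mem_univ i) ?_
        rw [if_neg hi]
    rw [e]
    have key := BDeg.prod (ι := Fin r × κ) (Ω := Λ) (univ : Finset (Fin r))
      (F := fun i z => (if (if C (fun j => z (i, j)) then none else some (fun j => z (i, j))) = f i
            then (1 : ℝ) else 0))
      (k := fun i => if f i = none then Fintype.card κ - v else Fintype.card κ) ?_
    · refine BDeg.mono key ?_
      have hs : ∑ i : Fin r, (if f i = none then Fintype.card κ - v else Fintype.card κ) =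
          (univ.filter (fun i => f i = none)).card * (Fintype.card κ - v) +
          (univ.filter (fun i => ¬ f i = none)).card * Fintype.card κ := by
        rw [Finset.sum_ite]
        simp only [sum_const, smul_eq_mul, Nat.add_left_cancel_iff]
      rw [hs]
      have hcard : (univ.filter (fun i => f i = none)).card +
          (univ.filter (fun i => ¬ f i = none)).card = r := by
        rw [Finset.card_filter_add_card_filter_not]
        simp only [card_univ, Fintype.card_fin]
      set A := (univ.filter (fun i => f i = none)).card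
      set B := (univ.filter (fun i => ¬ f i = none)).card
      have h1 : A * (Fintype.card κ - v) + A * v = A * Fintype.card κ := by
        rw [← Nat.mul_add, Nat.sub_add_cancel hv]
      have h2 : z0 * v ≤ A * v := Nat.mul_le_mul_right v h0
      have h3 : r * Fintype.card κ = A * Fintype.card κ + B * Fintype.card κ := by
        rw [← hcard, Nat.add_mul]
      omega
    · intro i _
      by_cases hi : f i = none
      · simp only [hi, if_true]
        have : (fun z : Fin r × κ → Λ => (if (if C (fun j => z (i, j)) then none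
            else some (fun j => z (i, j))) = (none : Option (κ → Λ)) then (1 : ℝ) else 0)) =
            fun z => (fun x => if C x then (1 : ℝ) else 0) (fun j => z (i, j)) := by
          funext z
          by_cases hc : C (fun j => z (i, j)) <;> simp [hc]
        rw [this]
        exact BDeg.reindex hC (fun j => (i, j))
      · simp only [hi, if_false]
        exact BDeg.reindex (BDeg.full (fun x : κ → Λ =>
          (if (if C x then none else some x) = f i then (1 : ℝ) else 0))) (fun j => (i, j))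
  · have e : (fun z : Fin r × κ → Λ => if mlab C z0 (fun i j => z (i, j)) = some f
        then (1 : ℝ) else 0) = fun _ => 0 := by
      funext z
      rw [if_neg]
      rw [mlab_eq_some_iff]
      exact fun h => h0 h.1
    rw [e]
    exact BDeg.const 0 _

theorem ite_none_eq_sub {α : Type} [Fintype α] [DecidableEq α] (l : Option α) :
    (if l = none then (1 : ℝ) else 0) = 1 - ∑ f : α, (if l = some f then (1 : ℝ) else 0) := by
  cases l with
  | none => simp only [↓reduceIte, reduceCtorEq, sum_const_zero, sub_zero]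
  | some g => simp only [reduceCtorEq, ↓reduceIte, Option.some.injEq, sum_ite_eq, mem_univ, sub_self]

theorem mlab_bdeg {κ Λ : Type} [Fintype κ] [DecidableEq κ] [Fintype Λ] [DecidableEq Λ]
    (C : (κ → Λ) → Prop) [DecidablePred C] (v : ℕ) (hv : v ≤ Fintype.card κ)
    (hC : BDeg (Fintype.card κ - v) (fun x => if C x then (1 : ℝ) else 0)) (r z0 : ℕ)
    (hz : z0 ≤ r) (l : Option (Fin r → Option (κ → Λ))) :
    BDeg (r * Fintype.card κ - z0 * v)
      (fun z : Fin r × κ → Λ => if mlab C z0 (fun i j => z (i, j)) = l then (1 : ℝ) else 0) := by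
  have _ := hz
  cases l with
  | some f => exact mlab_bdeg_some C v hv hC r z0 f
  | none =>
    have e : (fun z : Fin r × κ → Λ => if mlab C z0 (fun i j => z (i, j)) = none
        then (1 : ℝ) else 0) = fun z => (fun _ => (1 : ℝ)) z -
          (fun z => ∑ f : Fin r → Option (κ → Λ),
            (if mlab C z0 (fun i j => z (i, j)) = some f then (1 : ℝ) else 0)) z := by
      funext z
      exact ite_none_eq_sub _
    rw [e]
    exact BDeg.sub (BDeg.const 1 _) (BDeg.sum _ (fun f _ => mlab_bdeg_some C v hv hC r z0 f))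

/-! ### Expectation toolbox (local) -/

section

variable {ι X : Type} [Fintype ι] [DecidableEq ι] [Fintype X] {P : X → ℝ}

theorem llnEx_add (F G : (ι → X) → ℝ) :
    Ex P (fun z => F z + G z) = Ex P F + Ex P G := by
  unfold Ex
  rw [← Finset.sum_add_distrib]
  exact Finset.sum_congr rfl (fun z _ => by ring)

theorem llnEx_mul (c : ℝ) (F : (ι → X) → ℝ) :
    Ex P (fun z => c * F z) = c * Ex P F := by
  unfold Ex
  rw [Finset.mul_sum]
  exact Finset.sum_congr rfl (fun z _ => by ring)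

theorem llnEx_mono (hP : ∀ x, 0 ≤ P x) {F G : (ι → X) → ℝ} (h : ∀ z, F z ≤ G z) :
    Ex P F ≤ Ex P G := by
  unfold Ex
  exact Finset.sum_le_sum (fun z _ =>
    mul_le_mul_of_nonneg_left (h z) (Finset.prod_nonneg (fun i _ => hP _)))

theorem llnEx_nonneg (hP : ∀ x, 0 ≤ P x) {F : (ι → X) → ℝ} (h : ∀ z, 0 ≤ F z) :
    0 ≤ Ex P F := by
  unfold Ex
  exact Finset.sum_nonneg (fun z _ =>
    mul_nonneg (Finset.prod_nonneg (fun i _ => hP _)) (h z))

theorem llnEx_sum {α : Type} (s : Finset α) (F : α → (ι → X) → ℝ) :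
    Ex P (fun z => ∑ a ∈ s, F a z) = ∑ a ∈ s, Ex P (F a) := by
  unfold Ex
  rw [Finset.sum_comm]
  exact Finset.sum_congr rfl (fun z _ => by rw [Finset.mul_sum])

theorem llnEx_fiber {L : Type} [Fintype L] [DecidableEq L] (lab : (ι → X) → L)
    (F : (ι → X) → ℝ) :
    Ex P F = ∑ l, Ex P (fun z => if lab z = l then F z else 0) := by
  rw [← llnEx_sum]
  unfold Ex
  refine Finset.sum_congr rfl (fun z _ => ?_)
  simp only [sum_ite_eq, mem_univ, ↓reduceIte]

/-- The conditional expectation of `T` given a finite label. -/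
theorem lln_condExp (hP : ∀ x, 0 ≤ P x) {L : Type} [Fintype L] [DecidableEq L]
    (lab : (ι → X) → L) (T : (ι → X) → ℝ) :
    ∃ a' : L → ℝ,
      (∀ l, Ex P (fun z => if lab z = l then T z else 0) =
        Ex P (fun z => if lab z = l then (1 : ℝ) else 0) * a' l) ∧
      ∀ b : L → ℝ, Ex P (fun z => T z ^ 2) - Ex P (fun z => (T z - b (lab z)) ^ 2) ≤
        ∑ l, Ex P (fun z => if lab z = l then (1 : ℝ) else 0) * a' l ^ 2 := by
  set p : L → ℝ := fun l => Ex P (fun z => if lab z = l then (1 : ℝ) else 0) with hp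
  set q : L → ℝ := fun l => Ex P (fun z => if lab z = l then T z else 0) with hq
  have hp0 : ∀ l, 0 ≤ p l := fun l => llnEx_nonneg hP (fun z => by split_ifs <;> norm_num)
  have hpq : ∀ l, p l = 0 → q l = 0 := by
    intro l hl
    have h1 : ∀ z ∈ (univ : Finset (ι → X)),
        (∏ i, P (z i)) * (if lab z = l then (1 : ℝ) else 0) = 0 := by
      have hl' : ∑ z : ι → X, (∏ i, P (z i)) * (if lab z = l then (1 : ℝ) else 0) = 0 := hl
      rw [Finset.sum_eq_zero_iff_of_nonneg] at hl'
      · exact hl'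
      · intro z _
        exact mul_nonneg (Finset.prod_nonneg (fun i _ => hP _)) (by split_ifs <;> norm_num)
    refine Finset.sum_eq_zero (fun z hz => ?_)
    have h2 := h1 z hz
    by_cases hlab : lab z = l
    · simp only [hlab, if_true, mul_one] at h2
      simp only [h2, hlab, ↓reduceIte, zero_mul]
    · simp only [hlab, ↓reduceIte, mul_zero]
  have hqa : ∀ l, q l = p l * (q l / p l) := by
    intro l
    by_cases hl : p l = 0
    · rw [hpq l hl, hl]; simp
    · field_simp
  refine ⟨fun l => q l / p l, hqa, fun b => ?_⟩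
  have h1 : Ex P (fun z => (T z - b (lab z)) ^ 2) =
      Ex P (fun z => T z ^ 2) + ∑ l, (-2 * b l * q l + b l ^ 2 * p l) := by
    have e1 : Ex P (fun z => (T z - b (lab z)) ^ 2) =
        Ex P (fun z => T z ^ 2) + Ex P (fun z => -2 * b (lab z) * T z + b (lab z) ^ 2) := by
      rw [← llnEx_add]
      unfold Ex
      refine Finset.sum_congr rfl (fun z _ => ?_)
      ring
    rw [e1]
    congr 1
    rw [llnEx_fiber lab]
    refine Finset.sum_congr rfl (fun l _ => ?_)
    rw [hq, hp]
    simp only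
    rw [← llnEx_mul, ← llnEx_mul, ← llnEx_add]
    unfold Ex
    refine Finset.sum_congr rfl (fun z _ => ?_)
    by_cases hlab : lab z = l
    · simp only [hlab, if_true]; ring
    · simp only [hlab, if_false]; ring
  rw [h1]
  have h2 : ∀ l ∈ (univ : Finset L), -(p l * (q l / p l) ^ 2) ≤ -2 * b l * q l + b l ^ 2 * p l := by
    intro l _
    have h3 := hqa l
    set a := q l / p l
    rw [h3]
    have h4 : 0 ≤ p l * (b l - a) ^ 2 := mul_nonneg (hp0 l) (sq_nonneg _)
    linarith
  have h5 := Finset.sum_le_sum h2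
  rw [Finset.sum_neg_distrib] at h5
  linarith

end

theorem lln {X : Type} [Fintype X] [DecidableEq X] {P S : X → ℝ} {M : ℝ} (hlaw : FinLaw P S M)
    (C : X → Prop) [DecidablePred C] (π' : ℝ) (hπ : 0 < π')
    (hC : π' < ∑ x, if C x then P x else 0) (c d : ℝ)
    (hd : (∑ x, if C x then P x * (S x - c) ^ 2 else 0) ≤ d) (ε : ℝ) (hε : 0 < ε) :
    ∀ᶠ r : ℕ in atTop, ∀ z0 : ℕ, (z0 : ℝ) ≤ r * π' →
      ∃ a' : Option (Fin r → Option X) → ℝ,
        (∀ l, Ex P (fun z : Fin r → X => if mlab C z0 z = l then ∑ i, S (z i) else 0) =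
          Ex P (fun z : Fin r → X => if mlab C z0 z = l then (1 : ℝ) else 0) * a' l) ∧
        r * (M - d - ε) ≤
          ∑ l, Ex P (fun z : Fin r → X => if mlab C z0 z = l then (1 : ℝ) else 0) * a' l ^ 2 := by
  -- notation
  set πC : ℝ := ∑ x, if C x then P x else 0 with hπC
  set Δ : ℝ := πC - π' with hΔ
  have hΔ0 : 0 < Δ := by rw [hΔ]; linarith
  have hπC0 : 0 < πC := by linarith only [hπ, hC]
  -- conditional mean
  set c' : ℝ := (∑ x, if C x then P x * S x else 0) / πC with hc'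
  have hc'1 : (∑ x, if C x then P x * S x else 0) = c' * πC := by
    rw [hc']; (clear * - hπC0; field_simp)
  -- the law of `1_C (S - c')`
  have hU : FinLaw P (fun x => if C x then S x - c' else 0)
      (∑ x, P x * (if C x then S x - c' else 0) ^ 2) := by
    refine ⟨hlaw.nonneg, hlaw.sum_one, ?_, rfl⟩
    have : ∀ x ∈ (univ : Finset X), P x * (if C x then S x - c' else 0) =
        (if C x then P x * S x else 0) - c' * (if C x then P x else 0) := by
      intro x _
      by_cases hx : C x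
      · simp only [hx, if_true]; ring
      · simp only [hx, if_false]; ring
    rw [Finset.sum_congr rfl this, Finset.sum_sub_distrib, ← Finset.mul_sum, hc'1, ← hπC]
    ring
  have hUd : (∑ x, P x * (if C x then S x - c' else 0) ^ 2) ≤ d := by
    refine le_trans ?_ hd
    have h1 : (∑ x, if C x then P x * (S x - c) ^ 2 else 0) =
        (∑ x, P x * (if C x then S x - c' else 0) ^ 2) + (c' - c) ^ 2 * πC +
          2 * (c' - c) * ∑ x, P x * (if C x then S x - c' else 0) := by
      rw [hπC, Finset.mul_sum, Finset.mul_sum, ← Finset.sum_add_distrib,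
        ← Finset.sum_add_distrib]
      refine Finset.sum_congr rfl (fun x _ => ?_)
      by_cases hx : C x
      · simp only [hx, if_true]; ring
      · simp only [hx, if_false]; ring
    rw [h1, hU.mean]
    have : 0 ≤ (c' - c) ^ 2 * πC := by (clear * - hπC0; positivity)
    linarith only [this]
  -- the law of `1_C - πC`
  have hD : FinLaw P (fun x => (if C x then (1 : ℝ) else 0) - πC)
      (∑ x, P x * ((if C x then (1 : ℝ) else 0) - πC) ^ 2) := by
    refine ⟨hlaw.nonneg, hlaw.sum_one, ?_, rfl⟩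
    have : ∀ x ∈ (univ : Finset X), P x * ((if C x then (1 : ℝ) else 0) - πC) =
        (if C x then P x else 0) - πC * P x := by
      intro x _
      by_cases hx : C x
      · simp only [hx, if_true]; ring
      · simp only [hx, if_false]; ring
    rw [Finset.sum_congr rfl this, Finset.sum_sub_distrib, ← Finset.mul_sum, hlaw.sum_one,
      ← hπC]
    ring
  -- fourth moments
  have four : ∀ (a : X → ℝ) (I : ℝ), FinLaw P a I → ∃ K : ℝ, 0 ≤ K ∧ ∀ r : ℕ,
      Ex P (fun z : Fin r → X => (∑ i, a (z i)) ^ 4) ≤ K * r ^ 2 := by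
    intro a I h
    refine ⟨(∑ l, P l * a l ^ 4) + 3 * I ^ 2, ?_, fun r => ?_⟩
    · have : 0 ≤ ∑ l, P l * a l ^ 4 :=
        Finset.sum_nonneg (fun l _ => mul_nonneg (h.nonneg l) (by (clear * -; positivity)))
      (clear * - this; positivity)
    · rw [(lln_moments h r).2.2]
      have h0 : 0 ≤ ∑ l, P l * a l ^ 4 :=
        Finset.sum_nonneg (fun l _ => mul_nonneg (h.nonneg l) (by (clear * -; positivity)))
      have hr : (r : ℝ) ≤ (r : ℝ) ^ 2 := by
        have : r ≤ r ^ 2 := Nat.le_self_pow (by norm_num) r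
        exact_mod_cast this
      have hr0 : (0 : ℝ) ≤ r := Nat.cast_nonneg r
      nlinarith only [h0, hr]
  obtain ⟨K1, hK1, hT4⟩ := four S M hlaw
  obtain ⟨K2, hK2, hD4⟩ := four _ _ hD
  set K : ℝ := (K1 + K2) / (2 * Δ ^ 2) with hK
  have hev : ∀ᶠ r : ℕ in atTop, K ≤ ε * r := by
    have := tendsto_natCast_atTop_atTop (R := ℝ)
    have h2 := this.eventually_ge_atTop (K / ε)
    filter_upwards [h2] with r hr
    rw [div_le_iff₀ hε] at hr
    linarith only [hr]
  filter_upwards [hev, eventually_ge_atTop 1] with r hr hr1 z0 hz0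
  have hrpos : (0 : ℝ) < r := by exact_mod_cast hr1
  obtain ⟨a', ha', hb'⟩ := lln_condExp (P := P) hlaw.nonneg (mlab C z0 (r := r))
    (fun z : Fin r → X => ∑ i, S (z i))
  refine ⟨a', ha', ?_⟩
  have hb := hb' (fun l => match l with
    | none => 0
    | some f => ∑ i, (match f i with
      | none => c'
      | some x => S x))
  refine le_trans ?_ hb
  have hT2 := (lln_moments hlaw r).2.1
  have hU2 := (lln_moments hU r).2.1
  have hbound : Ex P (fun z : Fin r → X => ((∑ i, S (z i)) - (match mlab C z0 z with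
    | none => 0
    | some f => ∑ i, (match f i with
      | none => c'
      | some x => S x))) ^ 2) ≤
      Ex P (fun z : Fin r → X => (∑ i, (if C (z i) then S (z i) - c' else 0)) ^ 2 +
        (1 / (2 * (r * Δ) ^ 2)) * ((∑ i, S (z i)) ^ 4 +
          (∑ i, ((if C (z i) then (1 : ℝ) else 0) - πC)) ^ 4)) := by
    refine llnEx_mono hlaw.nonneg (fun z => ?_)
    by_cases hgood : z0 ≤ (univ.filter (fun i => C (z i))).card
    · have e1 : mlab C z0 z = some (fun i => if C (z i) then none else some (z i)) := by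
        unfold mlab; rw [if_pos hgood]
      rw [e1]
      have e2 : (∑ i, S (z i)) - (∑ i, (match (if C (z i) then none else some (z i)) with
          | none => c'
          | some x => S x)) = ∑ i, (if C (z i) then S (z i) - c' else 0) := by
        rw [← Finset.sum_sub_distrib]
        refine Finset.sum_congr rfl (fun i _ => ?_)
        by_cases hx : C (z i)
        · simp [hx]
        · simp [hx]
      simp only
      rw [e2]
      have : 0 ≤ (1 / (2 * (r * Δ) ^ 2)) * ((∑ i, S (z i)) ^ 4 +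
          (∑ i, ((if C (z i) then (1 : ℝ) else 0) - πC)) ^ 4) := by (clear * - hr1 hC; positivity)
      linarith only [this]
    · have e1 : mlab C z0 z = none := by
        unfold mlab; rw [if_neg hgood]
      rw [e1]
      simp only [sub_zero]
      have hcount : (∑ i, (if C (z i) then (1 : ℝ) else 0)) =
          ((univ.filter (fun i => C (z i))).card : ℝ) := by
        rw [Finset.sum_boole]
      have hDz : (∑ i, ((if C (z i) then (1 : ℝ) else 0) - πC)) ≤ -(r * Δ) := by
        rw [Finset.sum_sub_distrib, hcount]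
        simp only [Finset.sum_const, Finset.card_univ, Fintype.card_fin, nsmul_eq_mul]
        have h1 : ((univ.filter (fun i => C (z i))).card : ℝ) < z0 := by
          exact_mod_cast not_le.mp hgood
        rw [hΔ]
        nlinarith only [hz0, h1]
      set T : ℝ := ∑ i, S (z i)
      set D : ℝ := ∑ i, ((if C (z i) then (1 : ℝ) else 0) - πC)
      have hrΔ : 0 < r * Δ := by (clear * - hr1 hC; positivity)
      have hDsq : (r * Δ) ^ 2 ≤ D ^ 2 := by nlinarith only [hDz, hrΔ]
      have h1 : T ^ 2 ≤ (1 / (2 * (r * Δ) ^ 2)) * (T ^ 4 + D ^ 4) := by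
        rw [one_div, inv_mul_eq_div, le_div_iff₀ (by (clear * - hr1 hC; positivity))]
        have h2 : T ^ 2 * (r * Δ) ^ 2 ≤ T ^ 2 * D ^ 2 :=
          mul_le_mul_of_nonneg_left hDsq (sq_nonneg T)
        nlinarith only [h2, sq_nonneg (T ^ 2 - D ^ 2)]
      have h3 : 0 ≤ (∑ i, (if C (z i) then S (z i) - c' else 0)) ^ 2 := sq_nonneg _
      linarith only [h1, h3]
  have hsplit : Ex P (fun z : Fin r → X => (∑ i, (if C (z i) then S (z i) - c' else 0)) ^ 2 +
        (1 / (2 * (r * Δ) ^ 2)) * ((∑ i, S (z i)) ^ 4 +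
          (∑ i, ((if C (z i) then (1 : ℝ) else 0) - πC)) ^ 4)) =
      r * (∑ x, P x * (if C x then S x - c' else 0) ^ 2) +
        (1 / (2 * (r * Δ) ^ 2)) * (Ex P (fun z : Fin r → X => (∑ i, S (z i)) ^ 4) +
          Ex P (fun z : Fin r → X => (∑ i, ((if C (z i) then (1 : ℝ) else 0) - πC)) ^ 4)) := by
    rw [llnEx_add, llnEx_mul, llnEx_add, hU2]
  have hK' : (1 / (2 * (r * Δ) ^ 2)) * (Ex P (fun z : Fin r → X => (∑ i, S (z i)) ^ 4) +
          Ex P (fun z : Fin r → X => (∑ i, ((if C (z i) then (1 : ℝ) else 0) - πC)) ^ 4)) ≤ K := by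
    have h1 := hT4 r
    have h2 := hD4 r
    rw [hK, one_div, inv_mul_eq_div, div_le_div_iff₀ (by (clear * - hr1 hC; positivity)) (by positivity)]
    have h3 : (Ex P (fun z : Fin r → X => (∑ i, S (z i)) ^ 4) +
          Ex P (fun z : Fin r → X => (∑ i, ((if C (z i) then (1 : ℝ) else 0) - πC)) ^ 4)) ≤
          (K1 + K2) * r ^ 2 := by linarith only [h1, h2]
    have h4 := mul_le_mul_of_nonneg_right h3 (show (0 : ℝ) ≤ 2 * Δ ^ 2 by positivity)
    linarith only [h4]
  have hfin : r * (∑ x, P x * (if C x then S x - c' else 0) ^ 2) ≤ r * d :=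
    mul_le_mul_of_nonneg_left hUd hrpos.le
  have hmain := hbound.trans_eq hsplit
  rw [hT2]
  have : (r : ℝ) * (M - d - ε) = r * M - r * d - ε * r := by ring
  rw [this]
  have h6 : Ex P (fun z : Fin r → X => ((∑ i, S (z i)) - (match mlab C z0 z with
    | none => 0
    | some f => ∑ i, (match f i with
      | none => c'
      | some x => S x))) ^ 2) ≤ r * d + ε * r := by linarith only [hr, hbound, hsplit, hK', hfin]
  linarith only [hr, hbound, hsplit, hK', hfin]

end Vale.Agent.P047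
end
end

section

section

/-! T7: the amplification step. -/

open Finset Filter MeasureTheory ProbabilityTheory
open scoped Topology

namespace Vale.Agent.P047

namespace Ampl

section ex

variable {ι Λ : Type} [Fintype ι] [DecidableEq ι] [Fintype Λ]

theorem ex_prod (P : Λ → ℝ) (f : ι → Λ → ℝ) :
    Ex P (fun z => ∏ i, f i (z i)) = ∏ i, ∑ l, P l * f i l := by
  unfold Ex
  rw [Finset.prod_univ_sum, Fintype.piFinset_univ]
  apply Finset.sum_congr rfl
  intro z _
  rw [Finset.prod_mul_distrib]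

theorem ex_add (P : Λ → ℝ) (F G : (ι → Λ) → ℝ) :
    Ex P (fun z => F z + G z) = Ex P F + Ex P G := by
  unfold Ex
  rw [← Finset.sum_add_distrib]
  apply Finset.sum_congr rfl
  intro z _
  ring

theorem ex_sub (P : Λ → ℝ) (F G : (ι → Λ) → ℝ) :
    Ex P (fun z => F z - G z) = Ex P F - Ex P G := by
  unfold Ex
  rw [← Finset.sum_sub_distrib]
  apply Finset.sum_congr rfl
  intro z _
  ring

theorem ex_mul_left (P : Λ → ℝ) (c : ℝ) (F : (ι → Λ) → ℝ) :
    Ex P (fun z => c * F z) = c * Ex P F := by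
  unfold Ex
  rw [Finset.mul_sum]
  apply Finset.sum_congr rfl
  intro z _
  ring

theorem ex_sum {α : Type*} (s : Finset α) (P : Λ → ℝ) (F : α → (ι → Λ) → ℝ) :
    Ex P (fun z => ∑ a ∈ s, F a z) = ∑ a ∈ s, Ex P (F a) := by
  unfold Ex
  rw [Finset.sum_comm]
  apply Finset.sum_congr rfl
  intro z _
  rw [Finset.mul_sum]

theorem ex_nonneg {P : Λ → ℝ} (hP : ∀ l, 0 ≤ P l) {F : (ι → Λ) → ℝ} (hF : ∀ z, 0 ≤ F z) :
    0 ≤ Ex P F := by
  unfold Ex
  exact Finset.sum_nonneg fun z _ => mul_nonneg (Finset.prod_nonneg fun i _ => hP _) (hF z)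

theorem ex_mono {P : Λ → ℝ} (hP : ∀ l, 0 ≤ P l) {F G : (ι → Λ) → ℝ} (hFG : ∀ z, F z ≤ G z) :
    Ex P F ≤ Ex P G := by
  unfold Ex
  exact Finset.sum_le_sum fun z _ =>
    mul_le_mul_of_nonneg_left (hFG z) (Finset.prod_nonneg fun i _ => hP _)

theorem ex_one {P : Λ → ℝ} (h1 : ∑ l, P l = 1) : Ex P (fun _ : ι → Λ => (1 : ℝ)) = 1 := by
  have h := ex_prod (ι := ι) P (fun _ _ => (1 : ℝ))
  simpa only [prod_const_one, mul_one, h1] using h

/-- currying the product law -/
theorem ex_curry {κ : Type} [Fintype κ] [DecidableEq κ] (P : Λ → ℝ) (F : (ι → κ → Λ) → ℝ) :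
    Ex P (fun z : ι × κ → Λ => F (fun i j => z (i, j))) =
      Ex (fun y : κ → Λ => ∏ j, P (y j)) F := by
  unfold Ex
  rw [← Equiv.sum_comp (Equiv.curry ι κ Λ)]
  apply Finset.sum_congr rfl
  intro z _
  rw [Fintype.prod_prod_type]
  rfl

end ex

section pi

variable {κ Λ : Type} [Fintype κ] [DecidableEq κ] [Fintype Λ]

theorem ex_coord {P : Λ → ℝ} (h1 : ∑ l, P l = 1) (i : κ) (f : Λ → ℝ) :
    Ex P (fun z : κ → Λ => f (z i)) = ∑ l, P l * f l := by
  have h := ex_prod (ι := κ) P (fun k => if k = i then f else fun _ => 1)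
  have h2 : (fun z : κ → Λ => ∏ k, (if k = i then f else fun _ => 1) (z k)) =
      fun z : κ → Λ => f (z i) := by
    funext z
    rw [Finset.prod_eq_single i]
    · simp
    · intro j _ hj
      simp [hj]
    · intro h
      exact absurd (Finset.mem_univ _) h
  rw [h2] at h
  rw [h, Finset.prod_eq_single i]
  · simp only [↓reduceIte]
  · intro j _ hj
    simp only [hj, if_false, mul_one]
    exact h1
  · intro h
    exact absurd (Finset.mem_univ _) h

theorem ex_coord_mul {P : Λ → ℝ} (h1 : ∑ l, P l = 1) {i j : κ} (hij : i ≠ j) (f g : Λ → ℝ) :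
    Ex P (fun z : κ → Λ => f (z i) * g (z j)) = (∑ l, P l * f l) * ∑ l, P l * g l := by
  have h := ex_prod (ι := κ) P (fun k => if k = i then f else if k = j then g else fun _ => 1)
  have h2 : (fun z : κ → Λ => ∏ k, (if k = i then f else if k = j then g else fun _ => 1) (z k)) =
      fun z : κ → Λ => f (z i) * g (z j) := by
    funext z
    rw [← Finset.mul_prod_erase _ _ (Finset.mem_univ i),
      ← Finset.mul_prod_erase _ _ (Finset.mem_erase.mpr ⟨hij.symm, Finset.mem_univ j⟩)]
    simp only [if_true, hij.symm, if_false]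
    rw [Finset.prod_eq_one, mul_one]
    intro k hk
    rw [Finset.mem_erase, Finset.mem_erase] at hk
    simp [hk.1, hk.2.1]
  rw [h2] at h
  rw [h, ← Finset.mul_prod_erase _ _ (Finset.mem_univ i),
      ← Finset.mul_prod_erase _ _ (Finset.mem_erase.mpr ⟨hij.symm, Finset.mem_univ j⟩)]
  simp only [if_true, hij.symm, if_false]
  rw [Finset.prod_eq_one, mul_one]
  intro k hk
  rw [Finset.mem_erase, Finset.mem_erase] at hk
  simp only [hk.1, hk.2.1, if_false, mul_one]
  exact h1

theorem ex_sum_sq {P a : Λ → ℝ} {I : ℝ} (h : FinLaw P a I) :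
    Ex P (fun z : κ → Λ => (∑ i, a (z i)) ^ 2) = Fintype.card κ * I := by
  have h1 : (fun z : κ → Λ => (∑ i, a (z i)) ^ 2) =
      fun z : κ → Λ => ∑ i, ∑ j, a (z i) * a (z j) := by
    funext z
    rw [pow_two, Finset.sum_mul_sum]
  rw [h1, ex_sum]
  have h2 : ∀ i : κ, Ex P (fun z : κ → Λ => ∑ j, a (z i) * a (z j)) = I := by
    intro i
    rw [ex_sum, Finset.sum_eq_single i]
    · rw [← h.second, ← ex_coord h.sum_one i (fun l => a l ^ 2)]
      congr 1
      funext z
      ring
    · intro j _ hj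
      rw [ex_coord_mul h.sum_one (Ne.symm hj), h.mean, zero_mul]
    · intro h
      exact absurd (Finset.mem_univ _) h
  rw [Finset.sum_congr rfl fun i _ => h2 i, Finset.sum_const, Finset.card_univ, nsmul_eq_mul]

/-- the law of a block -/
theorem finLaw_pi {P a : Λ → ℝ} {I : ℝ} (h : FinLaw P a I) :
    FinLaw (fun y : κ → Λ => ∏ j, P (y j)) (fun y => ∑ j, a (y j)) (Fintype.card κ * I) where
  nonneg y := Finset.prod_nonneg fun j _ => h.nonneg _
  sum_one := by
    have := ex_one (ι := κ) h.sum_one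
    unfold Ex at this
    simpa only [mul_one] using this
  mean := by
    have h1 := ex_sum (Finset.univ : Finset κ) P (fun i (z : κ → Λ) => a (z i))
    unfold Ex at h1
    rw [h1]
    apply Finset.sum_eq_zero
    intro i _
    have h2 := ex_coord (κ := κ) h.sum_one i a
    unfold Ex at h2
    rw [h2]
    exact h.mean
  second := by
    have h1 := ex_sum_sq (κ := κ) h
    unfold Ex at h1
    exact h1

end pi

/-- Grouping coordinates into blocks multiplies the block degree by the size of the blocks. -/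
theorem bdeg_block {ι κ Λ Ω : Type} [Fintype κ] [DecidableEq ι] [DecidableEq κ] {k : ℕ}
    {F : (ι → Ω) → ℝ} (hF : BDeg k F) (h : (κ → Λ) → Ω) :
    BDeg (k * Fintype.card κ) (fun x : ι × κ → Λ => F (fun i => h (fun j => x (i, j)))) := by
  unfold BDeg at hF
  induction hF using Submodule.span_induction with
  | mem F hF =>
    obtain ⟨U, hU, hFU⟩ := hF
    refine BDeg.of_dependsOn (S := U ×ˢ Finset.univ) ?_ ?_
    · rw [Finset.card_product, Finset.card_univ]
      exact Nat.mul_le_mul_right _ hU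
    · intro x y hxy
      apply hFU
      intro i hi
      have : (fun j => x (i, j)) = fun j => y (i, j) := by
        funext j
        apply hxy
        simpa only [coe_product, coe_univ, Set.mem_prod, SetLike.mem_coe, Set.mem_univ, and_true] using hi
      rw [this]
  | zero => exact BDeg.const 0 _
  | add F1 F2 _ _ h1 h2 => exact h1.add h2
  | smul c F1 _ h1 => exact h1.smul c

end Ampl

open Ampl

theorem quad_wire {ι Ω X : Type} [Fintype ι] [DecidableEq ι] [Fintype Ω] [DecidableEq Ω]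
    [Fintype X] (P : X → ℝ) (T : X → ℝ) (cell : ℝ → Ω) (C : Finset (ι → Ω)) (c : ℝ) :
    Ex P (fun z : ι → X => if (fun i => cell (T (z i))) ∈ C then (∑ i, T (z i) - c) ^ 2 else 0) =
      ∑ y ∈ C, quad (fun r ω => ∑ x, P x * (if cell (T x) = ω then T x ^ r else 0)) c y := by
  have h1 : ∀ z : ι → X, (if (fun i => cell (T (z i))) ∈ C then (∑ i, T (z i) - c) ^ 2 else 0) =
      ∑ y ∈ C, if (fun i => cell (T (z i))) = y then (∑ i, T (z i) - c) ^ 2 else 0 := by
    intro z
    rw [Finset.sum_ite_eq]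
  simp_rw [h1]
  rw [ex_sum]
  apply Finset.sum_congr rfl
  intro y _
  have h2 : ∀ (r : ι → ℕ) (z : ι → X), (∏ k, if cell (T (z k)) = y k then T (z k) ^ r k else 0) =
      if (fun i => cell (T (z i))) = y then ∏ k, T (z k) ^ r k else 0 := by
    intro r z
    by_cases hz : (fun i => cell (T (z i))) = y
    · rw [if_pos hz]
      apply Finset.prod_congr rfl
      intro k _
      rw [if_pos (congrFun hz k)]
    · rw [if_neg hz]
      obtain ⟨k, hk⟩ := Function.ne_iff.mp hz
      exact Finset.prod_eq_zero (Finset.mem_univ k) (if_neg hk)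
  have h3 : ∀ (i : ι) (z : ι → X), ∏ k, T (z k) ^ (if k = i then 1 else 0) = T (z i) := by
    intro i z
    rw [Finset.prod_eq_single i]
    · simp
    · intro j _ hj
      simp [hj]
    · intro h
      exact absurd (Finset.mem_univ _) h
  have h4 : ∀ (i j : ι) (z : ι → X),
      ∏ k, T (z k) ^ ((if k = i then 1 else 0) + (if k = j then 1 else 0)) =
        T (z i) * T (z j) := by
    intro i j z
    simp_rw [pow_add]
    rw [Finset.prod_mul_distrib, h3, h3]
  have h5 : ∀ z : ι → X,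
      (if (fun i => cell (T (z i))) = y then (∑ i, T (z i) - c) ^ 2 else 0) =
      (∑ i, ∑ j, ∏ k, if cell (T (z k)) = y k
        then T (z k) ^ ((if k = i then 1 else 0) + (if k = j then 1 else 0)) else 0) -
      2 * c * (∑ i, ∏ k, if cell (T (z k)) = y k then T (z k) ^ (if k = i then 1 else 0) else 0) +
      c ^ 2 * ∏ k, if cell (T (z k)) = y k then T (z k) ^ 0 else 0 := by
    intro z
    have e1 : ∀ i j : ι, (∏ k, if cell (T (z k)) = y k
        then T (z k) ^ ((if k = i then 1 else 0) + (if k = j then 1 else 0)) else 0) =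
        if (fun i => cell (T (z i))) = y then T (z i) * T (z j) else 0 := by
      intro i j
      rw [h2 (fun k => (if k = i then 1 else 0) + (if k = j then 1 else 0)) z, h4]
    have e2 : ∀ i : ι, (∏ k, if cell (T (z k)) = y k then T (z k) ^ (if k = i then 1 else 0) else 0)
        = if (fun i => cell (T (z i))) = y then T (z i) else 0 := by
      intro i
      rw [h2 (fun k => (if k = i then 1 else 0)) z, h3]
    have e3 : (∏ k, if cell (T (z k)) = y k then T (z k) ^ 0 else 0)
        = if (fun i => cell (T (z i))) = y then 1 else 0 := by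
      rw [h2 (fun _ => 0) z]
      simp only [pow_zero, prod_const_one]
    simp_rw [e1, e2, e3]
    by_cases hz : (fun i => cell (T (z i))) = y
    · simp only [if_pos hz]
      have : (∑ i, ∑ j, T (z i) * T (z j)) = (∑ i, T (z i)) ^ 2 := by
        rw [pow_two, Finset.sum_mul_sum]
      rw [this]
      ring
    · simp only [if_neg hz]
      simp only [sum_const_zero, mul_zero, sub_self, add_zero]
  simp_rw [h5]
  rw [ex_add, ex_sub, ex_mul_left, ex_mul_left, ex_sum, ex_sum]
  simp_rw [ex_sum]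
  unfold quad
  congr 1
  · congr 1
    · apply Finset.sum_congr rfl
      intro i _
      apply Finset.sum_congr rfl
      intro j _
      exact ex_prod P (fun k x => if cell (T x) = y k
        then T x ^ ((if k = i then 1 else 0) + (if k = j then 1 else 0)) else 0)
    · congr 1
      apply Finset.sum_congr rfl
      intro i _
      exact ex_prod P (fun k x => if cell (T x) = y k then T x ^ (if k = i then 1 else 0) else 0)
  · congr 1
    exact ex_prod P (fun k x => if cell (T x) = y k then T x ^ 0 else 0)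


/-! ### The limit of the finite moments -/

namespace Ampl

/-- finite version of the moments over cells -/
noncomputable def mK {Λ Ω : Type} [Fintype Λ] [DecidableEq Ω] (P a : Λ → ℝ) (I : ℝ)
    (cell : ℝ → Ω) (K : ℕ) (r : ℕ) (ω : Ω) : ℝ :=
  ∑ x : Fin K → Λ, (∏ k, P (x k)) * (if cell (wire a I x) = ω then wire a I x ^ r else 0)

theorem mK_tendsto {Λ Ω : Type} [Fintype Λ] [DecidableEq Ω] {P a : Λ → ℝ} {I : ℝ}
    (h : FinLaw P a I) (hI : 0 < I) (cell : ℝ → Ω)
    (hcell : ∀ ω, (cell ⁻¹' {ω}).OrdConnected) (r : ℕ) (hr : r ≤ 2) (ω : Ω) :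
    Tendsto (fun K => mK P a I cell K r ω) atTop (𝓝 (gm (cell ⁻¹' {ω}) r)) := by
  have h1 := clt_cell h hI (cell ⁻¹' {ω}) (hcell ω) r hr
  refine h1.congr ?_
  intro K
  unfold mK Ex
  apply Finset.sum_congr rfl
  intro z _
  congr 1
  by_cases hz : cell (wire a I z) = ω
  · rw [if_pos hz]
    exact Set.indicator_of_mem (s := cell ⁻¹' {ω}) hz (fun t => t ^ r)
  · rw [if_neg hz]
    exact Set.indicator_of_notMem (s := cell ⁻¹' {ω}) hz (fun t => t ^ r)

theorem quad_tendsto {ι Ω : Type} [Fintype ι] [DecidableEq ι] (m : ℕ → ℕ → Ω → ℝ)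
    (mm : ℕ → Ω → ℝ) (h : ∀ r ≤ 2, ∀ ω, Tendsto (fun K => m K r ω) atTop (𝓝 (mm r ω)))
    (c : ℝ) (z : ι → Ω) :
    Tendsto (fun K => quad (m K) c z) atTop (𝓝 (quad mm c z)) := by
  unfold quad
  refine Tendsto.add (Tendsto.sub ?_ ?_) ?_
  · refine tendsto_finsetSum _ fun i _ => tendsto_finsetSum _ fun j _ =>
      tendsto_finsetProd _ fun k _ => h _ ?_ _
    split_ifs <;> omega
  · refine Tendsto.const_mul _ (tendsto_finsetSum _ fun i _ =>
      tendsto_finsetProd _ fun k _ => h _ ?_ _)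
    split_ifs <;> omega
  · exact Tendsto.const_mul _ (tendsto_finsetProd _ fun k _ => h _ (by omega) _)

theorem finLaw_sign : FinLaw (fun _ : ℤˣ => (1 / 2 : ℝ)) (fun b => ((b : ℤ) : ℝ)) 1 where
  nonneg _ := by norm_num
  sum_one := by simp only [UnitsInt.univ, one_div, sum_const, mem_singleton, units_ne_neg_self, not_false_eq_true, card_insert_of_notMem, card_singleton, Nat.reduceAdd, nsmul_eq_mul, Nat.cast_ofNat, ne_eq, OfNat.ofNat_ne_zero, mul_inv_cancel₀]
  mean := by
    rw [← Finset.mul_sum]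
    simp only [one_div, UnitsInt.univ, mem_singleton, units_ne_neg_self, not_false_eq_true, sum_insert, Units.val_one, Int.cast_one, sum_singleton, Units.val_neg, Int.reduceNeg, Int.cast_neg, add_neg_cancel, mul_zero]
  second := by
    rw [← Finset.mul_sum]
    simp only [one_div, UnitsInt.univ, mem_singleton, units_ne_neg_self, not_false_eq_true, sum_insert, Units.val_one, Int.cast_one, one_pow, sum_singleton, Units.val_neg, Int.reduceNeg, Int.cast_neg, even_two, Even.neg_pow]
    norm_num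

variable {ι Ω : Type} [Fintype ι] [DecidableEq ι] [Fintype Ω] [DecidableEq Ω]

theorem prob_wire {X : Type} [Fintype X] (P : X → ℝ) (T : X → ℝ) (cell : ℝ → Ω)
    (C : Finset (ι → Ω)) :
    Ex P (fun z : ι → X => if (fun i => cell (T (z i))) ∈ C then (1 : ℝ) else 0) =
      ∑ y ∈ C, ∏ i, ∑ x, P x * (if cell (T x) = y i then T x ^ 0 else 0) := by
  have h1 : ∀ z : ι → X, (if (fun i => cell (T (z i))) ∈ C then (1 : ℝ) else 0) =
      ∑ y ∈ C, ∏ i, (if cell (T (z i)) = y i then T (z i) ^ 0 else 0) := by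
    intro z
    rw [← Finset.sum_ite_eq C (fun i => cell (T (z i))) (fun _ => (1 : ℝ))]
    apply Finset.sum_congr rfl
    intro y _
    by_cases hz : (fun i => cell (T (z i))) = y
    · rw [if_pos hz]
      rw [Finset.prod_eq_one]
      intro k _
      rw [if_pos (congrFun hz k), pow_zero]
    · rw [if_neg hz]
      obtain ⟨k, hk⟩ := Function.ne_iff.mp hz
      exact (Finset.prod_eq_zero (Finset.mem_univ k) (if_neg hk)).symm
  simp_rw [h1]
  rw [ex_sum]
  apply Finset.sum_congr rfl
  intro y _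
  exact ex_prod P (fun i x => if cell (T x) = y i then T x ^ 0 else 0)

theorem arith {n t r p q ν gap z0 : ℝ} (hn : 0 < n) (ht : 0 ≤ t) (hr : 0 < r) (hp : 0 ≤ p)
    (hg : 0 < gap) (hz : r * p ≤ z0 + 1) (htp : t * p = t * q - gap / 4)
    (h5 : (1 + gap / (8 * n)) * t ≤ r * (gap / 4)) (hgap : gap = t * q - ν) :
    (1 + gap / (8 * n)) * (r * n - z0 * t) ≤ r * (n - (ν + gap / 4) - gap / 8) := by
  have hδ : 0 ≤ gap / (8 * n) := by positivity
  have e1 : (r * p - 1) * t ≤ z0 * t := mul_le_mul_of_nonneg_right (by linarith only [hz]) ht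
  have e2 : r * n - z0 * t ≤ r * (n - t * p) + t := by
    have : r * (n - t * p) + t = r * n - (r * p - 1) * t := by ring
    rw [this]
    linarith only [e1]
  have e3 : (1 + gap / (8 * n)) * (r * n - z0 * t) ≤
      (1 + gap / (8 * n)) * (r * (n - t * p) + t) :=
    mul_le_mul_of_nonneg_left e2 (by linarith only [hδ])
  have e4 : gap / (8 * n) * (n - t * p) ≤ gap / 8 := by
    have htp0 : 0 ≤ t * p := mul_nonneg ht hp
    have h1 : gap / (8 * n) * (n - t * p) ≤ gap / (8 * n) * n :=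
      mul_le_mul_of_nonneg_left (by linarith only [htp0]) hδ
    refine h1.trans (le_of_eq ?_)
    field_simp
  have e5 : (1 + gap / (8 * n)) * (r * (n - t * p) + t) =
      r * (n - t * p) + r * (gap / (8 * n) * (n - t * p)) + (1 + gap / (8 * n)) * t := by
    ring
  have e6 : r * (gap / (8 * n) * (n - t * p)) ≤ r * (gap / 8) :=
    mul_le_mul_of_nonneg_left e4 hr.le
  rw [e5] at e3
  have e7 : r * (n - (ν + gap / 4) - gap / 8) =
      r * (n - t * p) + r * (gap / 8) + r * (gap / 4) := by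
    rw [htp, hgap]
    ring
  rw [e7]
  linarith only [h5, e3, e6]

/-- the event in terms of the labels of the block -/
def ev {Λ : Type} (cell : ℝ → Ω) (C : Finset (ι → Ω)) (a : Λ → ℝ) (I : ℝ) (K : ℕ)
    (x : ι × Fin K → Λ) : Prop :=
  (fun i => cell (wire a I (fun k => x (i, k)))) ∈ C

noncomputable instance {Λ : Type} (cell : ℝ → Ω) (C : Finset (ι → Ω)) (a : Λ → ℝ) (I : ℝ)
    (K : ℕ) : DecidablePred (ev cell C a I K) := fun x =>
  inferInstanceAs (Decidable ((fun i => cell (wire a I (fun k => x (i, k)))) ∈ C))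

/-- probability of the event -/
theorem ev_prob {Λ : Type} [Fintype Λ] (P a : Λ → ℝ) (I : ℝ) (cell : ℝ → Ω)
    (C : Finset (ι → Ω)) (K : ℕ) :
    (∑ x : ι × Fin K → Λ, if ev cell C a I K x then ∏ j, P (x j) else 0) =
      ∑ y ∈ C, ∏ i, mK P a I cell K 0 (y i) := by
  have h := prob_wire (ι := ι) (fun y : Fin K → Λ => ∏ k, P (y k)) (wire a I) cell C
  rw [← ex_curry P (fun z : ι → Fin K → Λ =>
    if (fun i => cell (wire a I (z i))) ∈ C then (1 : ℝ) else 0)] at h
  unfold mK
  rw [← h]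
  unfold Ex
  apply Finset.sum_congr rfl
  intro x _
  change _ = (∏ j, P (x j)) *
    (if (fun i => cell (wire a I (fun k => x (i, k)))) ∈ C then (1 : ℝ) else 0)
  by_cases hx : ev cell C a I K x
  · rw [if_pos hx, if_pos (show (fun i => cell (wire a I (fun k => x (i, k)))) ∈ C from hx),
      mul_one]
  · rw [if_neg hx, if_neg (show ¬ (fun i => cell (wire a I (fun k => x (i, k)))) ∈ C from hx),
      mul_zero]

/-- second moment on the event -/
theorem ev_quad {Λ : Type} [Fintype Λ] (P a : Λ → ℝ) {I : ℝ} (hI : 0 < I) (cell : ℝ → Ω)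
    (C : Finset (ι → Ω)) {K : ℕ} (hK : 1 ≤ K) (c : ℝ) :
    (∑ x : ι × Fin K → Λ, if ev cell C a I K x
      then (∏ j, P (x j)) * (∑ j, a (x j) - Real.sqrt (K * I) * c) ^ 2 else 0) =
      K * I * ∑ y ∈ C, quad (mK P a I cell K) c y := by
  have h := quad_wire (ι := ι) (fun y : Fin K → Λ => ∏ k, P (y k)) (wire a I) cell C c
  rw [← ex_curry P (fun z : ι → Fin K → Λ =>
    if (fun i => cell (wire a I (z i))) ∈ C then (∑ i, wire a I (z i) - c) ^ 2 else 0)] at h
  have h' : ∑ y ∈ C, quad (mK P a I cell K) c y = _ := h.symm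
  rw [h', ← ex_mul_left]
  unfold Ex
  apply Finset.sum_congr rfl
  intro x _
  have hKI : 0 < (K : ℝ) * I := by
    have : (0 : ℝ) < K := by exact_mod_cast hK
    positivity
  have hs : Real.sqrt (K * I) ≠ 0 := (Real.sqrt_pos.mpr hKI).ne'
  have hS : ∑ j, a (x j) = Real.sqrt (K * I) * ∑ i, wire a I (fun k => x (i, k)) := by
    rw [Fintype.sum_prod_type, Finset.mul_sum]
    apply Finset.sum_congr rfl
    intro i _
    unfold wire
    rw [mul_div_cancel₀ _ hs]
  change _ = (∏ j, P (x j)) * (K * I *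
    (if (fun i => cell (wire a I (fun k => x (i, k)))) ∈ C
      then (∑ i, wire a I (fun k => x (i, k)) - c) ^ 2 else 0))
  by_cases hx : ev cell C a I K x
  · rw [if_pos hx, if_pos (show (fun i => cell (wire a I (fun k => x (i, k)))) ∈ C from hx), hS,
      ← mul_sub, mul_pow, Real.sq_sqrt hKI.le]
  · rw [if_neg hx, if_neg (show ¬ (fun i => cell (wire a I (fun k => x (i, k)))) ∈ C from hx),
      mul_zero, mul_zero]

end Ampl

theorem amplify {ι Ω : Type} [Fintype ι] [DecidableEq ι] [Fintype Ω] [DecidableEq Ω]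
    (cell : ℝ → Ω) (hcell : ∀ ω, (cell ⁻¹' {ω}).OrdConnected) (t : ℕ)
    (ht : t ≤ Fintype.card ι) (C : Finset (ι → Ω)) (c : ℝ)
    (hdeg : BDeg (Fintype.card ι - t) (fun z => if z ∈ C then (1 : ℝ) else 0))
    (hC : ∑ z ∈ C, quad (fun r ω => gm (cell ⁻¹' {ω}) r) c z <
      t * ∑ z ∈ C, ∏ i, gm (cell ⁻¹' {z i}) 0) :
    ∃ δ : ℝ, 0 < δ ∧ ∀ (Λ : Type) [Fintype Λ] [DecidableEq Λ] (P a : Λ → ℝ) (I : ℝ),
      FinLaw P a I → 0 < I →
      ∃ (ι' Λ' : Type) (_ : Fintype ι') (_ : DecidableEq ι') (_ : Fintype Λ')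
        (_ : DecidableEq Λ') (g : (ι' → Λ) → Λ') (k : ℕ) (a' : Λ' → ℝ),
        1 ≤ k ∧ (∀ l, BDeg k (fun z => if g z = l then (1 : ℝ) else 0)) ∧
        (∀ l, Ex P (fun z => if g z = l then ∑ i, a (z i) else 0) =
          Ex P (fun z => if g z = l then (1 : ℝ) else 0) * a' l) ∧
        (1 + δ) * k * I ≤ ∑ l, Ex P (fun z => if g z = l then (1 : ℝ) else 0) * a' l ^ 2 := by
  set mm : ℕ → Ω → ℝ := fun r ω => gm (cell ⁻¹' {ω}) r with hmm
  set n : ℕ := Fintype.card ι with hn
  set ν : ℝ := ∑ z ∈ C, quad mm c z with hν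
  set q : ℝ := ∑ z ∈ C, ∏ i, mm 0 (z i) with hq
  have hC' : ν < t * q := hC
  -- limits
  have hlimν : ∀ (Λ : Type) [Fintype Λ] (P a : Λ → ℝ) (I : ℝ), FinLaw P a I → 0 < I →
      Tendsto (fun K => ∑ z ∈ C, quad (mK P a I cell K) c z) atTop (𝓝 ν) := by
    intro Λ _ P a I h hI
    exact tendsto_finsetSum _ fun z _ => quad_tendsto _ _
      (fun r hr ω => mK_tendsto h hI cell hcell r hr ω) c z
  have hlimq : ∀ (Λ : Type) [Fintype Λ] (P a : Λ → ℝ) (I : ℝ), FinLaw P a I → 0 < I →
      Tendsto (fun K => ∑ z ∈ C, ∏ i, mK P a I cell K 0 (z i)) atTop (𝓝 q) := by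
    intro Λ _ P a I h hI
    exact tendsto_finsetSum _ fun z _ => tendsto_finsetProd _ fun i _ =>
      mK_tendsto h hI cell hcell 0 (by omega) (z i)
  have hν0 : 0 ≤ ν := by
    refine ge_of_tendsto (hlimν ℤˣ _ _ 1 finLaw_sign one_pos) (Eventually.of_forall fun K => ?_)
    have h1 := quad_wire (ι := ι) (fun y : Fin K → ℤˣ => ∏ k, (fun _ : ℤˣ => (1 / 2 : ℝ)) (y k))
      (wire (fun b : ℤˣ => ((b : ℤ) : ℝ)) 1) cell C c
    have h2 : ∑ z ∈ C, quad (mK (fun _ : ℤˣ => (1 / 2 : ℝ)) (fun b : ℤˣ => ((b : ℤ) : ℝ)) 1 cell K)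
      c z = _ := h1.symm
    rw [h2]
    refine ex_nonneg (fun l => Finset.prod_nonneg fun k _ => by norm_num) fun z => ?_
    split_ifs
    · (clear * -; positivity)
    · exact le_rfl
  have ht1 : 1 ≤ t := by
    rcases Nat.eq_zero_or_pos t with h | h
    · rw [h] at hC'
      simp only [Nat.cast_zero, zero_mul] at hC'
      linarith only [hν0, hC']
    · exact h
  have htpos : (0 : ℝ) < t := by exact_mod_cast ht1
  have hq0 : 0 < q := by
    by_contra hcon
    have : (t : ℝ) * q ≤ 0 := mul_nonpos_of_nonneg_of_nonpos htpos.le (not_lt.mp hcon)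
    linarith only [hC, hν0, this]
  have hn1 : 1 ≤ n := ht1.trans ht
  have hnpos : (0 : ℝ) < n := by exact_mod_cast hn1
  set gap : ℝ := t * q - ν with hgap
  have hgap0 : 0 < gap := by
    rw [hgap]
    linarith only [hC]
  set p : ℝ := q - gap / (4 * t) with hp
  have htp : t * p = t * q - gap / 4 := by
    rw [hp]
    (clear * - ht1; field_simp)
  have hp0 : 0 < p := by
    have h1 : 0 < t * p := by
      rw [htp]
      linarith only [hC, hν0]
    exact (pos_iff_pos_of_mul_pos h1).mp htpos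
  have hpq : p < q := by
    rw [hp]
    have : 0 < gap / (4 * t) := by positivity
    linarith only [this]
  set ν' : ℝ := ν + gap / 4 with hν'
  refine ⟨gap / (8 * n), by positivity, ?_⟩
  intro Λ _ _ P a I h hI
  obtain ⟨K, hK1, hK2, hK3⟩ := ((eventually_ge_atTop 1).and
    (((hlimq Λ P a I h hI).eventually_const_lt hpq).and
      ((hlimν Λ P a I h hI).eventually_lt_const (show ν < ν' by rw [hν']; linarith only [hC])))).exists
  have hKpos : (0 : ℝ) < K := by exact_mod_cast hK1
  have hKI : 0 < (K : ℝ) * I := by (clear * - hK1 hI; positivity)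
  have hX := finLaw_pi (κ := ι × Fin K) h
  have hcard : Fintype.card (ι × Fin K) = n * K := by
    rw [Fintype.card_prod, Fintype.card_fin]
  have hPC : p < ∑ x : ι × Fin K → Λ, if ev cell C a I K x then ∏ j, P (x j) else 0 := by
    rw [ev_prob]
    exact hK2
  have hPC1 : (∑ x : ι × Fin K → Λ, if ev cell C a I K x then ∏ j, P (x j) else 0) ≤ 1 := by
    rw [← hX.sum_one]
    apply Finset.sum_le_sum
    intro x _
    split_ifs
    · exact le_rfl
    · exact hX.nonneg x
  have hp1 : p < 1 := hPC.trans_le hPC1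
  have hd : (∑ x : ι × Fin K → Λ, if ev cell C a I K x
      then (∏ j, P (x j)) * (∑ j, a (x j) - Real.sqrt (K * I) * c) ^ 2 else 0) ≤
      K * I * ν' := by
    rw [ev_quad P a hI cell C hK1 c]
    exact mul_le_mul_of_nonneg_left hK3.le hKI.le
  have hlln := lln hX (ev cell C a I K) p hp0 hPC (Real.sqrt (K * I) * c) (K * I * ν') hd
    (K * I * (gap / 8)) (by (clear * - hK1 hI hC; positivity))
  obtain ⟨r, hr1, hr2, hr3⟩ := (hlln.and ((eventually_ge_atTop 1).and
    (eventually_ge_atTop ⌈(1 + gap / (8 * n)) * t / (gap / 4)⌉₊))).exists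
  have hrpos : (0 : ℝ) < r := by exact_mod_cast hr2
  set z0 : ℕ := ⌊(r : ℝ) * p⌋₊ with hz0
  have hz0le : (z0 : ℝ) ≤ r * p := Nat.floor_le (by (clear * - hr2 hp0; positivity))
  have hz0lt : (r : ℝ) * p < z0 + 1 := Nat.lt_floor_add_one _
  have hz0r : z0 < r := by
    have : (z0 : ℝ) < r := by nlinarith only [hz0le, hPC1, hPC, hrpos]
    exact_mod_cast this
  obtain ⟨a', ha1, ha2⟩ := hr1 z0 hz0le
  have hsub : z0 * (t * K) ≤ r * (n * K) :=
    Nat.mul_le_mul hz0r.le (Nat.mul_le_mul_right _ ht)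
  have hCdeg : BDeg (Fintype.card (ι × Fin K) - t * K)
      (fun x : ι × Fin K → Λ => if ev cell C a I K x then (1 : ℝ) else 0) := by
    have h1 := bdeg_block (κ := Fin K) (Λ := Λ) hdeg (fun y => cell (wire a I y))
    rw [Fintype.card_fin, Nat.sub_mul] at h1
    rw [hcard]
    refine Eq.mp (congrArg (BDeg (n * K - t * K)) ?_) h1
    funext x
    by_cases hx : ev cell C a I K x
    · rw [if_pos hx, if_pos (show (fun i => cell (wire a I (fun k => x (i, k)))) ∈ C from hx)]
    · rw [if_neg hx, if_neg (show ¬ (fun i => cell (wire a I (fun k => x (i, k)))) ∈ C from hx)]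
  refine ⟨Fin r × (ι × Fin K), Option (Fin r → Option (ι × Fin K → Λ)), inferInstance,
    inferInstance, inferInstance, inferInstance,
    (fun z => mlab (ev cell C a I K) z0 (fun i j => z (i, j))), r * (n * K) - z0 * (t * K), a',
    ?_, ?_, ?_, ?_⟩
  · have h1 : (z0 + 1) * (n * K) ≤ r * (n * K) := Nat.mul_le_mul_right _ hz0r
    have h2 : z0 * (t * K) ≤ z0 * (n * K) := Nat.mul_le_mul_left _ (Nat.mul_le_mul_right _ ht)
    have h3 : 1 ≤ n * K := Nat.mul_pos hn1 hK1
    have h4 : (z0 + 1) * (n * K) = z0 * (n * K) + n * K := by ring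
    omega
  · intro l
    have h1 := mlab_bdeg (ev cell C a I K) (t * K)
      (by rw [hcard]; exact Nat.mul_le_mul_right _ ht) hCdeg r z0 hz0r.le l
    rw [hcard] at h1
    exact h1
  · intro l
    have h1 := ha1 l
    rw [← ex_curry P (fun z : Fin r → ι × Fin K → Λ =>
        if mlab (ev cell C a I K) z0 z = l then ∑ i, ∑ j, a (z i j) else 0),
      ← ex_curry P (fun z : Fin r → ι × Fin K → Λ =>
        if mlab (ev cell C a I K) z0 z = l then (1 : ℝ) else 0)] at h1
    rw [← h1]
    congr 1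
    funext z
    rw [Fintype.sum_prod_type]
  · have h1 : ∀ l, Ex P (fun z : Fin r × (ι × Fin K) → Λ =>
        if mlab (ev cell C a I K) z0 (fun i j => z (i, j)) = l then (1 : ℝ) else 0) =
        Ex (fun y : ι × Fin K → Λ => ∏ j, P (y j)) (fun z : Fin r → ι × Fin K → Λ =>
        if mlab (ev cell C a I K) z0 z = l then (1 : ℝ) else 0) := by
      intro l
      exact ex_curry P (fun z : Fin r → ι × Fin K → Λ =>
        if mlab (ev cell C a I K) z0 z = l then (1 : ℝ) else 0)
    simp_rw [h1]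
    refine le_trans ?_ ha2
    rw [hcard]
    push_cast [Nat.cast_sub hsub]
    have h5 : (1 + gap / (8 * n)) * t ≤ r * (gap / 4) := by
      have h6 : (1 + gap / (8 * n)) * t / (gap / 4) ≤ r :=
        (Nat.le_ceil _).trans (by exact_mod_cast hr3)
      rwa [div_le_iff₀ (by positivity)] at h6
    have hkey := arith hnpos htpos.le hrpos hp0.le hgap0 hz0lt.le htp h5 (ν := ν)
      (by rw [hgap])
    calc (1 + gap / (8 * n)) * (r * (n * K) - z0 * (t * K)) * I
        = (K * I) * ((1 + gap / (8 * n)) * (r * n - z0 * t)) := by ring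
      _ ≤ (K * I) * (r * (n - (ν + gap / 4) - gap / 8)) := mul_le_mul_of_nonneg_left hkey hKI.le
      _ = r * (n * K * I - K * I * ν' - K * I * (gap / 8)) := by
        rw [hν']
        ring

end Vale.Agent.P047
end
end

section

section

open Finset Filter MeasureTheory ProbabilityTheory
open scoped Topology

namespace Vale.Agent.P047

/-- evaluation of `quad` through conditional means and variances -/
theorem quad_eval {ι Ω : Type} [Fintype ι] [DecidableEq ι] (p s v : Ω → ℝ) (mm : ℕ → Ω → ℝ)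
    (h0 : ∀ ω, mm 0 ω = p ω) (h1 : ∀ ω, mm 1 ω = p ω * s ω)
    (h2 : ∀ ω, mm 2 ω = p ω * (s ω ^ 2 + v ω)) (c : ℝ) (z : ι → Ω) :
    quad mm c z = (∏ i, p (z i)) * ((∑ i, s (z i) - c) ^ 2 + ∑ i, v (z i)) := by
  have e0 : ∏ k, mm 0 (z k) = ∏ k, p (z k) := Finset.prod_congr rfl fun k _ => h0 _
  have e1 : ∀ i, ∏ k, mm (if k = i then 1 else 0) (z k) = (∏ k, p (z k)) * s (z i) := by
    intro i
    have h3 : ∀ k, mm (if k = i then 1 else 0) (z k) = p (z k) * (if k = i then s (z i) else 1) := by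
      intro k
      by_cases hk : k = i
      · rw [if_pos hk, if_pos hk, h1, hk]
      · rw [if_neg hk, if_neg hk, h0, mul_one]
    rw [Finset.prod_congr rfl fun k _ => h3 k, Finset.prod_mul_distrib,
      Finset.prod_ite_eq' univ i (fun _ => s (z i)), if_pos (Finset.mem_univ i)]
  have e2 : ∀ i j, ∏ k, mm ((if k = i then 1 else 0) + (if k = j then 1 else 0)) (z k) =
      (∏ k, p (z k)) * (s (z i) * s (z j) + if i = j then v (z i) else 0) := by
    intro i j
    by_cases hij : i = j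
    · subst hij
      have h3 : ∀ k, mm ((if k = i then 1 else 0) + (if k = i then 1 else 0)) (z k) =
          p (z k) * (if k = i then s (z i) ^ 2 + v (z i) else 1) := by
        intro k
        by_cases hk : k = i
        · rw [if_pos hk, if_pos hk, h2, hk]
        · rw [if_neg hk, if_neg hk, h0, mul_one]
      rw [Finset.prod_congr rfl fun k _ => h3 k, Finset.prod_mul_distrib,
        Finset.prod_ite_eq' univ i (fun _ => s (z i) ^ 2 + v (z i)), if_pos (Finset.mem_univ i),
        if_pos rfl]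
      ring
    · have h3 : ∀ k, mm ((if k = i then 1 else 0) + (if k = j then 1 else 0)) (z k) =
          p (z k) * ((if k = i then s (z i) else 1) * (if k = j then s (z j) else 1)) := by
        intro k
        by_cases hk : k = i
        · have hkj : k ≠ j := fun h => hij (hk ▸ h)
          rw [if_pos hk, if_neg hkj, if_pos hk, if_neg hkj, add_zero, h1, hk, mul_one]
        · by_cases hkj : k = j
          · rw [if_neg hk, if_pos hkj, if_neg hk, if_pos hkj, zero_add, h1, hkj, one_mul]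
          · rw [if_neg hk, if_neg hkj, if_neg hk, if_neg hkj, add_zero, h0, mul_one, mul_one]
      rw [Finset.prod_congr rfl fun k _ => h3 k, Finset.prod_mul_distrib, Finset.prod_mul_distrib,
        Finset.prod_ite_eq' univ i (fun _ => s (z i)), if_pos (Finset.mem_univ i),
        Finset.prod_ite_eq' univ j (fun _ => s (z j)), if_pos (Finset.mem_univ j), if_neg hij,
        add_zero]
  rw [quad, e0]
  rw [Finset.sum_congr rfl fun i _ => Finset.sum_congr rfl fun j _ => e2 i j,
    Finset.sum_congr rfl fun i _ => e1 i]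
  have e3 : ∑ i, ∑ j, (∏ k, p (z k)) * (s (z i) * s (z j) + if i = j then v (z i) else 0) =
      (∏ k, p (z k)) * ((∑ i, s (z i)) ^ 2 + ∑ i, v (z i)) := by
    rw [sq, Finset.sum_mul_sum, ← Finset.sum_add_distrib, Finset.mul_sum]
    apply Finset.sum_congr rfl
    intro i _
    rw [← Finset.mul_sum, Finset.sum_add_distrib, Finset.sum_ite_eq univ i (fun _ => v (z i)),
      if_pos (Finset.mem_univ i)]
  rw [e3, ← Finset.mul_sum]
  ring

end Vale.Agent.P047
end
end

section

section

open Finset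

namespace Vale.Agent.P047

variable {ι Ω : Type}

/-- If the top Moebius term with base point `o` vanishes then the block degree is smaller than the
number of coordinates. -/
theorem BDeg.of_top [Fintype ι] [DecidableEq ι] [DecidableEq Ω] (o : Ω) {F : (ι → Ω) → ℝ} {k : ℕ}
    (hk : Fintype.card ι ≤ k + 1)
    (h : ∀ y : ι → Ω, (∀ i, y i ≠ o) →
      ∑ J : Finset ι, (-1 : ℝ) ^ J.card * F (fun i => if i ∈ J then o else y i) = 0) :
    BDeg k F := by
  have hall : ∀ y : ι → Ω,
      ∑ J : Finset ι, (-1 : ℝ) ^ J.card * F (fun i => if i ∈ J then o else y i) = 0 := by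
    intro y
    by_cases hy : ∀ i, y i ≠ o
    · exact h y hy
    push Not at hy
    obtain ⟨i, hi⟩ := hy
    refine Finset.sum_involution (fun J _ => if i ∈ J then J.erase i else insert i J) ?_ ?_ ?_ ?_
    · intro J _
      have hF : (fun j => if j ∈ (if i ∈ J then J.erase i else insert i J) then o else y j)
          = fun j => if j ∈ J then o else y j := by
        funext j
        by_cases hij : j = i
        · subst hij
          by_cases hj : j ∈ J <;> simp [hj, hi]
        · by_cases hiJ : i ∈ J <;> simp [hiJ, hij]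
      rw [hF]
      by_cases hiJ : i ∈ J
      · have hc := card_erase_add_one hiJ
        simp only [hiJ, if_true]
        rw [← hc, pow_succ]
        ring
      · simp only [hiJ, if_false]
        rw [card_insert_of_notMem hiJ, pow_succ]
        ring
    · intro J _ _ hEq
      by_cases hiJ : i ∈ J
      · simp only [hiJ, if_true] at hEq
        have := notMem_erase i J
        rw [hEq] at this
        exact this hiJ
      · simp only [hiJ, if_false] at hEq
        have := mem_insert_self i J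
        rw [hEq] at this
        exact hiJ this
    · intro J _; exact mem_univ _
    · intro J _
      by_cases hiJ : i ∈ J
      · simp [hiJ, insert_erase hiJ]
      · simp [hiJ, erase_insert hiJ]
  have hF : F = fun y => ∑ J ∈ (univ : Finset (Finset ι)).erase ∅,
      (-1 : ℝ) * ((-1 : ℝ) ^ J.card * F (fun i => if i ∈ J then o else y i)) := by
    funext y
    have h1 := hall y
    rw [← Finset.add_sum_erase _ _ (mem_univ (∅ : Finset ι))] at h1
    simp only [card_empty, pow_zero, one_mul, notMem_empty, if_false] at h1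
    rw [← Finset.mul_sum]
    linarith only [h1]
  rw [hF]
  refine BDeg.sum _ fun J hJ => BDeg.smul _ ?_
  have hJ0 : J.Nonempty := by
    rw [mem_erase] at hJ
    exact nonempty_iff_ne_empty.mpr hJ.1
  refine BDeg.of_dependsOn (S := univ \ J) ?_ ?_
  · rw [card_sdiff_of_subset (subset_univ J), card_univ]
    have := hJ0.card_pos
    omega
  · intro x y hxy
    have : (fun i => if i ∈ J then o else x i) = fun i => if i ∈ J then o else y i := by
      funext i
      by_cases hi : i ∈ J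
      · simp [hi]
      · simp only [hi, if_false]
        exact hxy i (by simpa only [coe_sdiff, coe_univ, Set.mem_sdiff, Set.mem_univ, SetLike.mem_coe, true_and] using hi)
    simp only [this]

/-- Pigeonhole: a large set of words carries a nonzero signed indicator of smaller block degree. -/
theorem exists_cancelling [Fintype ι] [DecidableEq ι] [Fintype Ω] [DecidableEq Ω] (o : Ω) {k : ℕ}
    (hk : Fintype.card ι ≤ k + 1) (W : Finset (ι → Ω))
    (hW : (Fintype.card ι + 2) * (Fintype.card Ω - 1) ^ Fintype.card ι < W.card) :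
    ∃ A B : Finset (ι → Ω), A ⊆ W ∧ B ⊆ W ∧ Disjoint A B ∧ (A.Nonempty ∨ B.Nonempty) ∧
      BDeg k (fun x => (if x ∈ A then (1 : ℝ) else 0) - if x ∈ B then 1 else 0) := by
  set m := Fintype.card ι with hm
  -- the integer valued top term
  let top : Finset (ι → Ω) → (ι → {a : Ω // a ≠ o}) → ℤ := fun E y =>
    ∑ J : Finset ι, (-1 : ℤ) ^ J.card *
      (if (fun i => if i ∈ J then o else (y i : Ω)) ∈ E then 1 else 0)
  have hbound : ∀ E y, top E y ∈ Finset.Icc (-(2 ^ m : ℤ)) (2 ^ m) := by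
    intro E y
    rw [Finset.mem_Icc, ← abs_le]
    calc |top E y| ≤ ∑ J : Finset ι, |(-1 : ℤ) ^ J.card *
          (if (fun i => if i ∈ J then o else (y i : Ω)) ∈ E then 1 else 0)| :=
          Finset.abs_sum_le_sum_abs _ _
      _ ≤ ∑ J : Finset ι, 1 := by
          refine Finset.sum_le_sum fun J _ => ?_
          rw [abs_mul, abs_pow, abs_neg, abs_one, one_pow, one_mul]
          split_ifs <;> simp
      _ = 2 ^ m := by simp only [sum_const, card_univ, Fintype.card_finset, Int.nsmul_eq_mul, Nat.cast_pow, Nat.cast_ofNat, mul_one, hm]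
  let T : Finset ((ι → {a : Ω // a ≠ o}) → ℤ) :=
    Fintype.piFinset fun _ => Finset.Icc (-(2 ^ m : ℤ)) (2 ^ m)
  have hcardT : T.card ≤ 2 ^ ((m + 2) * (Fintype.card Ω - 1) ^ m) := by
    simp only [T, Fintype.card_piFinset, Finset.prod_const, Int.card_Icc]
    rw [pow_mul]
    have h1 : (univ : Finset (ι → {a : Ω // a ≠ o})).card = (Fintype.card Ω - 1) ^ m := by
      rw [card_univ, Fintype.card_fun, Fintype.card_subtype_compl, Fintype.card_subtype_eq]
    rw [h1]
    refine Nat.pow_le_pow_left ?_ _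
    have h2 : ((2 : ℤ) ^ m + 1 - -(2 ^ m)).toNat = 2 * 2 ^ m + 1 := by
      have : ((2 : ℤ) ^ m + 1 - -(2 ^ m)) = ((2 * 2 ^ m + 1 : ℕ) : ℤ) := by push_cast; ring
      rw [this, Int.toNat_natCast]
    rw [h2, pow_add]
    have := Nat.one_le_two_pow (n := m)
    omega
  have hlt : T.card < W.powerset.card := by
    rw [card_powerset]
    exact hcardT.trans_lt (Nat.pow_lt_pow_right (by norm_num) hW)
  obtain ⟨E, hE, E', hE', hne, hEq⟩ := Finset.exists_ne_map_eq_of_card_lt_of_maps_to hlt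
    (f := top) (fun E _ => Fintype.mem_piFinset.mpr fun y => hbound E y)
  rw [mem_powerset] at hE hE'
  refine ⟨E \ E', E' \ E, sdiff_subset.trans hE, sdiff_subset.trans hE', ?_, ?_, ?_⟩
  · rw [Finset.disjoint_left]
    intro x hx hx'
    simp only [mem_sdiff] at hx hx'
    exact hx.2 hx'.1
  · by_contra hcon
    rw [not_or, not_nonempty_iff_eq_empty, not_nonempty_iff_eq_empty, sdiff_eq_empty_iff_subset,
      sdiff_eq_empty_iff_subset] at hcon
    exact hne (Finset.Subset.antisymm hcon.1 hcon.2)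
  · have hfun : (fun x => (if x ∈ E \ E' then (1 : ℝ) else 0) - if x ∈ E' \ E then 1 else 0)
        = fun x => (if x ∈ E then (1 : ℝ) else 0) - if x ∈ E' then 1 else 0 := by
      funext x
      by_cases h1 : x ∈ E <;> by_cases h2 : x ∈ E' <;> simp [h1, h2]
    rw [hfun]
    refine BDeg.of_top o hk fun y hy => ?_
    have h1 := congrFun hEq (fun i => ⟨y i, hy i⟩)
    simp only [top] at h1
    have h2 : ((∑ J : Finset ι, (-1 : ℤ) ^ J.card *
        (if (fun i => if i ∈ J then o else y i) ∈ E then 1 else 0) : ℤ) : ℝ)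
        = ((∑ J : Finset ι, (-1 : ℤ) ^ J.card *
        (if (fun i => if i ∈ J then o else y i) ∈ E' then 1 else 0) : ℤ) : ℝ) := by
      rw [h1]
    push_cast at h2
    simp only [mul_sub, Finset.sum_sub_distrib]
    rw [h2, sub_self]

theorem pigeon {Ω : Type} [Fintype Ω] [DecidableEq Ω] (m : ℕ) (hm : 1 ≤ m)
    (W : Finset (Fin m → Ω)) (hΩ : 2 ≤ Fintype.card Ω)
    (hW : (m + 2) * (Fintype.card Ω - 1) ^ m < W.card) :
    ∃ A B : Finset (Fin m → Ω), A ⊆ W ∧ B ⊆ W ∧ Disjoint A B ∧ (A ∪ B).Nonempty ∧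
      BDeg (m - 1) (fun z => (if z ∈ A then (1 : ℝ) else 0) - (if z ∈ B then 1 else 0)) := by
  obtain ⟨o⟩ : Nonempty Ω := Fintype.card_pos_iff.mp (by omega)
  obtain ⟨A, B, hA, hB, hAB, hne, hdeg⟩ := exists_cancelling (ι := Fin m) o (k := m - 1)
    (by simp only [Fintype.card_fin]; omega) W (by simpa only [Fintype.card_fin] using hW)
  refine ⟨A, B, hA, hB, hAB, ?_, hdeg⟩
  rcases hne with h | h
  · exact h.mono subset_union_left
  · exact h.mono subset_union_right

/-- The number of words with a tail letter at a given position. -/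
theorem sum_ite_tail {Ω : Type} [Fintype Ω] [DecidableEq Ω] {m : ℕ} (tails : Finset Ω)
    (i : Fin m) :
    ∑ z : Fin m → Ω, (if z i ∈ tails then 1 else 0) = tails.card * Fintype.card Ω ^ (m - 1) := by
  have h1 : ∀ z : Fin m → Ω, (if z i ∈ tails then 1 else 0) =
      ∏ j, (if j = i then (if z j ∈ tails then 1 else 0) else 1) := by
    intro z
    rw [Finset.prod_ite_eq' univ i (fun j => if z j ∈ tails then 1 else 0)]
    simp only [mem_univ, ↓reduceIte]
  simp only [h1]
  have h2 := Finset.prod_univ_sum (fun _ : Fin m => (univ : Finset Ω))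
    (fun (j : Fin m) (ω : Ω) => if j = i then (if ω ∈ tails then 1 else 0) else 1)
  rw [Fintype.piFinset_univ] at h2
  rw [← h2, ← Finset.mul_prod_erase univ _ (mem_univ i)]
  congr 1
  · simp only [↓reduceIte, sum_ite_mem, univ_inter, sum_const, smul_eq_mul, mul_one]
  · rw [Finset.prod_congr rfl (g := fun _ => Fintype.card Ω)]
    · simp only [prod_const, mem_univ, card_erase_of_mem, card_univ, Fintype.card_fin]
    · intro j hj
      have : j ≠ i := (mem_erase.mp hj).1
      simp only [this, ↓reduceIte, sum_const, card_univ, smul_eq_mul, mul_one]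

/-- At least half of all words of length `K * q` have at most `4 * K` tail letters. -/
theorem half_le_card_few {Ω : Type} [Fintype Ω] [DecidableEq Ω] (K : ℕ)
    (hq : 1 ≤ Fintype.card Ω) (tails : Finset Ω) (ht : tails.card = 2) :
    Fintype.card Ω ^ (K * Fintype.card Ω) ≤
      2 * (univ.filter (fun z : Fin (K * Fintype.card Ω) → Ω =>
        (univ.filter (fun i => z i ∈ tails)).card ≤ 4 * K)).card := by
  rcases Nat.eq_zero_or_pos K with hK0 | hK
  · have h1 : (univ.filter (fun z : Fin (K * Fintype.card Ω) → Ω =>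
        (univ.filter (fun i => z i ∈ tails)).card ≤ 4 * K)) = univ := by
      refine filter_true_of_mem fun z _ => ?_
      refine (card_le_univ _).trans ?_
      simp only [hK0, zero_mul, Fintype.card_eq_zero, mul_zero, Std.le_refl]
    rw [h1]
    simp only [card_univ, Fintype.card_fun, Fintype.card_fin]
    omega
  set q := Fintype.card Ω with hqdef
  set m := K * q with hm
  have hm1 : 1 ≤ m := by rw [hm]; exact Nat.mul_pos hK hq
  have hsum : ∑ z : Fin m → Ω, (univ.filter (fun i => z i ∈ tails)).card = 2 * K * q ^ m := by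
    have : ∀ z : Fin m → Ω, (univ.filter (fun i => z i ∈ tails)).card =
        ∑ i, (if z i ∈ tails then 1 else 0) := by
      intro z; rw [Finset.card_filter]
    simp only [this]
    rw [Finset.sum_comm]
    simp only [sum_ite_tail, ht, Finset.sum_const, card_univ, Fintype.card_fin, smul_eq_mul]
    have h3 : q ^ m = q * q ^ (m - 1) := by
      rw [← pow_succ']; congr 1; omega
    rw [← hqdef, h3, hm]
    ring
  have htot := Finset.card_filter_add_card_filter_not (s := (univ : Finset (Fin m → Ω)))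
    (fun z : Fin m → Ω => (univ.filter (fun i => z i ∈ tails)).card ≤ 4 * K)
  rw [card_univ, Fintype.card_fun, Fintype.card_fin, ← hqdef] at htot
  set bad := univ.filter (fun z : Fin m → Ω =>
    ¬ (univ.filter (fun i => z i ∈ tails)).card ≤ 4 * K) with hbad
  have hb : bad.card * (4 * K + 1) ≤ 2 * K * q ^ m := by
    rw [← hsum]
    calc bad.card * (4 * K + 1) = ∑ z ∈ bad, (4 * K + 1) := by simp
      _ ≤ ∑ z ∈ bad, (univ.filter (fun i => z i ∈ tails)).card := by
          refine Finset.sum_le_sum fun z hz => ?_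
          rw [hbad, mem_filter] at hz
          omega
      _ ≤ _ := Finset.sum_le_sum_of_subset (subset_univ _)
  have hb2 : 2 * bad.card ≤ q ^ m := by
    by_contra hcon
    push Not at hcon
    have : 2 * K * q ^ m < 2 * K * (2 * bad.card) :=
      Nat.mul_lt_mul_of_pos_left hcon (by omega)
    nlinarith only [hb, this]
  omega

/-- counting: `q` letters, `tails` of size 2, scores bounded by `sb`, word length `K * q`. -/
theorem window {Ω : Type} [Fintype Ω] [DecidableEq Ω] (K : ℕ) (hK : 1 ≤ K)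
    (tails : Finset Ω) (ht : tails.card = 2) (s : Ω → ℝ) (sb : ℝ) (hsb : 1 ≤ sb)
    (hs : ∀ ω, |s ω| ≤ sb) (τ : ℝ) (hτ : 0 < τ) (hτ1 : τ ≤ 1) :
    ∃ (σ : ℝ) (W : Finset (Fin (K * Fintype.card Ω) → Ω)),
      (∀ z ∈ W, |∑ i, s (z i) - σ| ≤ τ ∧
        (univ.filter (fun i => z i ∈ tails)).card ≤ 4 * K) ∧
      (Fintype.card Ω : ℝ) ^ (K * Fintype.card Ω) ≤
        W.card * (8 * (K * Fintype.card Ω * sb) / τ) := by
  have hq2 : 2 ≤ Fintype.card Ω := by
    rw [← ht, ← card_univ]; exact card_le_card (subset_univ _)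
  have hhalf := half_le_card_few K (by omega) tails ht
  set q := Fintype.card Ω with hqdef
  set m := K * q with hm
  set G := univ.filter (fun z : Fin m → Ω =>
        (univ.filter (fun i => z i ∈ tails)).card ≤ 4 * K) with hG
  set X : ℝ := K * q * sb / τ with hX
  have hX2 : 2 ≤ X := by
    rw [hX, le_div_iff₀ hτ]
    have h1 : (1 : ℝ) ≤ K := by exact_mod_cast hK
    have h2 : (2 : ℝ) ≤ q := by exact_mod_cast hq2
    have h3 : (2 : ℝ) ≤ K * q := by nlinarith only [h1, h2]
    nlinarith only [hsb, hτ1, h3]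
  set M : ℕ := ⌈X⌉₊ with hM
  have hMX : (M : ℝ) < X + 1 := Nat.ceil_lt_add_one (by linarith only [hX2])
  have hXM : X ≤ M := Nat.le_ceil X
  let f : (Fin m → Ω) → ℤ := fun z => ⌊(∑ i, s (z i)) / τ⌋
  let T : Finset ℤ := Finset.Icc (-(M : ℤ)) M
  have hTcard : (T.card : ℝ) ≤ 4 * X := by
    have : T.card = 2 * M + 1 := by
      simp only [T, Int.card_Icc]
      omega
    rw [this]; push_cast
    linarith only [hX2, hMX]
  have hmaps : ∀ z ∈ G, f z ∈ T := by
    intro z _
    have hS : |∑ i, s (z i)| ≤ m * sb := by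
      calc |∑ i, s (z i)| ≤ ∑ i, |s (z i)| := Finset.abs_sum_le_sum_abs _ _
        _ ≤ ∑ _i : Fin m, sb := Finset.sum_le_sum fun i _ => hs _
        _ = m * sb := by simp only [sum_const, card_univ, Fintype.card_fin, nsmul_eq_mul]
    have hS2 : |(∑ i, s (z i)) / τ| ≤ X := by
      rw [abs_div, abs_of_pos hτ, hX]
      refine div_le_div_of_nonneg_right ?_ hτ.le
      have h0 : (m : ℝ) = K * q := by rw [hm]; push_cast; ring
      rw [h0] at hS; exact hS
    rw [abs_le] at hS2
    simp only [T, f, Finset.mem_Icc]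
    constructor
    · rw [Int.le_floor]; push_cast; linarith only [hXM, hS2]
    · have : ((⌊(∑ i, s (z i)) / τ⌋ : ℤ) : ℝ) ≤ (M : ℤ) := by
        push_cast
        exact (Int.floor_le _).trans (hS2.2.trans hXM)
      exact_mod_cast this
  have hTne : T.Nonempty := ⟨0, by simp only [mem_Icc, Left.neg_nonpos_iff, Nat.cast_nonneg, and_self, T]⟩
  have hTpos : (0 : ℝ) < T.card := by exact_mod_cast hTne.card_pos
  obtain ⟨y, hy, hyc⟩ := Finset.exists_le_card_fiber_of_nsmul_le_card_of_maps_to (s := G) (t := T)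
    (f := f) (b := (G.card : ℝ) / T.card) hmaps hTne (by
      rw [nsmul_eq_mul, mul_div_cancel₀ _ hTpos.ne'])
  refine ⟨y * τ, G.filter (fun z => f z = y), ?_, ?_⟩
  · intro z hz
    rw [mem_filter] at hz
    have hzG := hz.1
    rw [hG, mem_filter] at hzG
    refine ⟨?_, hzG.2⟩
    have hfy : ⌊(∑ i, s (z i)) / τ⌋ = y := hz.2
    have h1 := Int.floor_le ((∑ i, s (z i)) / τ)
    have h2 := Int.lt_floor_add_one ((∑ i, s (z i)) / τ)
    rw [hfy] at h1 h2
    rw [le_div_iff₀ hτ] at h1
    rw [div_lt_iff₀ hτ] at h2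
    rw [abs_le]
    constructor <;> nlinarith only [h2, hτ, h1]
  · have h1 : ((q ^ m : ℕ) : ℝ) ≤ ((2 * G.card : ℕ) : ℝ) := by exact_mod_cast hhalf
    push_cast at h1
    rw [div_le_iff₀ hTpos] at hyc
    have h2 : (0 : ℝ) ≤ ((G.filter (fun z => f z = y)).card : ℝ) := by (clear * -; positivity)
    have h3 : 8 * (K * q * sb) / τ = 2 * (4 * X) := by rw [hX]; ring
    rw [h3]
    calc (q : ℝ) ^ m ≤ 2 * G.card := h1
      _ ≤ 2 * (((G.filter (fun z => f z = y)).card : ℝ) * T.card) := by linarith only [hyc]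
      _ ≤ 2 * (((G.filter (fun z => f z = y)).card : ℝ) * (4 * X)) := by
          have := mul_le_mul_of_nonneg_left hTcard h2
          linarith only [this]
      _ = _ := by ring

end Vale.Agent.P047
end
end

section

section

/-!
# P047: the grid cells and their Gaussian moments
-/

namespace Vale.Agent.P047

open MeasureTheory ProbabilityTheory Filter Topology Finset

theorem gcell_val (n : ℕ) (d x : ℝ) : ((gcell n d x).val : ℤ)
    = max (-((n : ℤ) + 1)) (min (n : ℤ) ⌊x / d⌋) + (n + 1) := by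
  unfold gcell
  simp only
  have h2 : -((n : ℤ) + 1) ≤ max (-((n : ℤ) + 1)) (min (n : ℤ) ⌊x / d⌋) := le_max_left _ _
  omega

theorem gcell_mono (n : ℕ) (d : ℝ) (hd : 0 < d) : Monotone (gcell n d) := by
  intro x y hxy
  have h1 : ⌊x / d⌋ ≤ ⌊y / d⌋ := Int.floor_le_floor (by gcongr)
  have hx := gcell_val n d x
  have hy := gcell_val n d y
  rw [Fin.le_def]
  omega

theorem gcell_ordConnected (n : ℕ) (d : ℝ) (hd : 0 < d) (ω : Fin (2 * n + 2)) :
    (gcell n d ⁻¹' {ω}).OrdConnected :=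
  Set.OrdConnected.preimage_mono Set.ordConnected_singleton (gcell_mono n d hd)

theorem gcell_measurable (n : ℕ) (d : ℝ) (hd : 0 < d) (ω : Fin (2 * n + 2)) :
    MeasurableSet (gcell n d ⁻¹' {ω}) := (gcell_ordConnected n d hd ω).measurableSet

/-- the open grid interval is contained in the cell. -/
theorem Ioo_subset_gcell (n : ℕ) (d : ℝ) (hd : 0 < d) (ω : Fin (2 * n + 2)) :
    Set.Ioo (((ω.val : ℝ) - (n + 1)) * d) (((ω.val : ℝ) - (n + 1) + 1) * d)
      ⊆ gcell n d ⁻¹' {ω} := by
  intro x hx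
  have hf : ⌊x / d⌋ = (ω.val : ℤ) - (n + 1) := by
    rw [Int.floor_eq_iff]
    push_cast
    constructor
    · rw [le_div_iff₀ hd]; exact hx.1.le
    · rw [div_lt_iff₀ hd]; exact hx.2
  simp only [Set.mem_preimage, Set.mem_singleton_iff]
  apply Fin.ext
  have h := gcell_val n d x
  rw [hf] at h
  have := ω.isLt
  omega

theorem gcell_pos (n : ℕ) (_hn : 1 ≤ n) (d : ℝ) (hd : 0 < d) (ω : Fin (2 * n + 2)) :
    0 < gm (gcell n d ⁻¹' {ω}) 0 := by
  unfold gm
  simp only [pow_zero, integral_const, smul_eq_mul, mul_one, Measure.real,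
    Measure.restrict_apply MeasurableSet.univ, Set.univ_inter]
  apply ENNReal.toReal_pos
  · intro h0
    have h1 : (gaussianReal 0 1) (Set.Ioo (((ω.val : ℝ) - (n + 1)) * d)
        (((ω.val : ℝ) - (n + 1) + 1) * d)) = 0 :=
      measure_mono_null (Ioo_subset_gcell n d hd ω) h0
    have h2 := (gaussianReal_absolutelyContinuous' 0 one_ne_zero) h1
    rw [Real.volume_Ioo] at h2
    have : (0 : ℝ) < (((ω.val : ℝ) - (n + 1) + 1) * d) - ((ω.val : ℝ) - (n + 1)) * d := by
      have : (((ω.val : ℝ) - (n + 1) + 1) * d) - ((ω.val : ℝ) - (n + 1)) * d = d := by ring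
      rw [this]; exact hd
    rw [ENNReal.ofReal_eq_zero] at h2
    linarith only [hd, h2]
  · exact measure_ne_top _ _

theorem gc_int_pow (r : ℕ) : Integrable (fun t : ℝ => t ^ r) (gaussianReal 0 1) := by
  have h := memLp_id_gaussianReal (μ := 0) (v := 1) (r : NNReal)
  have := h.integrable_norm_pow'
  refine Integrable.mono this (by fun_prop) ?_
  exact Filter.Eventually.of_forall (fun t => by simp)

theorem sum_gm (n : ℕ) (d : ℝ) (hd : 0 < d) (s : Finset (Fin (2 * n + 2))) (r : ℕ) :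
    ∑ ω ∈ s, gm (gcell n d ⁻¹' {ω}) r = ∫ t in gcell n d ⁻¹' (s : Set (Fin (2 * n + 2))),
      t ^ r ∂(gaussianReal 0 1) := by
  unfold gm
  rw [← integral_biUnion_finset]
  · congr 2
    ext x
    simp only [set_biUnion_preimage_singleton, Set.mem_preimage, SetLike.mem_coe]
  · exact fun ω _ => gcell_measurable n d hd ω
  · intro a _ b _ hab
    exact Disjoint.preimage _ (by simpa using hab)
  · exact fun ω _ => (gc_int_pow r).integrableOn

theorem gcell_preimage_pos (n : ℕ) (d : ℝ) (hd : 0 < d) :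
    gcell n d ⁻¹' ((univ.filter (fun ω : Fin (2 * n + 2) => n + 1 ≤ ω.val) :
      Finset (Fin (2 * n + 2))) : Set (Fin (2 * n + 2))) = Set.Ici 0 := by
  ext x
  simp only [coe_filter, mem_univ, true_and, Set.mem_preimage, Set.mem_ofPred_eq, Set.mem_Ici]
  have h := gcell_val n d x
  have h2 : 0 ≤ ⌊x / d⌋ ↔ 0 ≤ x := by
    rw [Int.floor_nonneg]
    constructor
    · intro h; rw [div_nonneg_iff] at h
      rcases h with h | h
      · exact h.1
      · linarith only [hd, h]
    · intro h; positivity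
  rw [← h2]
  (clear * - h h2; omega)

theorem gcell_preimage_neg (n : ℕ) (d : ℝ) (hd : 0 < d) :
    gcell n d ⁻¹' ((univ.filter (fun ω : Fin (2 * n + 2) => ¬ (n + 1 ≤ ω.val)) :
      Finset (Fin (2 * n + 2))) : Set (Fin (2 * n + 2))) = Set.Iio 0 := by
  have h := gcell_preimage_pos n d hd
  ext x
  have hx : x ∈ gcell n d ⁻¹' ((univ.filter (fun ω : Fin (2 * n + 2) => n + 1 ≤ ω.val) :
      Finset (Fin (2 * n + 2))) : Set (Fin (2 * n + 2))) ↔ x ∈ Set.Ici (0 : ℝ) := by rw [h]
  simp only [coe_filter, mem_univ, true_and, Set.mem_preimage, Set.mem_ofPred_eq, Set.mem_Ici,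
    Set.mem_Iio] at hx ⊢
  rw [hx, not_le]

theorem gauss_null (x : ℝ) : (gaussianReal 0 1) {x} = 0 :=
  (gaussianReal_absolutelyContinuous 0 one_ne_zero) (by simp)

theorem gauss_refl (r : ℕ) : ∫ t in Set.Iio (0 : ℝ), t ^ r ∂(gaussianReal 0 1)
    = (-1) ^ r * ∫ t in Set.Ici (0 : ℝ), t ^ r ∂(gaussianReal 0 1) := by
  rw [integral_Ici_eq_integral_Ioi' (gauss_null 0), ← integral_const_mul]
  have hm : (gaussianReal 0 1).map (fun x : ℝ => -x) = gaussianReal 0 1 := by
    rw [gaussianReal_map_neg, neg_zero]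
  conv_lhs => rw [← hm]
  rw [setIntegral_map measurableSet_Iio (by fun_prop) (by fun_prop)]
  have : (fun x : ℝ => -x) ⁻¹' Set.Iio 0 = Set.Ioi 0 := by
    ext x; simp only [Set.neg_preimage, Set.neg_Iio, neg_zero, Set.mem_Ioi]
  rw [this]
  refine integral_congr_ae (Filter.Eventually.of_forall (fun t => ?_))
  simp only
  rw [neg_pow]

theorem gauss_split (r : ℕ) : (∫ t in Set.Iio (0 : ℝ), t ^ r ∂(gaussianReal 0 1))
    + ∫ t in Set.Ici (0 : ℝ), t ^ r ∂(gaussianReal 0 1) = ∫ t, t ^ r ∂(gaussianReal 0 1) := by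
  have := integral_add_compl (measurableSet_Iio (a := (0 : ℝ))) (gc_int_pow r)
  rwa [Set.compl_Iio] at this

theorem gauss_total2 : ∫ t, t ^ 2 ∂(gaussianReal 0 1) = 1 := by
  have h := variance_fun_id_gaussianReal (μ := 0) (v := 1)
  rw [variance_eq_integral (by fun_prop)] at h
  simpa [integral_id_gaussianReal] using h

theorem gauss_half1 : ∫ t in Set.Ici (0 : ℝ), t ^ 1 ∂(gaussianReal 0 1)
    = 1 / Real.sqrt (2 * Real.pi) := by
  rw [integral_Ici_eq_integral_Ioi' (gauss_null 0)]
  rw [← integral_indicator measurableSet_Ioi, integral_gaussianReal_eq_integral_smul one_ne_zero]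
  have e : ∀ x : ℝ, gaussianPDFReal 0 1 x • (Set.Ioi (0 : ℝ)).indicator (fun t : ℝ => t ^ 1) x
      = (Set.Ioi (0 : ℝ)).indicator (fun t : ℝ =>
        (1 / Real.sqrt (2 * Real.pi)) * (t * Real.exp (-(1 / 2) * t ^ 2))) x := by
    intro x
    by_cases hx : x ∈ Set.Ioi (0 : ℝ)
    · rw [Set.indicator_of_mem hx, Set.indicator_of_mem hx]
      simp only [gaussianPDFReal, NNReal.coe_one, sub_zero, smul_eq_mul, pow_one, mul_one]
      have : -x ^ 2 / 2 = -(1 / 2) * x ^ 2 := by ring
      rw [this]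
      ring
    · rw [Set.indicator_of_notMem hx, Set.indicator_of_notMem hx]; simp
  simp only [e]
  rw [integral_indicator measurableSet_Ioi, integral_const_mul]
  have h1 : ∫ t in Set.Ioi (0 : ℝ), t * Real.exp (-(1 / 2) * t ^ 2) = 1 := by
    have h := integral_mul_cexp_neg_mul_sq (b := (1 / 2 : ℂ)) (by norm_num)
    have h2 : ∀ r : ℝ, (r : ℂ) * Complex.exp (-(1 / 2) * (r : ℂ) ^ 2)
        = ((r * Real.exp (-(1 / 2) * r ^ 2) : ℝ) : ℂ) := by
      intro r; push_cast; rfl
    simp only [h2] at h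
    rw [integral_complex_ofReal] at h
    have h3 : ((2 : ℂ) * (1 / 2))⁻¹ = ((1 : ℝ) : ℂ) := by norm_num
    rw [h3] at h
    exact_mod_cast h
  rw [h1, mul_one]

/-- half line sums; letters with value at least `n+1` are the nonnegative cells. -/
theorem gcell_half (n : ℕ) (_hn : 1 ≤ n) (d : ℝ) (hd : 0 < d) :
    (∑ ω : Fin (2 * n + 2) with n + 1 ≤ ω.val, gm (gcell n d ⁻¹' {ω}) 0 = 1 / 2) ∧
    (∑ ω : Fin (2 * n + 2) with ¬ (n + 1 ≤ ω.val), gm (gcell n d ⁻¹' {ω}) 0 = 1 / 2) ∧
    (∑ ω : Fin (2 * n + 2) with n + 1 ≤ ω.val, gm (gcell n d ⁻¹' {ω}) 1 =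
      1 / Real.sqrt (2 * Real.pi)) ∧
    (∑ ω : Fin (2 * n + 2) with ¬ (n + 1 ≤ ω.val), gm (gcell n d ⁻¹' {ω}) 1 =
      -(1 / Real.sqrt (2 * Real.pi))) ∧
    (∑ ω : Fin (2 * n + 2) with n + 1 ≤ ω.val, gm (gcell n d ⁻¹' {ω}) 2 = 1 / 2) ∧
    (∑ ω : Fin (2 * n + 2) with ¬ (n + 1 ≤ ω.val), gm (gcell n d ⁻¹' {ω}) 2 = 1 / 2) := by
  simp only [sum_gm n d hd, gcell_preimage_pos n d hd, gcell_preimage_neg n d hd]
  have s0 := gauss_split 0
  have s2 := gauss_split 2
  have r0 := gauss_refl 0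
  have r1 := gauss_refl 1
  have r2 := gauss_refl 2
  have h1 := gauss_half1
  rw [gauss_total2] at s2
  have t0 : ∫ t : ℝ, t ^ 0 ∂(gaussianReal 0 1) = 1 := by simp
  rw [t0] at s0
  norm_num only at r0 r2
  refine ⟨?_, ?_, ?_, ?_, ?_, ?_⟩
  · linarith only [s0, r0]
  · linarith only [s0, r0]
  · exact h1
  · rw [r1, h1]; ring
  · linarith only [s2, r2]
  · linarith only [s2, r2]

end Vale.Agent.P047
end
end

section

section

open MeasureTheory ProbabilityTheory Filter Topology Set
open scoped ENNReal NNReal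

namespace Vale.Agent.P047.GaussCond
open Vale.Agent.P047

lemma hasDerivAt_pdf (x : ℝ) :
    HasDerivAt (gaussianPDFReal 0 1) (-x * gaussianPDFReal 0 1 x) x := by
  rw [gaussianPDFReal_def]
  have h1 : HasDerivAt (fun x : ℝ => -(x - 0) ^ 2 / (2 * ((1 : ℝ≥0) : ℝ))) (-x) x := by
    have h2 : HasDerivAt (fun x : ℝ => (x - 0)) 1 x := (hasDerivAt_id x).sub_const 0
    have h3 := ((h2.pow 2).neg).div_const (2 * ((1 : ℝ≥0) : ℝ))
    refine h3.congr_deriv ?_
    norm_num
    ring
  have h4 := (h1.exp).const_mul ((√(2 * Real.pi * ((1 : ℝ≥0) : ℝ)))⁻¹)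
  refine h4.congr_deriv ?_
  ring

lemma integrable_shift (L : ℝ) (k : ℕ) :
    Integrable (fun t : ℝ => (t - L) ^ k) (gaussianReal 0 1) := by
  have h : MemLp (fun t : ℝ => t - L) k (gaussianReal 0 1) := by
    have h1 : MemLp (id : ℝ → ℝ) (k : ℝ≥0) (gaussianReal 0 1) := memLp_id_gaussianReal (k : ℝ≥0)
    have h2 : MemLp (fun _ : ℝ => L) (k : ℝ≥0) (gaussianReal 0 1) := memLp_const L
    exact h1.sub h2
  have h2 := h.integrable_norm_pow'
  refine h2.mono' (by fun_prop) (Eventually.of_forall fun t => ?_)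
  simp

lemma gaussianReal_eq : gaussianReal 0 1 = volume.withDensity (gaussianPDF 0 1) :=
  gaussianReal_of_var_ne_zero 0 one_ne_zero

lemma integrable_pdf_mul {f : ℝ → ℝ} (h : Integrable f (gaussianReal 0 1)) :
    Integrable (fun t => gaussianPDFReal 0 1 t * f t) volume := by
  rw [gaussianReal_eq, integrable_withDensity_iff_integrable_smul' (measurable_gaussianPDF 0 1)
    (Eventually.of_forall fun x => gaussianPDF_lt_top)] at h
  simpa only [toReal_gaussianPDF, smul_eq_mul] using h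

lemma setIntegral_gauss {A : Set ℝ} (hA : MeasurableSet A) (f : ℝ → ℝ) :
    ∫ t in A, f t ∂(gaussianReal 0 1) = ∫ t in A, gaussianPDFReal 0 1 t * f t := by
  rw [← integral_indicator hA, integral_gaussianReal_eq_integral_smul one_ne_zero,
    ← integral_indicator hA]
  congr 1
  funext t
  by_cases ht : t ∈ A <;> simp [ht]

lemma ibp (L : ℝ) (k : ℕ) :
    ∫ t in Ioi L, ((k + 1) * (t - L) ^ k - (t - L) ^ (k + 2) - L * (t - L) ^ (k + 1))
      ∂(gaussianReal 0 1) = 0 := by
  rw [setIntegral_gauss measurableSet_Ioi]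
  have hd : ∀ t : ℝ, HasDerivAt (fun t => gaussianPDFReal 0 1 t * (t - L) ^ (k + 1))
      (gaussianPDFReal 0 1 t *
        ((k + 1) * (t - L) ^ k - (t - L) ^ (k + 2) - L * (t - L) ^ (k + 1))) t := by
    intro t
    have h1 : HasDerivAt (fun t : ℝ => (t - L) ^ (k + 1)) (((k + 1 : ℕ) : ℝ) * (t - L) ^ k * 1) t :=
      ((hasDerivAt_id t).sub_const L).pow (k + 1)
    have h2 := (hasDerivAt_pdf t).mul h1
    refine h2.congr_deriv ?_
    push_cast
    ring
  have hi1 : Integrable (fun t => gaussianPDFReal 0 1 t * (t - L) ^ (k + 1)) volume :=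
    integrable_pdf_mul (integrable_shift L (k + 1))
  have hi2 : Integrable (fun t => gaussianPDFReal 0 1 t *
        ((k + 1) * (t - L) ^ k - (t - L) ^ (k + 2) - L * (t - L) ^ (k + 1))) volume := by
    refine integrable_pdf_mul ?_
    exact (((integrable_shift L k).const_mul _).sub (integrable_shift L (k + 2))).sub
      ((integrable_shift L (k + 1)).const_mul L)
  have hlim := tendsto_zero_of_hasDerivAt_of_integrableOn_Ioi (a := L) (fun t _ => hd t)
    hi2.integrableOn hi1.integrableOn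
  have := integral_Ioi_of_hasDerivAt_of_tendsto' (a := L) (fun t _ => hd t) hi2.integrableOn hlim
  rw [this]
  simp

/-- shifted moments -/
noncomputable def sm (A : Set ℝ) (L : ℝ) (k : ℕ) : ℝ := ∫ t in A, (t - L) ^ k ∂(gaussianReal 0 1)

lemma sm_ibp (L : ℝ) (k : ℕ) :
    (k + 1) * sm (Ioi L) L k = sm (Ioi L) L (k + 2) + L * sm (Ioi L) L (k + 1) := by
  have h := ibp L k
  rw [integral_sub, integral_sub, integral_const_mul, integral_const_mul] at h
  · simp only [sm]
    linarith only [h]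
  · exact ((integrable_shift L k).const_mul _).restrict
  · exact (integrable_shift L (k + 2)).restrict
  · exact (((integrable_shift L k).const_mul _).sub (integrable_shift L (k + 2))).restrict
  · exact ((integrable_shift L (k + 1)).const_mul L).restrict

lemma sm_nonneg (L : ℝ) (k : ℕ) : 0 ≤ sm (Ioi L) L k := by
  refine setIntegral_nonneg measurableSet_Ioi fun t ht => ?_
  have : 0 < t - L := sub_pos.2 ht
  positivity

lemma tail_bounds (L : ℝ) (hL : 0 < L) :
    sm (Ioi L) L 1 ≤ sm (Ioi L) L 0 / L ∧ sm (Ioi L) L 2 ≤ 2 / L ^ 2 * sm (Ioi L) L 0 := by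
  have h0 := sm_ibp L 0
  have h1 := sm_ibp L 1
  have p2 := sm_nonneg L 2
  have p3 := sm_nonneg L 3
  norm_num at h0 h1
  have e1 : sm (Ioi L) L 1 ≤ sm (Ioi L) L 0 / L := by
    rw [le_div_iff₀ hL]
    linarith
  refine ⟨e1, ?_⟩
  have e2 : sm (Ioi L) L 2 ≤ 2 * sm (Ioi L) L 1 / L := by
    rw [le_div_iff₀ hL]
    linarith only [p3, h1]
  refine e2.trans ?_
  rw [div_mul_eq_mul_div, div_le_div_iff₀ hL (by positivity)]
  have : sm (Ioi L) L 1 * L ≤ sm (Ioi L) L 0 := by
    rwa [le_div_iff₀ hL] at e1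
  nlinarith only [hL, p2, h0]

lemma sm_neg (A : Set ℝ) (L : ℝ) (k : ℕ) :
    sm (Neg.neg ⁻¹' A) (-L) k = (-1) ^ k * sm A L k := by
  have hmp : MeasurePreserving (fun t : ℝ => -t) (gaussianReal 0 1) (gaussianReal 0 1) := by
    refine ⟨measurable_neg, ?_⟩
    have := gaussianReal_map_neg (μ := 0) (v := 1)
    simpa using this
  have h := hmp.setIntegral_preimage_emb measurableEmbedding_neg (fun t => (t - L) ^ k) A
  rw [sm, sm, ← h, ← integral_const_mul]
  refine integral_congr_ae (Eventually.of_forall fun t => ?_)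
  show (t - -L) ^ k = (-1) ^ k * (-t - L) ^ k
  rw [← mul_pow]
  ring

lemma gm_zero (A : Set ℝ) (L : ℝ) : gm A 0 = sm A L 0 := by
  simp only [gm, pow_zero, integral_const, MeasurableSet.univ, measureReal_restrict_apply, univ_inter, smul_eq_mul, mul_one, sm]

lemma gm_one (A : Set ℝ) (L : ℝ) : gm A 1 = sm A L 1 + L * sm A L 0 := by
  rw [sm, sm, ← integral_const_mul, ← integral_add]
  · rw [gm]
    refine integral_congr_ae (Eventually.of_forall fun t => ?_)
    simp
  · exact (integrable_shift L 1).restrict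
  · exact ((integrable_shift L 0).const_mul L).restrict

lemma gm_two (A : Set ℝ) (L : ℝ) :
    gm A 2 = sm A L 2 + 2 * L * sm A L 1 + L ^ 2 * sm A L 0 := by
  rw [sm, sm, sm, ← integral_const_mul, ← integral_const_mul, ← integral_add, ← integral_add]
  · rw [gm]
    refine integral_congr_ae (Eventually.of_forall fun t => ?_)
    show t ^ 2 = (t - L) ^ 2 + 2 * L * (t - L) ^ 1 + L ^ 2 * (t - L) ^ 0
    ring
  · exact ((integrable_shift L 2).add ((integrable_shift L 1).const_mul _)).restrict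
  · exact ((integrable_shift L 0).const_mul _).restrict
  · exact (integrable_shift L 2).restrict
  · exact ((integrable_shift L 1).const_mul _).restrict

lemma gm_zero_nonneg (A : Set ℝ) : 0 ≤ gm A 0 := by
  simp only [gm, pow_zero, integral_const, MeasurableSet.univ, measureReal_restrict_apply, univ_inter, smul_eq_mul, mul_one, measureReal_nonneg]

lemma gm_eq_zero (A : Set ℝ) (h : gm A 0 = 0) (r : ℕ) : gm A r = 0 := by
  have h1 : gaussianReal 0 1 A = 0 := by
    simp only [gm, pow_zero, integral_const, MeasurableSet.univ, measureReal_restrict_apply,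
      univ_inter, smul_eq_mul, mul_one] at h
    exact (measureReal_eq_zero_iff).1 h
  rw [gm, Measure.restrict_eq_zero.2 h1, integral_zero_measure]

lemma sm_two_nonneg (A : Set ℝ) (L : ℝ) : 0 ≤ sm A L 2 :=
  integral_nonneg fun _ => sq_nonneg _

/-- Conditional mean and variance of a set. -/
lemma exists_cond (A : Set ℝ) : ∃ s v : ℝ, gm A 1 = gm A 0 * s ∧ gm A 2 = gm A 0 * (s ^ 2 + v) ∧
    0 ≤ v ∧ (gm A 0 = 0 → s = 0 ∧ v = 0) ∧
    (∀ c, sm A c 1 = gm A 0 * (s - c) ∧ sm A c 2 = gm A 0 * ((s - c) ^ 2 + v)) := by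
  rcases eq_or_ne (gm A 0) 0 with h | h
  · refine ⟨0, 0, ?_, ?_, le_rfl, fun _ => ⟨rfl, rfl⟩, fun c => ?_⟩
    · rw [gm_eq_zero A h]; simp
    · rw [gm_eq_zero A h, h]; simp
    · have h1 := gm_one A c
      have h2 := gm_two A c
      rw [← gm_zero, h, gm_eq_zero A h] at h1 h2
      rw [h]
      constructor
      · linarith only [h1]
      · have : sm A c 1 = 0 := by linarith only [h1]
        rw [this] at h2
        linarith only [h2]
  · have hp : 0 < gm A 0 := lt_of_le_of_ne (gm_zero_nonneg A) h.symm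
    set s := gm A 1 / gm A 0 with hs
    set v := gm A 2 / gm A 0 - s ^ 2 with hv
    have e1 : gm A 1 = gm A 0 * s := by rw [hs]; field_simp
    have e2 : gm A 2 = gm A 0 * (s ^ 2 + v) := by rw [hv]; field_simp; ring
    have e3 : ∀ c, sm A c 1 = gm A 0 * (s - c) ∧ sm A c 2 = gm A 0 * ((s - c) ^ 2 + v) := by
      intro c
      have h1 := gm_one A c
      have h2 := gm_two A c
      rw [← gm_zero] at h1 h2
      have e4 : sm A c 1 = gm A 0 * (s - c) := by rw [e1] at h1; linarith only [h1]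
      refine ⟨e4, ?_⟩
      rw [e4, e2] at h2
      linear_combination -h2
    refine ⟨s, v, e1, e2, ?_, fun h' => absurd h' h, e3⟩
    have h5 := (e3 s).2
    have h6 := sm_two_nonneg A s
    rw [h5] at h6
    have h7 := nonneg_of_mul_nonneg_right h6 hp
    simpa only [ge_iff_le, sub_self, ne_eq, OfNat.ofNat_ne_zero, not_false_eq_true, zero_pow, zero_add] using h7

lemma gcell_eq_iff (n : ℕ) (d x : ℝ) (ω : Fin (2 * n + 2)) :
    gcell n d x = ω ↔ max (-((n : ℤ) + 1)) (min (n : ℤ) ⌊x / d⌋) + (n + 1) = ω.val := by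
  have h2 : -((n : ℤ) + 1) ≤ max (-((n : ℤ) + 1)) (min (n : ℤ) ⌊x / d⌋) := le_max_left _ _
  rw [Fin.ext_iff]
  simp only [gcell]
  omega

lemma cell_left (n : ℕ) (d : ℝ) (hd : 0 < d) (ω : Fin (2 * n + 2)) (hω : ω.val = 0) :
    gcell n d ⁻¹' {ω} = Neg.neg ⁻¹' (Ioi (n * d)) := by
  ext x
  simp only [mem_preimage, mem_singleton_iff, mem_Ioi]
  rw [gcell_eq_iff, hω]
  have h1 : ⌊x / d⌋ < -(n : ℤ) ↔ n * d < -x := by
    rw [Int.floor_lt, div_lt_iff₀ hd]
    push_cast
    constructor <;> intro h <;> linarith only [h]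
  rw [← h1]
  have hn : (0 : ℤ) ≤ n := Int.natCast_nonneg n
  push_cast
  omega

lemma cell_right (n : ℕ) (d : ℝ) (hd : 0 < d) (ω : Fin (2 * n + 2)) (hω : ω.val = 2 * n + 1) :
    gcell n d ⁻¹' {ω} = Ici (n * d) := by
  ext x
  simp only [mem_preimage, mem_singleton_iff, mem_Ici]
  rw [gcell_eq_iff, hω]
  have h1 : (n : ℤ) ≤ ⌊x / d⌋ ↔ n * d ≤ x := by
    rw [Int.le_floor, le_div_iff₀ hd]
    push_cast
    rfl
  rw [← h1]
  have hn : (0 : ℤ) ≤ n := Int.natCast_nonneg n
  push_cast
  omega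

lemma cell_mid (n : ℕ) (d : ℝ) (hd : 0 < d) (ω : Fin (2 * n + 2)) (hω : ω.val ≠ 0)
    (hω' : ω.val ≠ 2 * n + 1) :
    gcell n d ⁻¹' {ω} = Ico (((ω.val : ℝ) - n - 1) * d) (((ω.val : ℝ) - n) * d) := by
  ext x
  simp only [mem_preimage, mem_singleton_iff, mem_Ico]
  rw [gcell_eq_iff]
  have h1 : ((ω.val : ℤ) - n - 1) ≤ ⌊x / d⌋ ↔ ((ω.val : ℝ) - n - 1) * d ≤ x := by
    rw [Int.le_floor, le_div_iff₀ hd]
    push_cast
    rfl
  have h2 : ⌊x / d⌋ < ((ω.val : ℤ) - n) ↔ x < ((ω.val : ℝ) - n) * d := by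
    rw [Int.floor_lt, div_lt_iff₀ hd]
    push_cast
    rfl
  rw [← h1, ← h2]
  have hn : (0 : ℤ) ≤ n := Int.natCast_nonneg n
  have hlt := ω.isLt
  omega

lemma sm_Ici (L c : ℝ) (k : ℕ) : sm (Ici L) c k = sm (Ioi L) c k := by
  have := nullSingletonClass_gaussianReal (μ := 0) (v := 1) one_ne_zero
  rw [sm, sm, integral_Ici_eq_integral_Ioi]

end Vale.Agent.P047.GaussCond

open MeasureTheory ProbabilityTheory Filter Topology Set
open scoped ENNReal NNReal

namespace Vale.Agent.P047
open Vale.Agent.P047.GaussCond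

/-- Conditional mean and variance of a grid cell. -/
theorem gcell_cond (n : ℕ) (hn : 1 ≤ n) (d : ℝ) (hd : 0 < d) (hL : 1 ≤ n * d)
    (ω : Fin (2 * n + 2)) :
    ∃ s v : ℝ, gm (gcell n d ⁻¹' {ω}) 1 = gm (gcell n d ⁻¹' {ω}) 0 * s ∧
      gm (gcell n d ⁻¹' {ω}) 2 = gm (gcell n d ⁻¹' {ω}) 0 * (s ^ 2 + v) ∧
      |s| ≤ n * d + 2 ∧ 0 ≤ v ∧
      (ω.val ≠ 0 → ω.val ≠ 2 * n + 1 → v ≤ d ^ 2) ∧
      (ω.val = 0 ∨ ω.val = 2 * n + 1 → v ≤ 2 / (n * d) ^ 2) := by
  have hn' : (1 : ℝ) ≤ n := by exact_mod_cast hn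
  obtain ⟨s, v, h1, h2, hv0, hz, hc⟩ := exists_cond (gcell n d ⁻¹' {ω})
  set A := gcell n d ⁻¹' {ω} with hA
  have hL0 : 0 < n * d := by linarith only [hL]
  have htail : 0 ≤ 2 / (n * d) ^ 2 := by positivity
  rcases eq_or_lt_of_le (gm_zero_nonneg A) with hp | hp
  · obtain ⟨rfl, rfl⟩ := hz hp.symm
    refine ⟨0, 0, h1, h2, ?_, le_rfl, fun _ _ => sq_nonneg _, fun _ => htail⟩
    rw [abs_zero]
    linarith only [hL]
  have hinv : 1 / (n * d) ≤ 1 := by
    rw [div_le_one hL0]
    exact hL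
  obtain ⟨b1, b2⟩ := tail_bounds (n * d) hL0
  have b0 := sm_nonneg (n * d) 1
  refine ⟨s, v, h1, h2, ?_⟩
  by_cases hω : ω.val = 0
  · have hAe := cell_left n d hd ω hω
    rw [← hA] at hAe
    obtain ⟨c1, c2⟩ := hc (-(n * d))
    have c0 : gm A 0 = sm A (-(n * d)) 0 := gm_zero A _
    rw [hAe, sm_neg, ← hAe] at c1 c2 c0
    simp only [pow_one, pow_zero, one_mul, neg_mul, even_two, Even.neg_pow, one_pow] at c1 c2 c0
    rw [← c0] at b1 b2
    have e1 : -(s + n * d) ≤ 1 := by
      have : gm A 0 * (-(s + n * d)) ≤ gm A 0 * 1 := by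
        calc gm A 0 * (-(s + n * d)) = sm (Ioi (n * d)) (n * d) 1 := by linarith only [c1]
          _ ≤ gm A 0 / (n * d) := b1
          _ = gm A 0 * (1 / (n * d)) := by ring
          _ ≤ gm A 0 * 1 := by (clear * - hinv hp; gcongr)
      exact le_of_mul_le_mul_left this hp
    have e0 : 0 ≤ -(s + n * d) := by
      have : gm A 0 * 0 ≤ gm A 0 * (-(s + n * d)) := by
        rw [mul_zero]
        calc (0 : ℝ) ≤ sm (Ioi (n * d)) (n * d) 1 := b0
          _ = gm A 0 * (-(s + n * d)) := by linarith only [c1]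
      exact le_of_mul_le_mul_left this hp
    have e2 : (s - -(n * d)) ^ 2 + v ≤ 2 / (n * d) ^ 2 := by
      refine le_of_mul_le_mul_left ?_ hp
      rw [← c2]
      linarith only [b2]
    refine ⟨?_, hv0, fun h => absurd hω h, fun _ => ?_⟩
    · rw [abs_le]
      constructor <;> linarith only [e1, hL, e0]
    · have := sq_nonneg (s - -(n * d))
      linarith only [e2, this]
  by_cases hω' : ω.val = 2 * n + 1
  · have hAe := cell_right n d hd ω hω'
    rw [← hA] at hAe
    obtain ⟨c1, c2⟩ := hc (n * d)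
    have c0 : gm A 0 = sm A (n * d) 0 := gm_zero A _
    rw [hAe, sm_Ici, ← hAe] at c1 c2 c0
    rw [← c0] at b1 b2
    have e1 : s - n * d ≤ 1 := by
      have : gm A 0 * (s - n * d) ≤ gm A 0 * 1 := by
        calc gm A 0 * (s - n * d) = sm (Ioi (n * d)) (n * d) 1 := c1.symm
          _ ≤ gm A 0 / (n * d) := b1
          _ = gm A 0 * (1 / (n * d)) := by ring
          _ ≤ gm A 0 * 1 := by (clear * - hinv hp; gcongr)
      exact le_of_mul_le_mul_left this hp
    have e0 : 0 ≤ s - n * d := by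
      have : gm A 0 * 0 ≤ gm A 0 * (s - n * d) := by
        rw [mul_zero, ← c1]
        exact b0
      exact le_of_mul_le_mul_left this hp
    have e2 : (s - n * d) ^ 2 + v ≤ 2 / (n * d) ^ 2 := by
      refine le_of_mul_le_mul_left ?_ hp
      rw [← c2]
      linarith only [b2]
    refine ⟨?_, hv0, fun _ h => absurd hω' h, fun _ => ?_⟩
    · rw [abs_le]
      constructor <;> linarith only [e1, hL, e0]
    · have := sq_nonneg (s - n * d)
      linarith only [e2, this]
  · have hAe := cell_mid n d hd ω hω hω'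
    rw [← hA] at hAe
    set l : ℝ := ((ω.val : ℝ) - n - 1) * d with hl
    have hu : ((ω.val : ℝ) - n) * d = l + d := by rw [hl]; ring
    rw [hu] at hAe
    obtain ⟨c1, c2⟩ := hc l
    have c0 : gm A 0 = sm A l 0 := gm_zero A _
    have hAm : MeasurableSet A := by rw [hAe]; exact measurableSet_Ico
    have f0 : 0 ≤ sm A l 1 := by
      refine setIntegral_nonneg hAm fun t ht => ?_
      rw [hAe] at ht
      rw [pow_one]
      linarith only [ht.1]
    have f1 : sm A l 1 ≤ d * gm A 0 := by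
      rw [c0, sm, sm, ← integral_const_mul]
      refine setIntegral_mono_on (integrable_shift l 1).restrict
        ((integrable_shift l 0).const_mul d).restrict hAm fun t ht => ?_
      rw [hAe] at ht
      rw [pow_one, pow_zero]
      linarith only [ht.2]
    have f2 : sm A l 2 ≤ d ^ 2 * gm A 0 := by
      rw [c0, sm, sm, ← integral_const_mul]
      refine setIntegral_mono_on (integrable_shift l 2).restrict
        ((integrable_shift l 0).const_mul (d ^ 2)).restrict hAm fun t ht => ?_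
      rw [hAe] at ht
      rw [pow_zero, mul_one]
      have h3 := ht.1
      have h4 := ht.2
      exact pow_le_pow_left₀ (by linarith only [h3]) (by linarith only [h4]) 2
    have e0 : 0 ≤ s - l := by
      refine le_of_mul_le_mul_left ?_ hp
      rw [mul_zero, ← c1]
      exact f0
    have e1 : s - l ≤ d := by
      refine le_of_mul_le_mul_left ?_ hp
      rw [← c1]
      linarith only [f1]
    have e2 : (s - l) ^ 2 + v ≤ d ^ 2 := by
      refine le_of_mul_le_mul_left ?_ hp
      rw [← c2]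
      linarith only [f2]
    have hlt := ω.isLt
    have g1 : (1 : ℝ) ≤ ω.val := by
      exact_mod_cast Nat.one_le_iff_ne_zero.2 hω
    have g2 : (ω.val : ℝ) ≤ 2 * n := by
      have : ω.val ≤ 2 * n := by omega
      exact_mod_cast this
    have g3 : -(n * d) ≤ l := by
      rw [hl]
      nlinarith only [hd, g1]
    have g4 : l + d ≤ n * d := by
      rw [hl]
      nlinarith only [hd, g2]
    refine ⟨?_, hv0, fun _ _ => ?_, fun h => ?_⟩
    · rw [abs_le]
      constructor <;> linarith only [e0, g3, e1, g4]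
    · have := sq_nonneg (s - l)
      linarith only [e2, this]
    · exact absurd h (by (clear * - hz h hω hω'; tauto))

end Vale.Agent.P047
end
end

section

section

open Finset Filter MeasureTheory ProbabilityTheory
open scoped Topology

namespace Vale.Agent.P047

/-- the growth comparison used to choose `K` -/
theorem coll_exists_K (η τ : ℝ) :
    ∃ K : ℕ, 1 ≤ K ∧ 32 / η ≤ K ∧ 72 * (36 / η) ^ 2 * (K : ℝ) ^ 9 / τ < Real.exp K := by
  have h1 : Tendsto (fun K : ℕ => Real.exp K / (K : ℝ) ^ 9) atTop atTop :=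
    (Real.tendsto_exp_div_pow_atTop 9).comp tendsto_natCast_atTop_atTop
  have h2 := h1.eventually_gt_atTop (72 * (36 / η) ^ 2 / τ)
  have h3 : ∀ᶠ K : ℕ in atTop, 32 / η ≤ K :=
    tendsto_natCast_atTop_atTop.eventually_ge_atTop _
  obtain ⟨K, ⟨h4, h5⟩, h6⟩ := ((h2.and h3).and (eventually_ge_atTop 1)).exists
  refine ⟨K, h6, h5, ?_⟩
  have hK : (0 : ℝ) < (K : ℝ) ^ 9 := by positivity
  rw [lt_div_iff₀ hK] at h4
  calc 72 * (36 / η) ^ 2 * (K : ℝ) ^ 9 / τ = 72 * (36 / η) ^ 2 / τ * (K : ℝ) ^ 9 := by ring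
    _ < Real.exp K := h4

/-- `(q-1)^(K q) * e^K ≤ q^(K q)` -/
theorem coll_exp_le (K q : ℕ) (hq : 2 ≤ q) :
    ((q - 1 : ℕ) : ℝ) ^ (K * q) * Real.exp K ≤ (q : ℝ) ^ (K * q) := by
  have hq0 : (0 : ℝ) < q := by
    have : 0 < q := by omega
    exact_mod_cast this
  have h1 : ((q - 1 : ℕ) : ℝ) ≤ q * Real.exp (-(1 / (q : ℝ))) := by
    have h2 : 1 - 1 / (q : ℝ) ≤ Real.exp (-(1 / (q : ℝ))) := Real.one_sub_le_exp_neg _
    have h3 : ((q - 1 : ℕ) : ℝ) = q * (1 - 1 / (q : ℝ)) := by
      rw [Nat.cast_sub (by omega)]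
      field_simp
      simp
    rw [h3]
    exact mul_le_mul_of_nonneg_left h2 hq0.le
  have h2 : ((q - 1 : ℕ) : ℝ) ^ (K * q) ≤ (q * Real.exp (-(1 / (q : ℝ)))) ^ (K * q) :=
    pow_le_pow_left₀ (Nat.cast_nonneg _) h1 _
  have h3 : (q * Real.exp (-(1 / (q : ℝ)))) ^ (K * q) = (q : ℝ) ^ (K * q) * Real.exp (-(K : ℝ)) := by
    rw [mul_pow, ← Real.exp_nat_mul]
    congr 2
    push_cast
    field_simp
  rw [h3] at h2
  calc ((q - 1 : ℕ) : ℝ) ^ (K * q) * Real.exp K ≤
        (q : ℝ) ^ (K * q) * Real.exp (-(K : ℝ)) * Real.exp K :=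
        mul_le_mul_of_nonneg_right h2 (Real.exp_pos _).le
    _ = (q : ℝ) ^ (K * q) := by
        rw [mul_assoc, ← Real.exp_add]
        simp only [neg_add_cancel, Real.exp_zero, mul_one]

/-- counting inequality behind the pigeonhole -/
theorem coll_count (K q : ℕ) (hK : 1 ≤ K) (hq : 2 ≤ q) (η τ : ℝ) (hη : 0 < η) (hτ : 0 < τ)
    (hqK : (q : ℝ) ≤ 36 / η * (K : ℝ) ^ 3)
    (hexp : 72 * (36 / η) ^ 2 * (K : ℝ) ^ 9 / τ < Real.exp K) (w : ℕ)
    (hw : (q : ℝ) ^ (K * q) ≤ w * (8 * (K * q * (K + 2)) / τ)) :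
    (K * q + 2) * (q - 1) ^ (K * q) < w := by
  have hq0 : (0 : ℝ) < q := by
    have : 0 < q := by omega
    exact_mod_cast this
  have hK1 : (1 : ℝ) ≤ K := by exact_mod_cast hK
  have hK0 : (0 : ℝ) < K := by linarith only [hK1]
  have hc : (0 : ℝ) < 36 / η := by positivity
  have hle := coll_exp_le K q hq
  have hp : (0 : ℝ) < ((q - 1 : ℕ) : ℝ) ^ (K * q) := by
    apply pow_pos
    have : 0 < q - 1 := by omega
    exact_mod_cast this
  by_contra hcon
  push Not at hcon
  have h1 : (w : ℝ) ≤ (K * q + 2) * ((q - 1 : ℕ) : ℝ) ^ (K * q) := by exact_mod_cast hcon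
  have h2 : 0 ≤ 8 * (K * q * (K + 2)) / τ := by positivity
  have h3 : ((q - 1 : ℕ) : ℝ) ^ (K * q) * Real.exp K ≤
      ((K * q + 2) * ((q - 1 : ℕ) : ℝ) ^ (K * q)) * (8 * (K * q * (K + 2)) / τ) :=
    hle.trans (hw.trans (mul_le_mul_of_nonneg_right h1 h2))
  have h4 : Real.exp K ≤ (K * q + 2) * (8 * (K * q * (K + 2)) / τ) := by
    have h5 : ((q - 1 : ℕ) : ℝ) ^ (K * q) * Real.exp K ≤
        ((q - 1 : ℕ) : ℝ) ^ (K * q) * ((K * q + 2) * (8 * (K * q * (K + 2)) / τ)) := by
      calc _ ≤ _ := h3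
        _ = _ := by ring
    exact le_of_mul_le_mul_left h5 hp
  have hKq : (1 : ℝ) ≤ K * q := by
    have : 1 ≤ K * q := Nat.one_le_iff_ne_zero.mpr (by positivity)
    exact_mod_cast this
  have h6 : (K * q + 2 : ℝ) * (8 * (K * q * (K + 2))) ≤ 72 * (K : ℝ) ^ 3 * (q : ℝ) ^ 2 := by
    have h7 : (K * q + 2 : ℝ) ≤ 3 * (K * q) := by linarith only [hKq]
    have h8 : (K + 2 : ℝ) ≤ 3 * K := by linarith only [hK1]
    calc (K * q + 2 : ℝ) * (8 * (K * q * (K + 2))) ≤
          (3 * (K * q)) * (8 * (K * q * (3 * K))) := by (clear * - h7 h8 hK hq; gcongr)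
      _ = 72 * (K : ℝ) ^ 3 * (q : ℝ) ^ 2 := by ring
  have h9 : 72 * (K : ℝ) ^ 3 * (q : ℝ) ^ 2 ≤ 72 * (36 / η) ^ 2 * (K : ℝ) ^ 9 := by
    calc 72 * (K : ℝ) ^ 3 * (q : ℝ) ^ 2 ≤ 72 * (K : ℝ) ^ 3 * (36 / η * (K : ℝ) ^ 3) ^ 2 := by
          (clear * - hq hqK hK; gcongr)
      _ = 72 * (36 / η) ^ 2 * (K : ℝ) ^ 9 := by ring
  have h10 : (K * q + 2 : ℝ) * (8 * (K * q * (K + 2)) / τ) ≤
      72 * (36 / η) ^ 2 * (K : ℝ) ^ 9 / τ := by
    rw [← mul_div_assoc]
    exact div_le_div_of_nonneg_right (h6.trans h9) hτ.le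
  linarith only [hexp, h4, h10]

theorem collision (η : ℝ) (hη : 0 < η) :
    ∃ (n : ℕ) (d : ℝ), 1 ≤ n ∧ 0 < d ∧ 1 ≤ (n : ℝ) * d ∧ ∃ m : ℕ, 1 ≤ m ∧
      ∃ A B : Finset (Fin m → Fin (2 * n + 2)), Disjoint A B ∧ (A ∪ B).Nonempty ∧
      BDeg (m - 1) (fun z => (if z ∈ A then (1 : ℝ) else 0) - (if z ∈ B then 1 else 0)) ∧
      ∃ σ : ℝ, ∀ z ∈ A ∪ B, quad (fun r ω => gm (gcell n d ⁻¹' {ω}) r) σ z ≤
        η * ∏ i, gm (gcell n d ⁻¹' {z i}) 0 := by
  -- reduce to `η ≤ 1`
  wlog hη1 : η ≤ 1 generalizing η with H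
  · obtain ⟨n, d, hn, hd, hnd, m, hm, A, B, hAB, hne, hdeg, σ, hσ⟩ := H 1 one_pos le_rfl
    refine ⟨n, d, hn, hd, hnd, m, hm, A, B, hAB, hne, hdeg, σ, fun z hz => (hσ z hz).trans ?_⟩
    apply mul_le_mul_of_nonneg_right (by linarith only [hη1])
    exact Finset.prod_nonneg fun i _ => (gcell_pos n hn d hd _).le
  set τ : ℝ := Real.sqrt (η / 2) with hτdef
  have hτ : 0 < τ := Real.sqrt_pos.mpr (by positivity)
  have hτsq : τ ^ 2 = η / 2 := Real.sq_sqrt (by positivity)
  have hτ1 : τ ≤ 1 := by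
    rw [hτdef, Real.sqrt_le_one]
    linarith only [hη1]
  obtain ⟨K, hK1, hK32, hexp⟩ := coll_exists_K η τ
  have hKr : (1 : ℝ) ≤ K := by exact_mod_cast hK1
  have hK0 : (0 : ℝ) < K := by linarith only [hKr]
  set n : ℕ := ⌈16 * (K : ℝ) ^ 3 / η⌉₊ with hndef
  have hn_ge : 16 * (K : ℝ) ^ 3 / η ≤ n := Nat.le_ceil _
  have hn_le : (n : ℝ) < 16 * (K : ℝ) ^ 3 / η + 1 := Nat.ceil_lt_add_one (by positivity)
  have hnpos : (0 : ℝ) < n := lt_of_lt_of_le (by positivity) hn_ge
  have hn1 : 1 ≤ n := by exact_mod_cast hnpos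
  set d : ℝ := K / n with hddef
  have hd : 0 < d := by positivity
  have hnd : n * d = K := by
    rw [hddef]
    field_simp
  have hd_le : d ≤ η / (16 * (K : ℝ) ^ 2) := by
    rw [hddef, div_le_div_iff₀ hnpos (by positivity)]
    rw [div_le_iff₀ hη] at hn_ge
    calc (K : ℝ) * (16 * (K : ℝ) ^ 2) = 16 * (K : ℝ) ^ 3 := by ring
      _ ≤ n * η := hn_ge
      _ = η * n := by ring
  have hL : 1 ≤ n * d := by rw [hnd]; exact hKr
  -- cell data
  choose s v h1 h2 hs hv0 hvb hvt using fun ω => gcell_cond n hn1 d hd hL ω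
  -- letters
  have hcard : Fintype.card (Fin (2 * n + 2)) = 2 * n + 2 := Fintype.card_fin _
  set q : ℕ := Fintype.card (Fin (2 * n + 2)) with hqdef
  have hq2 : 2 ≤ q := by rw [hcard]; omega
  have hlast : (0 : Fin (2 * n + 2)) ≠ Fin.last (2 * n + 1) := by
    intro h
    have := congrArg Fin.val h
    simp at this
  obtain ⟨σ, W, hW, hWcard⟩ := window (Ω := Fin (2 * n + 2)) K hK1 {0, Fin.last (2 * n + 1)}
    (Finset.card_pair hlast) s (n * d + 2) (by rw [hnd]; linarith only []) hs τ hτ hτ1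
  -- pigeonhole
  have hqr : (q : ℝ) = 2 * n + 2 := by
    rw [hcard]
    push_cast
    ring
  have hqK : (q : ℝ) ≤ 36 / η * (K : ℝ) ^ 3 := by
    have hK3 : (1 : ℝ) ≤ (K : ℝ) ^ 3 := one_le_pow₀ hKr
    have h3 : 1 ≤ 1 / η := by
      rw [le_div_iff₀ hη]
      linarith only [hη1]
    have h4 : (1 : ℝ) ≤ 1 / η * (K : ℝ) ^ 3 := by nlinarith only [hK3, h3]
    have h5 : 16 * (K : ℝ) ^ 3 / η = 16 * (1 / η * (K : ℝ) ^ 3) := by ring
    have h6 : 36 / η * (K : ℝ) ^ 3 = 36 * (1 / η * (K : ℝ) ^ 3) := by ring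
    rw [hqr, h6]
    rw [h5] at hn_le
    linarith only [hn_le, h4]
  have hcount := coll_count K q hK1 hq2 η τ hη hτ hqK hexp W.card (by
    have := hWcard
    rw [hnd] at this
    exact this)
  have hm : 1 ≤ K * q := Nat.one_le_iff_ne_zero.mpr (by positivity)
  obtain ⟨A, B, hAW, hBW, hAB, hne, hdeg⟩ := pigeon (K * q) hm W hq2 hcount
  refine ⟨n, d, hn1, hd, hL, K * q, hm, A, B, hAB, hne, hdeg, σ, ?_⟩
  intro z hz
  have hzW : z ∈ W := by
    rcases Finset.mem_union.mp hz with h | h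
    · exact hAW h
    · exact hBW h
  obtain ⟨hz1, hz2⟩ := hW z hzW
  rw [quad_eval (fun ω => gm (gcell n d ⁻¹' {ω}) 0) s v _ (fun _ => rfl) h1 h2, mul_comm]
  apply mul_le_mul_of_nonneg_right
  · -- the numerical bound
    have hsq : (∑ i, s (z i) - σ) ^ 2 ≤ η / 2 := by
      rw [← hτsq, ← sq_abs]
      exact pow_le_pow_left₀ (abs_nonneg _) hz1 2
    have hvle : ∀ i, v (z i) ≤ d ^ 2 +
        (if z i ∈ ({0, Fin.last (2 * n + 1)} : Finset (Fin (2 * n + 2))) then
          2 / (K : ℝ) ^ 2 else 0) := by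
      intro i
      by_cases hi : z i ∈ ({0, Fin.last (2 * n + 1)} : Finset (Fin (2 * n + 2)))
      · rw [if_pos hi]
        have h3 : (z i).val = 0 ∨ (z i).val = 2 * n + 1 := by
          rw [Finset.mem_insert, Finset.mem_singleton] at hi
          rcases hi with h | h
          · left
            rw [h]
            rfl
          · right
            rw [h]
            rfl
        have h4 := hvt (z i) h3
        rw [hnd] at h4
        have h5 : 0 ≤ d ^ 2 := sq_nonneg d
        linarith only [h4, h5]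
      · rw [if_neg hi, add_zero]
        rw [Finset.mem_insert, Finset.mem_singleton, not_or] at hi
        apply hvb
        · intro h
          exact hi.1 (Fin.ext h)
        · intro h
          exact hi.2 (Fin.ext h)
    have hvsum : ∑ i, v (z i) ≤ (K * q : ℕ) * d ^ 2 + (4 * K : ℕ) * (2 / (K : ℝ) ^ 2) := by
      calc ∑ i, v (z i) ≤ ∑ i : Fin (K * q), (d ^ 2 +
            (if z i ∈ ({0, Fin.last (2 * n + 1)} : Finset (Fin (2 * n + 2))) then
              2 / (K : ℝ) ^ 2 else 0)) := Finset.sum_le_sum fun i _ => hvle i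
        _ = (K * q : ℕ) * d ^ 2 + ((univ.filter (fun i => z i ∈
              ({0, Fin.last (2 * n + 1)} : Finset (Fin (2 * n + 2))))).card : ℝ) *
              (2 / (K : ℝ) ^ 2) := by
            rw [Finset.sum_add_distrib, Finset.sum_const, Finset.card_univ, Fintype.card_fin,
              nsmul_eq_mul, ← Finset.sum_filter, Finset.sum_const, nsmul_eq_mul]
        _ ≤ (K * q : ℕ) * d ^ 2 + (4 * K : ℕ) * (2 / (K : ℝ) ^ 2) := by
            (clear * - hz2 hK1; gcongr)
    have h3 : ((K * q : ℕ) : ℝ) * d ^ 2 ≤ η / 4 := by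
      have h4 : ((K * q : ℕ) : ℝ) * d ^ 2 = K * (2 * (n * d) + 2 * d) * d := by
        push_cast
        rw [hqr]
        ring
      rw [h4, hnd]
      have h5 : d ≤ K := by
        rw [hddef]
        apply div_le_self hK0.le
        exact_mod_cast hn1
      calc K * (2 * K + 2 * d) * d ≤ K * (2 * K + 2 * K) * (η / (16 * (K : ℝ) ^ 2)) := by
            (clear * - h5 hK1 hd_le hη; gcongr)
        _ = η / 4 := by
            field_simp
            ring
    have h4 : ((4 * K : ℕ) : ℝ) * (2 / (K : ℝ) ^ 2) ≤ η / 4 := by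
      rw [div_le_iff₀ hη] at hK32
      push_cast
      rw [show (4 * (K : ℝ)) * (2 / (K : ℝ) ^ 2) = 8 / K by field_simp; norm_num,
        div_le_div_iff₀ hK0 (by norm_num)]
      linarith only [hK32]
    linarith only [hsq, hvsum, h3, h4]
  · exact Finset.prod_nonneg fun i _ => (gcell_pos n hn1 d hd _).le

end Vale.Agent.P047
end
end

section

section

open Finset

namespace Vale.Agent.P047

theorem quad_eval_aux {ι Ω : Type} [Fintype ι] [DecidableEq ι] (p s v : Ω → ℝ) (mm : ℕ → Ω → ℝ)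
    (h0 : ∀ ω, mm 0 ω = p ω) (h1 : ∀ ω, mm 1 ω = p ω * s ω)
    (h2 : ∀ ω, mm 2 ω = p ω * (s ω ^ 2 + v ω)) (c : ℝ) (z : ι → Ω) :
    quad mm c z = (∏ i, p (z i)) * ((∑ i, s (z i) - c) ^ 2 + ∑ i, v (z i)) := by
  have e1 : ∀ i, ∏ k, mm (if k = i then 1 else 0) (z k) = (∏ k, p (z k)) * s (z i) := by
    intro i
    have : ∀ k, mm (if k = i then 1 else 0) (z k) =
        p (z k) * (if k = i then s (z k) else 1) := by
      intro k
      by_cases hk : k = i <;> simp [hk, h0, h1]
    simp only [this, Finset.prod_mul_distrib, Finset.prod_ite_eq', mem_univ, if_true]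
  have e2 : ∀ i j, ∏ k, mm ((if k = i then 1 else 0) + (if k = j then 1 else 0)) (z k)
      = (∏ k, p (z k)) * (s (z i) * s (z j) + if i = j then v (z i) else 0) := by
    intro i j
    by_cases hij : i = j
    · subst hij
      have : ∀ k, mm ((if k = i then 1 else 0) + (if k = i then 1 else 0)) (z k)
         = p (z k) * (if k = i then s (z k) ^ 2 + v (z k) else 1) := by
        intro k
        by_cases hk : k = i <;> simp [hk, h0, h2]
      simp only [this, Finset.prod_mul_distrib, Finset.prod_ite_eq', mem_univ, if_true]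
      ring
    · have : ∀ k, mm ((if k = i then 1 else 0) + (if k = j then 1 else 0)) (z k)
         = p (z k) * ((if k = i then s (z k) else 1) * (if k = j then s (z k) else 1)) := by
        intro k
        by_cases hk : k = i
        · subst hk
          simp [hij, h1]
        · by_cases hk' : k = j
          · subst hk'
            simp [hk, h1]
          · simp [hk, hk', h0]
      simp only [this, Finset.prod_mul_distrib, Finset.prod_ite_eq', mem_univ, if_true, hij,
        if_false, add_zero]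
  unfold quad
  simp only [e1, e2, h0, ← Finset.mul_sum, Finset.sum_add_distrib, Finset.sum_ite_eq, mem_univ,
    if_true]
  rw [← Finset.sum_mul]
  ring

/-- Summing a product of partial moments over all words with a given pattern. -/
theorem sum_pattern {ι Ω : Type} [Fintype ι] [DecidableEq ι] [Fintype Ω] [DecidableEq Ω]
    (mm : ℕ → Ω → ℝ) (pos : Ω → Prop) [DecidablePred pos] (T : Finset ι) (f : ι → ℕ) :
    ∑ x : ι → Ω with univ.filter (fun i => pos (x i)) = T, ∏ k, mm (f k) (x k) =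
      ∏ k, (if k ∈ T then ∑ ω with pos ω, mm (f k) ω else ∑ ω with ¬ pos ω, mm (f k) ω) := by
  have h1 : (univ.filter (fun x : ι → Ω => univ.filter (fun i => pos (x i)) = T)) =
      Fintype.piFinset (fun k => if k ∈ T then univ.filter pos else univ.filter (¬ pos ·)) := by
    ext x
    simp only [mem_filter, mem_univ, true_and, Fintype.mem_piFinset]
    constructor
    · intro h k
      by_cases hk : k ∈ T
      · simp only [hk, if_true, mem_filter, mem_univ, true_and]
        rw [← h] at hk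
        simpa only [mem_filter, mem_univ, true_and] using hk
      · simp only [hk, if_false, mem_filter, mem_univ, true_and]
        rw [← h] at hk
        simpa using hk
    · intro h
      ext k
      have := h k
      by_cases hk : k ∈ T
      · simp only [hk, if_true, mem_filter, mem_univ, true_and] at this
        simp only [mem_filter, mem_univ, this, and_self, hk]
      · simp only [hk, if_false, mem_filter, mem_univ, true_and] at this
        simp [hk, this]
  rw [h1, ← Finset.prod_univ_sum]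
  refine Finset.prod_congr rfl fun k _ => ?_
  by_cases hk : k ∈ T <;> simp only [hk, ↓reduceIte]

/-- The same for the quadratic form. -/
theorem sum_pattern_quad {ι Ω : Type} [Fintype ι] [DecidableEq ι] [Fintype Ω] [DecidableEq Ω]
    (mm : ℕ → Ω → ℝ) (pos : Ω → Prop) [DecidablePred pos] (T : Finset ι) (c : ℝ) :
    ∑ x : ι → Ω with univ.filter (fun i => pos (x i)) = T, quad mm c x =
      quad (fun r b => if b = true then ∑ ω with pos ω, mm r ω else ∑ ω with ¬ pos ω, mm r ω) c
        (fun k => decide (k ∈ T)) := by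
  unfold quad
  simp only [Finset.sum_add_distrib, Finset.sum_sub_distrib, ← Finset.mul_sum, decide_eq_true_eq]
  rw [Finset.sum_comm, Finset.sum_comm (s := univ.filter _)]
  simp only [sum_pattern]
  congr 2
  refine Finset.sum_congr rfl fun i _ => ?_
  rw [Finset.sum_comm]
  simp only [sum_pattern]


/-- The `12`-wire computation: total weight. -/
theorem xpart_prob {Ω : Type} [Fintype Ω] [DecidableEq Ω] (mm : ℕ → Ω → ℝ)
    (pos : Ω → Prop) [DecidablePred pos]
    (h0 : ∑ ω with pos ω, mm 0 ω = 1 / 2) (h0' : ∑ ω with ¬ pos ω, mm 0 ω = 1 / 2) :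
    ∑ x : Fin 12 → Ω, (((univ.filter (fun i => pos (x i))).card : ℝ) - 3) ^ 2 *
      ∏ k, mm 0 (x k) = 12 := by
  rw [← Finset.sum_fiberwise (s := univ) (g := fun x : Fin 12 → Ω => univ.filter (fun i => pos (x i)))]
  have h : ∀ T : Finset (Fin 12), ∑ x : Fin 12 → Ω with univ.filter (fun i => pos (x i)) = T,
      (((univ.filter (fun i => pos (x i))).card : ℝ) - 3) ^ 2 * ∏ k, mm 0 (x k) =
      ((T.card : ℝ) - 3) ^ 2 * (1 / 2) ^ 12 := by
    intro T
    have h2 : ∑ x : Fin 12 → Ω with univ.filter (fun i => pos (x i)) = T,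
      (((univ.filter (fun i => pos (x i))).card : ℝ) - 3) ^ 2 * ∏ k, mm 0 (x k) =
      ∑ x : Fin 12 → Ω with univ.filter (fun i => pos (x i)) = T,
      ((T.card : ℝ) - 3) ^ 2 * ∏ k, mm 0 (x k) := by
      refine Finset.sum_congr rfl fun x hx => ?_
      rw [mem_filter] at hx
      rw [hx.2]
    rw [h2, ← Finset.mul_sum]
    have h3 := sum_pattern mm pos T (fun _ : Fin 12 => 0)
    rw [h3, h0, h0']
    simp only [one_div, ite_self, prod_inv_distrib, prod_const, card_univ, Fintype.card_fin, inv_pow]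
  simp only [h]
  have h4 := Finset.sum_powerset_apply_card (x := (univ : Finset (Fin 12)))
    (fun n : ℕ => ((n : ℝ) - 3) ^ 2 * (1 / 2) ^ 12)
  rw [Finset.powerset_univ] at h4
  rw [h4]
  simp only [card_univ, Fintype.card_fin, Finset.sum_range_succ, Finset.sum_range_zero,
    Nat.choose, nsmul_eq_mul]
  norm_num

/-- The `12`-wire computation: the quadratic form. -/
theorem xpart_quad {Ω : Type} [Fintype Ω] [DecidableEq Ω] (mm : ℕ → Ω → ℝ)
    (pos : Ω → Prop) [DecidablePred pos] (α : ℝ)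
    (h0 : ∑ ω with pos ω, mm 0 ω = 1 / 2) (h0' : ∑ ω with ¬ pos ω, mm 0 ω = 1 / 2)
    (h1 : ∑ ω with pos ω, mm 1 ω = α) (h1' : ∑ ω with ¬ pos ω, mm 1 ω = -α)
    (h2 : ∑ ω with pos ω, mm 2 ω = 1 / 2) (h2' : ∑ ω with ¬ pos ω, mm 2 ω = 1 / 2) :
    ∑ x : Fin 12 → Ω, (((univ.filter (fun i => pos (x i))).card : ℝ) - 3) ^ 2 *
      quad mm (6 * α) x = 144 - 168 * α ^ 2 := by
  rw [← Finset.sum_fiberwise (s := univ) (g := fun x : Fin 12 → Ω => univ.filter (fun i => pos (x i)))]
  have h : ∀ T : Finset (Fin 12), ∑ x : Fin 12 → Ω with univ.filter (fun i => pos (x i)) = T,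
      (((univ.filter (fun i => pos (x i))).card : ℝ) - 3) ^ 2 * quad mm (6 * α) x =
      ((T.card : ℝ) - 3) ^ 2 * ((1 / 2) ^ 12 *
        ((4 * α * T.card - 24 * α - 6 * α) ^ 2 + 12 * (1 - 4 * α ^ 2))) := by
    intro T
    have e2 : ∑ x : Fin 12 → Ω with univ.filter (fun i => pos (x i)) = T,
      (((univ.filter (fun i => pos (x i))).card : ℝ) - 3) ^ 2 * quad mm (6 * α) x =
      ∑ x : Fin 12 → Ω with univ.filter (fun i => pos (x i)) = T,
      ((T.card : ℝ) - 3) ^ 2 * quad mm (6 * α) x := by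
      refine Finset.sum_congr rfl fun x hx => ?_
      rw [mem_filter] at hx
      rw [hx.2]
    rw [e2, ← Finset.mul_sum, sum_pattern_quad]
    congr 1
    rw [quad_eval_aux (fun _ => 1 / 2) (fun b => if b = true then 2 * α else -(2 * α))
      (fun _ => 1 - 4 * α ^ 2)]
    · have e3 : ∑ i : Fin 12, (if decide (i ∈ T) = true then 2 * α else -(2 * α)) =
          4 * α * T.card - 24 * α := by
        have : ∀ i : Fin 12, (if decide (i ∈ T) = true then 2 * α else -(2 * α)) =
            4 * α * (if i ∈ T then 1 else 0) - 2 * α := by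
          intro i
          by_cases hi : i ∈ T <;> simp [hi] <;> ring
        simp only [this, Finset.sum_sub_distrib, ← Finset.mul_sum]
        simp only [sum_ite_mem, univ_inter, sum_const, nsmul_eq_mul, mul_one, card_univ, Fintype.card_fin, Nat.cast_ofNat, sub_right_inj]
        ring
      rw [e3]
      simp only [prod_const, card_univ, Fintype.card_fin, sum_const, nsmul_eq_mul]
      push_cast
      ring
    · intro b; cases b <;> simp [h0, h0']
    · intro b; cases b <;> simp [h1, h1']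
    · intro b; cases b <;> simp [h2, h2'] <;> ring
  simp only [h]
  have h4 := Finset.sum_powerset_apply_card (x := (univ : Finset (Fin 12)))
    (fun n : ℕ => ((n : ℝ) - 3) ^ 2 * ((1 / 2) ^ 12 *
        ((4 * α * n - 24 * α - 6 * α) ^ 2 + 12 * (1 - 4 * α ^ 2))))
  rw [Finset.powerset_univ] at h4
  rw [h4]
  simp only [card_univ, Fintype.card_fin, Finset.sum_range_succ, Finset.sum_range_zero,
    Nat.choose, nsmul_eq_mul]
  push_cast
  ring

section Blocks

variable {Ω : Type} [Fintype Ω] [DecidableEq Ω] {N t m : ℕ}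

/-- Signed indicator of a block of `m` letters. -/
noncomputable def blk (A B : Finset (Fin m → Ω)) (w : Fin m → Ω) : ℝ :=
  (if w ∈ A then (1 : ℝ) else 0) - (if w ∈ B then 1 else 0)

/-- Product of the signed indicators of the `t` blocks of the group `j`. -/
noncomputable def grp (A B : Finset (Fin m → Ω)) (y : Fin N × Fin t × Fin m → Ω)
    (j : Fin N) : ℝ :=
  ∏ g : Fin t, blk A B (fun k => y (j, g, k))

/-- Indicator that the group `j` has sign `1` and all other groups have sign `-1`. -/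
noncomputable def indY (A B : Finset (Fin m → Ω)) (j : Fin N)
    (y : Fin N × Fin t × Fin m → Ω) : ℝ :=
  (if grp A B y j = 1 then (1 : ℝ) else 0) *
    ∏ i ∈ univ.erase j, (if grp A B y i = -1 then (1 : ℝ) else 0)

/-- Indicator that all groups have sign `-1`. -/
noncomputable def indZ (A B : Finset (Fin m → Ω)) (y : Fin N × Fin t × Fin m → Ω) : ℝ :=
  ∏ i, (if grp A B y i = -1 then (1 : ℝ) else 0)

omit [Fintype Ω] in
theorem blk_cases {A B : Finset (Fin m → Ω)} (w : Fin m → Ω) :
    blk A B w = 0 ∨ blk A B w = 1 ∨ blk A B w = -1 := by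
  unfold blk
  by_cases h1 : w ∈ A <;> by_cases h2 : w ∈ B <;> simp [h1, h2]

omit [Fintype Ω] in
theorem mem_of_blk_ne_zero {A B : Finset (Fin m → Ω)} {w : Fin m → Ω} (h : blk A B w ≠ 0) :
    w ∈ A ∪ B := by
  by_contra hcon
  rw [mem_union, not_or] at hcon
  exact h (by simp [blk, hcon.1, hcon.2])

omit [Fintype Ω] in
theorem grp_cases {A B : Finset (Fin m → Ω)} (y : Fin N × Fin t × Fin m → Ω) (j : Fin N) :
    grp A B y j = 0 ∨ grp A B y j = 1 ∨ grp A B y j = -1 := by
  unfold grp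
  refine Finset.prod_induction _ (fun r : ℝ => r = 0 ∨ r = 1 ∨ r = -1) ?_ ?_ ?_
  · rintro a b (rfl | rfl | rfl) (rfl | rfl | rfl) <;> simp
  · simp
  · intro g _
    exact blk_cases _

omit [Fintype Ω] in
theorem mem_of_grp_ne_zero {A B : Finset (Fin m → Ω)} {y : Fin N × Fin t × Fin m → Ω} {j : Fin N}
    (h : grp A B y j ≠ 0) (g : Fin t) : (fun k => y (j, g, k)) ∈ A ∪ B := by
  refine mem_of_blk_ne_zero fun h0 => h ?_
  exact Finset.prod_eq_zero (mem_univ g) h0

omit [Fintype Ω] in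
theorem indY_sub_indZ {A B : Finset (Fin m → Ω)} (y : Fin N × Fin t × Fin m → Ω) (j : Fin N) :
    indY A B j y - indZ A B y =
      grp A B y j * ∏ i ∈ univ.erase j, (if grp A B y i = -1 then (1 : ℝ) else 0) := by
  unfold indY indZ
  rw [← Finset.mul_prod_erase univ _ (mem_univ j), ← sub_mul]
  congr 1
  rcases grp_cases (A := A) (B := B) y j with h | h | h <;> rw [h] <;> norm_num

omit [Fintype Ω] in
theorem indY_ne_zero {A B : Finset (Fin m → Ω)} {y : Fin N × Fin t × Fin m → Ω} {j : Fin N}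
    (h : indY A B j y ≠ 0) : grp A B y j = 1 ∧ ∀ i, i ≠ j → grp A B y i = -1 := by
  unfold indY at h
  constructor
  · by_contra hcon
    rw [if_neg hcon, zero_mul] at h
    exact h rfl
  · intro i hi
    by_contra hcon
    rw [Finset.prod_eq_zero (i := i) (by simp only [mem_erase, ne_eq, hi, not_false_eq_true, mem_univ, and_self]) (by simp [hcon]), mul_zero] at h
    exact h rfl

omit [Fintype Ω] in
theorem indY_eq_one {A B : Finset (Fin m → Ω)} {y : Fin N × Fin t × Fin m → Ω} {j : Fin N}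
    (h : grp A B y j = 1) (h' : ∀ i, i ≠ j → grp A B y i = -1) : indY A B j y = 1 := by
  unfold indY
  rw [if_pos h, one_mul]
  refine Finset.prod_eq_one fun i hi => ?_
  rw [if_pos (h' i (mem_erase.mp hi).1)]

omit [Fintype Ω] in
theorem indY_cases {A B : Finset (Fin m → Ω)} (y : Fin N × Fin t × Fin m → Ω) (j : Fin N) :
    indY A B j y = 0 ∨ indY A B j y = 1 := by
  by_cases h : indY A B j y = 0
  · exact Or.inl h
  · have := indY_ne_zero h
    exact Or.inr (indY_eq_one this.1 this.2)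

omit [Fintype Ω] in
theorem indY_disj {A B : Finset (Fin m → Ω)} {y : Fin N × Fin t × Fin m → Ω} {i j : Fin N}
    (hij : i ≠ j) (h : indY A B j y ≠ 0) : indY A B i y = 0 := by
  by_contra hcon
  have h1 := (indY_ne_zero hcon).2 j hij.symm
  rw [(indY_ne_zero h).1] at h1
  norm_num at h1

omit [Fintype Ω] in
theorem bdeg_grp {A B : Finset (Fin m → Ω)} (hdeg : BDeg (m - 1) (blk A B)) (j : Fin N) :
    BDeg (t * (m - 1)) (fun y : Fin N × Fin t × Fin m → Ω => grp A B y j) := by
  have := BDeg.prod (ι := Fin N × Fin t × Fin m) (Ω := Ω) (univ : Finset (Fin t))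
    (F := fun g y => blk A B (fun k => y (j, g, k))) (k := fun _ => m - 1)
    (fun g _ => BDeg.reindex hdeg (fun k => (j, g, k)))
  simpa only [grp, sum_const, card_univ, Fintype.card_fin, smul_eq_mul] using this

omit [Fintype Ω] in
theorem bdeg_ind {A B : Finset (Fin m → Ω)} (i : Fin N) :
    BDeg (t * m) (fun y : Fin N × Fin t × Fin m → Ω =>
      if grp A B y i = -1 then (1 : ℝ) else 0) := by
  have h := BDeg.full (ι := Fin t × Fin m) (Ω := Ω)
    (fun u => if ∏ g : Fin t, blk A B (fun k => u (g, k)) = -1 then (1 : ℝ) else 0)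
  have h2 := BDeg.reindex h (fun p : Fin t × Fin m => ((i, p) : Fin N × Fin t × Fin m))
  rw [Fintype.card_prod, Fintype.card_fin, Fintype.card_fin] at h2
  exact h2

omit [Fintype Ω] in
theorem bdeg_indZ {A B : Finset (Fin m → Ω)} :
    BDeg (N * (t * m)) (fun y : Fin N × Fin t × Fin m → Ω => indZ A B y) := by
  have := BDeg.prod (ι := Fin N × Fin t × Fin m) (Ω := Ω) (univ : Finset (Fin N))
    (F := fun i y => if grp A B y i = -1 then (1 : ℝ) else 0) (k := fun _ => t * m)
    (fun i _ => bdeg_ind i)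
  simpa only [indZ, sum_const, card_univ, Fintype.card_fin, smul_eq_mul] using this

omit [Fintype Ω] in
theorem bdeg_indY_sub {A B : Finset (Fin m → Ω)} (hm : 1 ≤ m) (hdeg : BDeg (m - 1) (blk A B))
    (j : Fin N) :
    BDeg (N * (t * m) - t) (fun y : Fin N × Fin t × Fin m → Ω => indY A B j y - indZ A B y) := by
  simp only [indY_sub_indZ]
  have h1 := BDeg.prod (ι := Fin N × Fin t × Fin m) (Ω := Ω) (univ.erase j)
    (F := fun i y => if grp A B y i = -1 then (1 : ℝ) else 0) (k := fun _ => t * m)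
    (fun i _ => bdeg_ind i)
  refine (BDeg.mul (bdeg_grp hdeg j) h1).mono ?_
  simp only [sum_const, card_erase_of_mem (mem_univ j), card_univ, Fintype.card_fin, smul_eq_mul]
  have hN : 1 ≤ N := Nat.one_le_of_lt j.isLt
  obtain ⟨N', rfl⟩ : ∃ N', N = N' + 1 := ⟨N - 1, by omega⟩
  obtain ⟨m', rfl⟩ : ∃ m', m = m' + 1 := ⟨m - 1, by omega⟩
  simp only [Nat.add_sub_cancel]
  rw [Nat.le_sub_iff_add_le]
  · ring_nf; exact le_refl _
  · nlinarith only [Nat.zero_le (N' * (t * (m' + 1)))]

/-- The probability of `indY` does not depend on the group. -/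
theorem sum_indY_eq (p : Ω → ℝ) (A B : Finset (Fin m → Ω)) (j j' : Fin N) :
    ∑ y : Fin N × Fin t × Fin m → Ω, indY A B j y * ∏ k, p (y k) =
      ∑ y : Fin N × Fin t × Fin m → Ω, indY A B j' y * ∏ k, p (y k) := by
  let e : (Fin N × Fin t × Fin m) ≃ (Fin N × Fin t × Fin m) :=
    (Equiv.swap j j').prodCongr (Equiv.refl _)
  refine Fintype.sum_equiv (e.arrowCongr (Equiv.refl Ω)) _ _ ?_
  intro y
  have hy : (e.arrowCongr (Equiv.refl Ω)) y = fun k => y (e.symm k) := rfl
  rw [hy]
  have hg : ∀ i, grp A B (fun k => y (e.symm k)) i = grp A B y (Equiv.swap j j' i) := by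
    intro i
    have : ∀ (g : Fin t) (k : Fin m), e.symm (i, g, k) = (Equiv.swap j j' i, g, k) := by
      intro g k
      simp [e]
    simp only [grp, this]
  have hprod : ∏ k, p (y (e.symm k)) = ∏ k, p (y k) :=
    Equiv.prod_comp e.symm (fun k => p (y k))
  rw [hprod]
  congr 1
  by_cases h : indY A B j y = 0
  · rw [h]
    by_contra hcon
    have h2 := indY_ne_zero (Ne.symm hcon)
    refine zero_ne_one (α := ℝ) ?_
    rw [← h]
    refine indY_eq_one ?_ ?_
    · have := h2.1
      rw [hg, Equiv.swap_apply_right] at this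
      exact this
    · intro i hi
      have := h2.2 (Equiv.swap j j' i) (by
        intro h3
        apply hi
        rw [Equiv.swap_apply_eq_iff, Equiv.swap_apply_right] at h3
        exact h3)
      rw [hg, Equiv.swap_apply_self] at this
      exact this
  · have h2 := indY_ne_zero h
    rw [indY_eq_one h2.1 h2.2, indY_eq_one]
    · rw [hg, Equiv.swap_apply_right]
      exact h2.1
    · intro i hi
      rw [hg]
      refine h2.2 _ ?_
      intro h3
      apply hi
      rw [Equiv.swap_apply_eq_iff, Equiv.swap_apply_left] at h3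
      exact h3

theorem sum_indY_pos {p : Ω → ℝ} (hp : ∀ ω, 0 < p ω) {A B : Finset (Fin m → Ω)}
    (hAB : Disjoint A B) (hA : A.Nonempty) (hB : B.Nonempty) (ht : 1 ≤ t) (j : Fin N) :
    0 < ∑ y : Fin N × Fin t × Fin m → Ω, indY A B j y * ∏ k, p (y k) := by
  obtain ⟨a, ha⟩ := hA
  obtain ⟨b, hb⟩ := hB
  have ha' : a ∉ B := fun h => (Finset.disjoint_left.mp hAB) ha h
  have hb' : b ∉ A := fun h => (Finset.disjoint_left.mp hAB) h hb
  let g0 : Fin t := ⟨0, ht⟩
  have hprod : ∀ y : Fin N × Fin t × Fin m → Ω, 0 < ∏ k, p (y k) := fun y =>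
    Finset.prod_pos fun k _ => hp _
  refine Finset.sum_pos' ?_ ⟨fun k => if k.1 = j then a k.2.2 else
    if k.2.1 = g0 then b k.2.2 else a k.2.2, mem_univ _, ?_⟩
  · intro y _
    rcases indY_cases (A := A) (B := B) y j with h | h <;> rw [h]
    · simp only [zero_mul, Std.le_refl]
    · rw [one_mul]; exact (hprod y).le
  · rw [indY_eq_one, one_mul]
    · exact hprod _
    · unfold grp
      refine Finset.prod_eq_one fun g _ => ?_
      simp [blk, ha, ha']
    · intro i hi
      unfold grp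
      rw [← Finset.mul_prod_erase univ _ (mem_univ g0), Finset.prod_eq_one]
      · simp [blk, hi, hb, hb']
      · intro g hg
        have : g ≠ g0 := (mem_erase.mp hg).1
        simp [blk, hi, this, ha, ha']

omit [Fintype Ω] [DecidableEq Ω] in
theorem noise (s v : Ω → ℝ) (hv0 : ∀ ω, 0 ≤ v ω) (σ η : ℝ) (y : Fin N × Fin t × Fin m → Ω)
    (hNt : 1 ≤ N * t)
    (h : ∀ i g, (∑ k, s (y (i, g, k)) - σ) ^ 2 + ∑ k, v (y (i, g, k)) ≤ η) :
    (∑ k, s (y k) - (N * t : ℕ) * σ) ^ 2 + ∑ k, v (y k) ≤ (N * t : ℕ) ^ 2 * η := by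
  have hS : ∑ k, s (y k) = ∑ q : Fin N × Fin t, ∑ k, s (y (q.1, q.2, k)) := by
    simp only [Fintype.sum_prod_type]
  have hV : ∑ k, v (y k) = ∑ q : Fin N × Fin t, ∑ k, v (y (q.1, q.2, k)) := by
    simp only [Fintype.sum_prod_type]
  have hS2 : ∑ k, s (y k) - (N * t : ℕ) * σ =
      ∑ q : Fin N × Fin t, (∑ k, s (y (q.1, q.2, k)) - σ) := by
    rw [hS, Finset.sum_sub_distrib]
    simp only [Nat.cast_mul, sum_const, card_univ, Fintype.card_prod, Fintype.card_fin, nsmul_eq_mul]
  have hcs := sq_sum_le_card_mul_sum_sq (s := (univ : Finset (Fin N × Fin t)))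
    (f := fun q => ∑ k, s (y (q.1, q.2, k)) - σ)
  rw [card_univ, Fintype.card_prod, Fintype.card_fin, Fintype.card_fin] at hcs
  have hNt' : (1 : ℝ) ≤ (N * t : ℕ) := by exact_mod_cast hNt
  have hVnn : 0 ≤ ∑ k, v (y k) := Finset.sum_nonneg fun k _ => hv0 _
  have hsum : ∑ q : Fin N × Fin t, ((∑ k, s (y (q.1, q.2, k)) - σ) ^ 2 +
      ∑ k, v (y (q.1, q.2, k))) ≤ (N * t : ℕ) * η := by
    calc _ ≤ ∑ q : Fin N × Fin t, η := Finset.sum_le_sum fun q _ => h q.1 q.2
      _ = _ := by simp only [sum_const, card_univ, Fintype.card_prod, Fintype.card_fin, nsmul_eq_mul, Nat.cast_mul]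
  rw [Finset.sum_add_distrib, ← hV] at hsum
  rw [hS2]
  calc _ ≤ (N * t : ℕ) * ∑ q : Fin N × Fin t, (∑ k, s (y (q.1, q.2, k)) - σ) ^ 2 +
        (N * t : ℕ) * ∑ k, v (y k) := by nlinarith only [hcs, hNt', hVnn]
    _ = (N * t : ℕ) * (∑ q : Fin N × Fin t, (∑ k, s (y (q.1, q.2, k)) - σ) ^ 2 +
        ∑ k, v (y k)) := by ring
    _ ≤ (N * t : ℕ) * ((N * t : ℕ) * η) := by
        exact mul_le_mul_of_nonneg_left hsum (by positivity)
    _ = _ := by ring

end Blocks

theorem sum_lt_eq {N : ℕ} (a : ℕ) (ha : a ≤ N) :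
    ∑ j : Fin N, (if (j : ℕ) < a then (1 : ℝ) else 0) = a := by
  rw [Fin.sum_univ_eq_sum_range (fun j => if j < a then (1 : ℝ) else 0) N, Finset.sum_boole]
  have : (range N).filter (fun j => j < a) = range a := by
    ext j
    simp only [mem_filter, mem_range]
    omega
  rw [this, card_range]

section Main

variable {Ω : Type} [Fintype Ω] [DecidableEq Ω] {N t m : ℕ}

/-- The gadget set. -/
noncomputable def gset (hx : (Fin 12 → Ω) → ℕ) (A B : Finset (Fin m → Ω)) :
    Finset (Fin 12 ⊕ (Fin N × Fin t × Fin m) → Ω) :=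
  univ.filter (fun z => ∃ j : Fin N, (j : ℕ) < hx (fun i => z (Sum.inl i)) ∧
    indY A B j (fun k => z (Sum.inr k)) = 1)

theorem ind_gset (hx : (Fin 12 → Ω) → ℕ) (A B : Finset (Fin m → Ω))
    (z : Fin 12 ⊕ (Fin N × Fin t × Fin m) → Ω) :
    (if z ∈ gset hx A B then (1 : ℝ) else 0) =
      ∑ j : Fin N, (if (j : ℕ) < hx (fun i => z (Sum.inl i)) then (1 : ℝ) else 0) *
        indY A B j (fun k => z (Sum.inr k)) := by
  by_cases h : z ∈ gset hx A B
  · rw [if_pos h]
    unfold gset at h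
    simp only [mem_filter, mem_univ, true_and] at h
    obtain ⟨j, hj, hY⟩ := h
    rw [Finset.sum_eq_single j]
    · rw [if_pos hj, hY, one_mul]
    · intro i _ hij
      rw [indY_disj hij (by rw [hY]; norm_num), mul_zero]
    · intro h; exact (h (mem_univ _)).elim
  · rw [if_neg h]
    symm
    refine Finset.sum_eq_zero fun j _ => ?_
    by_cases hj : (j : ℕ) < hx (fun i => z (Sum.inl i))
    · rcases indY_cases (A := A) (B := B) (fun k => z (Sum.inr k)) j with h1 | h1
      · rw [h1, mul_zero]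
      · exfalso
        apply h
        unfold gset
        simp only [mem_filter, mem_univ, true_and]
        exact ⟨j, hj, h1⟩
    · rw [if_neg hj, zero_mul]

theorem bdeg_gset {hx : (Fin 12 → Ω) → ℕ} (hN : ∀ x, hx x ≤ N)
    (hdx : BDeg 2 (fun x => (hx x : ℝ))) (hm : 1 ≤ m) {A B : Finset (Fin m → Ω)}
    (hdeg : BDeg (m - 1) (blk A B)) {k : ℕ} (h1 : 12 + (N * (t * m) - t) ≤ k)
    (h2 : 2 + N * (t * m) ≤ k) :
    BDeg k (fun z : Fin 12 ⊕ (Fin N × Fin t × Fin m) → Ω =>
      if z ∈ gset hx A B then (1 : ℝ) else 0) := by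
  have e : (fun z : Fin 12 ⊕ (Fin N × Fin t × Fin m) → Ω =>
      if z ∈ gset hx A B then (1 : ℝ) else 0) = fun z =>
      (∑ j : Fin N, (if (j : ℕ) < hx (fun i => z (Sum.inl i)) then (1 : ℝ) else 0) *
        (indY A B j (fun k => z (Sum.inr k)) - indZ A B (fun k => z (Sum.inr k)))) +
      (hx (fun i => z (Sum.inl i)) : ℝ) * indZ A B (fun k => z (Sum.inr k)) := by
    funext z
    rw [ind_gset]
    simp only [mul_sub, Finset.sum_sub_distrib]
    rw [← Finset.sum_mul, sum_lt_eq _ (hN _)]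
    ring
  rw [e]
  refine BDeg.add ?_ ?_
  · refine BDeg.sum _ fun j _ => ?_
    have h3 : BDeg 12 (fun z : Fin 12 ⊕ (Fin N × Fin t × Fin m) → Ω =>
        if (j : ℕ) < hx (fun i => z (Sum.inl i)) then (1 : ℝ) else 0) := by
      have := BDeg.reindex (BDeg.full (ι := Fin 12) (Ω := Ω)
        (fun x => if (j : ℕ) < hx x then (1 : ℝ) else 0))
        (Sum.inl : Fin 12 → Fin 12 ⊕ (Fin N × Fin t × Fin m))
      rw [Fintype.card_fin] at this
      exact this
    exact (BDeg.mul h3 (BDeg.reindex (bdeg_indY_sub hm hdeg j) Sum.inr)).mono h1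
  · exact (BDeg.mul (BDeg.reindex hdx Sum.inl) (BDeg.reindex bdeg_indZ Sum.inr)).mono h2

/-- Summation over the gadget set. -/
theorem sum_gset {hx : (Fin 12 → Ω) → ℕ} (hN : ∀ x, hx x ≤ N) {p : Ω → ℝ}
    {A B : Finset (Fin m → Ω)} (j0 : Fin N) (g : (Fin 12 → Ω) → ℝ) :
    ∑ z ∈ gset (N := N) (t := t) hx A B, g (fun i => z (Sum.inl i)) *
      ∏ k, p (z (Sum.inr k)) =
    (∑ x, (hx x : ℝ) * g x) *
      ∑ y : Fin N × Fin t × Fin m → Ω, indY A B j0 y * ∏ k, p (y k) := by
  have h1 : ∑ z ∈ gset (N := N) (t := t) hx A B, g (fun i => z (Sum.inl i)) *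
      ∏ k, p (z (Sum.inr k)) = ∑ z : Fin 12 ⊕ (Fin N × Fin t × Fin m) → Ω,
        (if z ∈ gset hx A B then (1 : ℝ) else 0) * (g (fun i => z (Sum.inl i)) *
      ∏ k, p (z (Sum.inr k))) := by
    simp only [ite_mul, one_mul, zero_mul]
    rw [← Finset.sum_filter]
    simp only [subset_univ, filter_mem_eq_of_subset]
  have h0 : ∑ z : Fin 12 ⊕ (Fin N × Fin t × Fin m) → Ω,
        (if z ∈ gset hx A B then (1 : ℝ) else 0) * (g (fun i => z (Sum.inl i)) *
      ∏ k, p (z (Sum.inr k))) = ∑ q : (Fin 12 → Ω) × (Fin N × Fin t × Fin m → Ω),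
      (∑ j : Fin N, (if (j : ℕ) < hx q.1 then (1 : ℝ) else 0) * indY A B j q.2) *
        (g q.1 * ∏ k, p (q.2 k)) := by
    refine Fintype.sum_equiv (Equiv.sumArrowEquivProdArrow (Fin 12) (Fin N × Fin t × Fin m) Ω)
      _ _ (fun z => ?_)
    rw [ind_gset]
    rfl
  rw [h1, h0, Fintype.sum_prod_type, Finset.sum_mul]
  refine Finset.sum_congr rfl fun x _ => ?_
  have h2 : ∀ y : Fin N × Fin t × Fin m → Ω,
      (∑ j : Fin N, (if (j : ℕ) < hx x then (1 : ℝ) else 0) * indY A B j y) *
        (g x * ∏ k, p (y k)) =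
      ∑ j : Fin N, ((if (j : ℕ) < hx x then (1 : ℝ) else 0) * g x) *
        (indY A B j y * ∏ k, p (y k)) := by
    intro y
    rw [Finset.sum_mul]
    refine Finset.sum_congr rfl fun j _ => ?_
    ring
  simp only [h2]
  rw [Finset.sum_comm]
  simp only [← Finset.mul_sum]
  rw [Finset.sum_congr rfl (fun j _ => by rw [sum_indY_eq p A B j j0]), ← Finset.sum_mul,
    ← Finset.sum_mul, sum_lt_eq _ (hN x)]

end Main

/-- `(h - 3) ^ 2` for the number `h` of positive coordinates. -/
def hcount {Ω : Type} (pos : Ω → Prop) [DecidablePred pos] (x : Fin 12 → Ω) : ℕ :=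
  ((((univ.filter (fun i => pos (x i))).card : ℤ) - 3) ^ 2).toNat

theorem hcount_cast {Ω : Type} (pos : Ω → Prop) [DecidablePred pos] (x : Fin 12 → Ω) :
    (hcount pos x : ℝ) = (((univ.filter (fun i => pos (x i))).card : ℝ) - 3) ^ 2 := by
  have h : ((hcount pos x : ℕ) : ℤ) = (((univ.filter (fun i => pos (x i))).card : ℤ) - 3) ^ 2 := by
    unfold hcount
    exact Int.toNat_of_nonneg (sq_nonneg _)
  have h2 : (((hcount pos x : ℕ) : ℤ) : ℝ) =
      (((((univ.filter (fun i => pos (x i))).card : ℤ) - 3) ^ 2 : ℤ) : ℝ) := by rw [h]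
  push_cast at h2
  exact h2

theorem hcount_le {Ω : Type} (pos : Ω → Prop) [DecidablePred pos] (x : Fin 12 → Ω) :
    hcount pos x ≤ 81 := by
  have h : ((hcount pos x : ℕ) : ℤ) = (((univ.filter (fun i => pos (x i))).card : ℤ) - 3) ^ 2 := by
    unfold hcount
    exact Int.toNat_of_nonneg (sq_nonneg _)
  have h2 : (univ.filter (fun i => pos (x i))).card ≤ 12 := by
    refine (card_le_univ _).trans ?_
    simp
  have h3 : ((univ.filter (fun i => pos (x i))).card : ℤ) ≤ 12 := by exact_mod_cast h2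
  have h4 : (0 : ℤ) ≤ ((univ.filter (fun i => pos (x i))).card : ℤ) := by (clear * -; positivity)
  have : ((hcount pos x : ℕ) : ℤ) ≤ 81 := by rw [h]; nlinarith only [h2]
  exact_mod_cast this

theorem bdeg_hcount {Ω : Type} (pos : Ω → Prop) [DecidablePred pos] :
    BDeg 2 (fun x : Fin 12 → Ω => (hcount pos x : ℝ)) := by
  have h1 : BDeg 1 (fun x : Fin 12 → Ω => ((univ.filter (fun i => pos (x i))).card : ℝ) - 3) := by
    have e : (fun x : Fin 12 → Ω => ((univ.filter (fun i => pos (x i))).card : ℝ) - 3) =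
        fun x => (∑ i, (if pos (x i) then (1 : ℝ) else 0)) - 3 := by
      funext x
      rw [Finset.sum_boole]
    rw [e]
    have h2 : BDeg 1 (fun x : Fin 12 → Ω => ∑ i, (if pos (x i) then (1 : ℝ) else 0)) := by
      refine BDeg.sum univ (F := fun i (x : Fin 12 → Ω) => if pos (x i) then (1 : ℝ) else 0)
        fun i _ => ?_
      refine BDeg.of_dependsOn (S := {i}) (by simp) ?_
      intro x y h
      have hxy : x i = y i := h i (by simp)
      simp only [hxy]
    exact BDeg.sub h2 (BDeg.const 3 1)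
  have e2 : (fun x : Fin 12 → Ω => (hcount pos x : ℝ)) = fun x =>
      (((univ.filter (fun i => pos (x i))).card : ℝ) - 3) *
        (((univ.filter (fun i => pos (x i))).card : ℝ) - 3) := by
    funext x
    rw [hcount_cast, sq]
  rw [e2]
  have h3 := BDeg.mul h1 h1
  exact h3.mono (by norm_num)

theorem pointwise {Ω : Type} [Fintype Ω] [DecidableEq Ω] {N t m : ℕ} (hNt : 1 ≤ N * t)
    (mm : ℕ → Ω → ℝ) (s v : Ω → ℝ)
    (hp : ∀ ω, 0 < mm 0 ω) (hs : ∀ ω, mm 1 ω = mm 0 ω * s ω)
    (hv : ∀ ω, mm 2 ω = mm 0 ω * (s ω ^ 2 + v ω)) (hv0 : ∀ ω, 0 ≤ v ω)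
    (hx : (Fin 12 → Ω) → ℕ) (A B : Finset (Fin m → Ω)) (cx σ η : ℝ)
    (hsmall : ∀ z ∈ A ∪ B, quad mm σ z ≤ η * ∏ i, mm 0 (z i)) :
    ∀ z ∈ gset (N := N) (t := t) hx A B,
        quad mm (cx + ((N * t : ℕ) : ℝ) * σ) z ≤
          (101 / 100 * quad mm cx (fun i => z (Sum.inl i)) +
            101 * (((N * t : ℕ) : ℝ) ^ 2 * η) * ∏ i, mm 0 (z (Sum.inl i))) *
          ∏ k, mm 0 (z (Sum.inr k)) := by
  intro z hz
  unfold gset at hz
  simp only [mem_filter, mem_univ, true_and] at hz
  obtain ⟨j, _, hY⟩ := hz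
  have hY2 := indY_ne_zero (by rw [hY]; norm_num : indY A B j (fun k => z (Sum.inr k)) ≠ 0)
  have hne0 : ∀ i, grp A B (fun k => z (Sum.inr k)) i ≠ 0 := by
    intro i
    by_cases hij : i = j
    · rw [hij, hY2.1]; norm_num
    · rw [hY2.2 i hij]; norm_num
  have hnoise := noise (N := N) (t := t) (m := m) s v hv0 σ η
    (fun k => z (Sum.inr k)) hNt (by
      intro i g
      have hmem := mem_of_grp_ne_zero (hne0 i) g
      have hq := hsmall _ hmem
      rw [quad_eval_aux (mm 0) s v mm (fun _ => rfl) hs hv, mul_comm] at hq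
      exact le_of_mul_le_mul_right hq (Finset.prod_pos fun i _ => hp _))
  rw [quad_eval_aux (mm 0) s v mm (fun _ => rfl) hs hv,
    quad_eval_aux (mm 0) s v mm (fun _ => rfl) hs hv, Fintype.prod_sum_type,
    Fintype.sum_sum_type, Fintype.sum_sum_type]
  have hPx : 0 < ∏ i, mm 0 (z (Sum.inl i)) := Finset.prod_pos fun i _ => hp _
  have hPy : 0 < ∏ k, mm 0 (z (Sum.inr k)) := Finset.prod_pos fun i _ => hp _
  have hVx : 0 ≤ ∑ i, v (z (Sum.inl i)) := Finset.sum_nonneg fun i _ => hv0 _
  have hVy : 0 ≤ ∑ k, v (z (Sum.inr k)) := Finset.sum_nonneg fun i _ => hv0 _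
  set Px := ∏ i, mm 0 (z (Sum.inl i))
  set Py := ∏ k, mm 0 (z (Sum.inr k))
  set Vx := ∑ i, v (z (Sum.inl i))
  set Vy := ∑ k, v (z (Sum.inr k))
  set Sx := ∑ i, s (z (Sum.inl i))
  set Sy := ∑ k, s (z (Sum.inr k))
  set E := (((N * t : ℕ) : ℝ) ^ 2 * η) with hE
  set b := Sy - ((N * t : ℕ) : ℝ) * σ with hb
  set a := Sx - cx with ha
  have hab : Sx + Sy - (cx + ((N * t : ℕ) : ℝ) * σ) = a + b := by
    rw [ha, hb]; ring
  rw [hab]
  have key : (a + b) ^ 2 + (Vx + Vy) ≤ 101 / 100 * (a ^ 2 + Vx) + 101 * E := by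
    nlinarith only [hVx, hVy, hnoise, sq_nonneg (a / 10 - 10 * b)]
  calc Px * Py * ((a + b) ^ 2 + (Vx + Vy))
      ≤ Px * Py * (101 / 100 * (a ^ 2 + Vx) + 101 * E) :=
        mul_le_mul_of_nonneg_left key (by (clear * - hPx hPy; positivity))
    _ = _ := by ring

theorem combine {Ω : Type} [Fintype Ω] [DecidableEq Ω] (mm : ℕ → Ω → ℝ) (s v : Ω → ℝ)
    (hp : ∀ ω, 0 < mm 0 ω) (hs : ∀ ω, mm 1 ω = mm 0 ω * s ω)
    (hv : ∀ ω, mm 2 ω = mm 0 ω * (s ω ^ 2 + v ω)) (hv0 : ∀ ω, 0 ≤ v ω)
    (pos : Ω → Prop) [DecidablePred pos]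
    (h0 : ∑ ω with pos ω, mm 0 ω = 1 / 2) (h0' : ∑ ω with ¬ pos ω, mm 0 ω = 1 / 2)
    (h1 : ∑ ω with pos ω, mm 1 ω = 1 / Real.sqrt (2 * Real.pi))
    (h1' : ∑ ω with ¬ pos ω, mm 1 ω = -(1 / Real.sqrt (2 * Real.pi)))
    (h2 : ∑ ω with pos ω, mm 2 ω = 1 / 2) (h2' : ∑ ω with ¬ pos ω, mm 2 ω = 1 / 2)
    (m : ℕ) (hm : 1 ≤ m) (A B : Finset (Fin m → Ω)) (hAB : Disjoint A B)
    (hne : (A ∪ B).Nonempty)
    (hdeg : BDeg (m - 1)
      (fun z => (if z ∈ A then (1 : ℝ) else 0) - (if z ∈ B then 1 else 0)))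
    (σ : ℝ) (hsmall : ∀ z ∈ A ∪ B, quad mm σ z ≤ 1 / 10 ^ 9 * ∏ i, mm 0 (z i)) :
    ∃ (ι : Type) (_ : Fintype ι) (_ : DecidableEq ι) (t : ℕ) (C : Finset (ι → Ω)) (c : ℝ),
      t ≤ Fintype.card ι ∧
      BDeg (Fintype.card ι - t) (fun z => if z ∈ C then (1 : ℝ) else 0) ∧
      ∑ z ∈ C, quad mm c z < t * ∑ z ∈ C, ∏ i, mm 0 (z i) := by
  have easy : ∀ D : Finset (Fin m → Ω), D.Nonempty → D ⊆ A ∪ B →
      BDeg (m - 1) (fun z => if z ∈ D then (1 : ℝ) else 0) →
      ∃ (ι : Type) (_ : Fintype ι) (_ : DecidableEq ι) (t : ℕ) (C : Finset (ι → Ω)) (c : ℝ),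
      t ≤ Fintype.card ι ∧
      BDeg (Fintype.card ι - t) (fun z => if z ∈ C then (1 : ℝ) else 0) ∧
      ∑ z ∈ C, quad mm c z < t * ∑ z ∈ C, ∏ i, mm 0 (z i) := by
    intro D hD hDs hDdeg
    refine ⟨Fin m, inferInstance, inferInstance, 1, D, σ, by simpa only [Fintype.card_fin] using hm, by simpa only [Fintype.card_fin] using hDdeg,
      ?_⟩
    have hpos : 0 < ∑ z ∈ D, ∏ i, mm 0 (z i) :=
      Finset.sum_pos (fun z _ => Finset.prod_pos fun i _ => hp _) hD
    calc ∑ z ∈ D, quad mm σ z ≤ ∑ z ∈ D, 1 / 10 ^ 9 * ∏ i, mm 0 (z i) :=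
          Finset.sum_le_sum fun z hz => hsmall z (hDs hz)
      _ = 1 / 10 ^ 9 * ∑ z ∈ D, ∏ i, mm 0 (z i) := by rw [Finset.mul_sum]
      _ < ((1 : ℕ) : ℝ) * ∑ z ∈ D, ∏ i, mm 0 (z i) := by
          push_cast
          nlinarith only [hpos]
  rcases A.eq_empty_or_nonempty with hA | hA
  · subst hA
    rw [empty_union] at hne
    refine easy B hne (by simp) ?_
    have h3 := BDeg.smul (-1) hdeg
    have e : (fun z : Fin m → Ω => if z ∈ B then (1 : ℝ) else 0) = fun z =>
        (-1) * ((if z ∈ (∅ : Finset (Fin m → Ω)) then (1 : ℝ) else 0) -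
          (if z ∈ B then 1 else 0)) := by
      funext z
      by_cases hz : z ∈ B <;> simp [hz]
    rw [e]
    exact h3
  rcases B.eq_empty_or_nonempty with hB | hB
  · subst hB
    rw [union_empty] at hne
    refine easy A hne (by simp) ?_
    simpa only [notMem_empty, ↓reduceIte, sub_zero] using hdeg
  set α : ℝ := 1 / Real.sqrt (2 * Real.pi) with hα
  have hα2 : α ^ 2 = 1 / (2 * Real.pi) := by
    rw [hα, div_pow, Real.sq_sqrt (by positivity), one_pow]
  let j0 : Fin 81 := 0
  have hcard : Fintype.card (Fin 12 ⊕ (Fin 81 × Fin 10 × Fin m)) = 12 + 81 * (10 * m) := by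
    simp only [Fintype.card_sum, Fintype.card_fin, Fintype.card_prod, Nat.add_left_cancel_iff]
  refine ⟨Fin 12 ⊕ (Fin 81 × Fin 10 × Fin m), inferInstance, inferInstance, 10,
    gset (N := 81) (t := 10) (hcount pos) A B, 6 * α + ((81 * 10 : ℕ) : ℝ) * σ, ?_, ?_, ?_⟩
  · rw [hcard]; omega
  · rw [hcard]
    exact bdeg_gset (hcount_le pos) (bdeg_hcount pos) hm hdeg (by omega) (by omega)
  · set ρ := ∑ y : Fin 81 × Fin 10 × Fin m → Ω, indY A B j0 y * ∏ k, mm 0 (y k) with hρ
    have hρ0 : 0 < ρ := sum_indY_pos hp hAB hA hB (by norm_num) j0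
    -- total probability
    have hprob : ∑ z ∈ gset (N := 81) (t := 10) (hcount pos) A B, ∏ i, mm 0 (z i) = 12 * ρ := by
      have := sum_gset (N := 81) (t := 10) (hx := hcount pos) (hcount_le pos) (p := mm 0)
        (A := A) (B := B) j0 (fun x => ∏ i, mm 0 (x i))
      simp only [hcount_cast] at this
      rw [xpart_prob mm pos h0 h0', ← hρ] at this
      rw [← this]
      refine Finset.sum_congr rfl fun z _ => ?_
      rw [Fintype.prod_sum_type]
    -- pointwise bound
    have hpt := pointwise (N := 81) (t := 10) (by norm_num) mm s v hp hs hv hv0 (hcount pos) A B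
      (6 * α) σ (1 / 10 ^ 9) hsmall
    have hsum := sum_gset (N := 81) (t := 10) (hx := hcount pos) (hcount_le pos) (p := mm 0)
        (A := A) (B := B) j0 (fun x => 101 / 100 * quad mm (6 * α) x +
            101 * (((81 * 10 : ℕ) : ℝ) ^ 2 * (1 / 10 ^ 9)) * ∏ i, mm 0 (x i))
    simp only [hcount_cast, mul_add, sum_add_distrib] at hsum
    have e1 : ∑ x : Fin 12 → Ω, (((univ.filter (fun i => pos (x i))).card : ℝ) - 3) ^ 2 *
        (101 / 100 * quad mm (6 * α) x) = 101 / 100 * (144 - 168 * α ^ 2) := by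
      rw [← xpart_quad mm pos α h0 h0' h1 h1' h2 h2', Finset.mul_sum]
      refine Finset.sum_congr rfl fun x _ => ?_
      ring
    have e2 : ∑ x : Fin 12 → Ω, (((univ.filter (fun i => pos (x i))).card : ℝ) - 3) ^ 2 *
        (101 * (((81 * 10 : ℕ) : ℝ) ^ 2 * (1 / 10 ^ 9)) * ∏ i, mm 0 (x i)) =
        101 * (((81 * 10 : ℕ) : ℝ) ^ 2 * (1 / 10 ^ 9)) * 12 := by
      rw [← xpart_prob mm pos h0 h0', Finset.mul_sum]
      refine Finset.sum_congr rfl fun x _ => ?_
      ring
    rw [e1, e2, ← hρ] at hsum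
    calc ∑ z ∈ gset (N := 81) (t := 10) (hcount pos) A B,
          quad mm (6 * α + ((81 * 10 : ℕ) : ℝ) * σ) z
        ≤ (101 / 100 * (144 - 168 * α ^ 2) +
          101 * (((81 * 10 : ℕ) : ℝ) ^ 2 * (1 / 10 ^ 9)) * 12) * ρ := by
          rw [← hsum]
          exact Finset.sum_le_sum hpt
      _ < 120 * ρ := by
          refine mul_lt_mul_of_pos_right ?_ hρ0
          rw [hα2]
          have hpi := Real.pi_lt_d4
          have hpi0 := Real.pi_pos
          have : 1 / (2 * Real.pi) ≥ 1 / (2 * 3.1416) := by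
            apply one_div_le_one_div_of_le (by positivity)
            linarith only [hpi]
          push_cast
          norm_num at this ⊢
          linarith only [this]
      _ = ((10 : ℕ) : ℝ) * ∑ z ∈ gset (N := 81) (t := 10) (hcount pos) A B,
          ∏ i, mm 0 (z i) := by
          rw [hprob]; push_cast; ring

end Vale.Agent.P047
end
end

section

section

open Finset

namespace Vale.Agent.P047

/-- Fourier coefficients on large sets vanish for functions of small block degree. -/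
theorem growth_fourier_zero {n w : ℕ} {F : Cube n → ℝ} (hF : BDeg w F) {S : Finset (Fin n)}
    (hS : w < S.card) : fourierCoeff F S = 0 := by
  unfold BDeg at hF
  have key : ∑ x : Cube n, F x * ∏ i ∈ S, ((x i : ℤ) : ℝ) = 0 := by
    induction hF using Submodule.span_induction with
    | mem G hG =>
      obtain ⟨T, hT, hTG⟩ := hG
      have hex : ∃ i ∈ S, i ∉ T := by
        by_contra hcon
        push Not at hcon
        have : S.card ≤ T.card := Finset.card_le_card hcon
        omega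
      obtain ⟨i, hiS, hiT⟩ := hex
      refine Finset.sum_involution (fun x _ => Function.update x i (-(x i))) ?_ ?_ ?_ ?_
      · intro x _
        have h1 : G (Function.update x i (-(x i))) = G x := by
          apply hTG
          intro j hj
          have hji : j ≠ i := fun h => hiT (by simpa [h] using hj)
          rw [Function.update_of_ne hji]
        have h2 : ∏ j ∈ S, (((Function.update x i (-(x i)) j : ℤˣ) : ℤ) : ℝ) =
            - ∏ j ∈ S, ((x j : ℤ) : ℝ) := by
          rw [← Finset.mul_prod_erase _ _ hiS, ← Finset.mul_prod_erase _ _ hiS]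
          rw [Function.update_self]
          have h3 : ∏ j ∈ S.erase i, (((Function.update x i (-(x i)) j : ℤˣ) : ℤ) : ℝ) =
              ∏ j ∈ S.erase i, ((x j : ℤ) : ℝ) := by
            refine Finset.prod_congr rfl (fun j hj => ?_)
            rw [Function.update_of_ne (Finset.ne_of_mem_erase hj)]
          rw [h3]
          push_cast
          ring
        rw [h1, h2]
        ring
      · intro x _ _ h
        have := congrFun h i
        rw [Function.update_self] at this
        rcases Int.units_eq_one_or (x i) with h' | h' <;> rw [h'] at this <;>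
          exact absurd this (by decide)
      · intro x _
        exact Finset.mem_univ _
      · intro x _
        simp
    | zero => simp only [Pi.zero_apply, zero_mul, sum_const_zero]
    | add G H _ _ hG hH =>
      simp only [Pi.add_apply, add_mul, Finset.sum_add_distrib, hG, hH, add_zero]
    | smul c G _ hG =>
      simp only [Pi.smul_apply, smul_eq_mul, mul_assoc, ← Finset.mul_sum, hG, mul_zero]
  rw [fourierCoeff, key, zero_div]

theorem growth_degree_le {n w : ℕ} {F : Cube n → ℝ} (hF : BDeg w F) : degree F ≤ w := by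
  refine Finset.sup_le (fun S hS => ?_)
  by_contra hcon
  push Not at hcon
  exact (Finset.mem_filter.1 hS).2 (growth_fourier_zero hF hcon)

theorem growth_linearSum {n : ℕ} (F : Cube n → ℝ) :
    linearSum F = cubeAvg (fun x => F x * ∑ i, ((x i : ℤ) : ℝ)) := by
  unfold linearSum fourierCoeff cubeAvg
  rw [← Finset.sum_div, Fintype.card_fin, Finset.sum_comm]
  congr 1
  refine Finset.sum_congr rfl (fun x _ => ?_)
  simp only [prod_singleton, mul_sum]

/-- A scheme with two labels gives a Boolean function. -/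
theorem growth_extract {W : ℕ} {L : ℝ} (hL : 0 < L)
    (h : IsScheme W (fun _ : ℤˣ => (1 / 2 : ℝ)) (fun b => ((b : ℤ) : ℝ) * L)) :
    ∃ n : ℕ, 1 ≤ n ∧ ∃ f : Cube n → ℝ, IsBoolean f ∧ degree f ≤ W ∧ linearSum f = L := by
  obtain ⟨N, lab, h0, h1, h2⟩ := h
  have hf : ∀ x : Fin N → ℤˣ, ((lab x : ℤ) : ℝ) =
      (if lab x = 1 then (1 : ℝ) else 0) - (if lab x = -1 then (1 : ℝ) else 0) := by
    intro x
    rcases Int.units_eq_one_or (lab x) with h' | h' <;> rw [h'] <;> simp
  have hsum : linearSum (n := N) (fun x => ((lab x : ℤ) : ℝ)) = L := by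
    rw [growth_linearSum]
    have e : (fun x : Cube N => ((lab x : ℤ) : ℝ) * ∑ i, ((x i : ℤ) : ℝ)) = fun x =>
        (if lab x = 1 then ∑ i, ((x i : ℤ) : ℝ) else 0) -
          (if lab x = -1 then ∑ i, ((x i : ℤ) : ℝ) else 0) := by
      funext x
      rcases Int.units_eq_one_or (lab x) with h' | h' <;> rw [h'] <;> simp
    rw [e]
    have e2 : cubeAvg (fun x : Cube N => (if lab x = 1 then ∑ i, ((x i : ℤ) : ℝ) else 0) -
          (if lab x = -1 then ∑ i, ((x i : ℤ) : ℝ) else 0)) =
        cubeAvg (fun x : Cube N => if lab x = 1 then ∑ i, ((x i : ℤ) : ℝ) else 0) -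
        cubeAvg (fun x : Cube N => if lab x = -1 then ∑ i, ((x i : ℤ) : ℝ) else 0) := by
      unfold cubeAvg
      rw [Finset.sum_sub_distrib, sub_div]
    rw [e2, h2 1, h2 (-1)]
    push_cast
    ring
  refine ⟨N, ?_, fun x => ((lab x : ℤ) : ℝ), ?_, ?_, hsum⟩
  · by_contra hN
    have : N = 0 := by omega
    subst this
    have h0 : linearSum (n := 0) (fun x => ((lab x : ℤ) : ℝ)) = 0 := by
      unfold linearSum
      simp
    rw [h0] at hsum
    linarith only [hL, hsum]
  · intro x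
    change ((lab x : ℤ) : ℝ) = 1 ∨ ((lab x : ℤ) : ℝ) = -1
    rcases Int.units_eq_one_or (lab x) with h' | h' <;> rw [h'] <;> simp
  · apply growth_degree_le
    have e : (fun x : Cube N => ((lab x : ℤ) : ℝ)) = fun x =>
        (if lab x = 1 then (1 : ℝ) else 0) - (if lab x = -1 then (1 : ℝ) else 0) :=
      funext hf
    rw [e]
    exact BDeg.sub (h0 1) (h0 (-1))

theorem growth_Ex_half {ι : Type} [Fintype ι] [DecidableEq ι] (F : (ι → ℤˣ) → ℝ) :
    Ex (fun _ : ℤˣ => (1 / 2 : ℝ)) F = cubeAvg F := by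
  unfold Ex cubeAvg
  rw [Finset.sum_div]
  refine Finset.sum_congr rfl (fun z _ => ?_)
  rw [Finset.prod_const, Finset.card_univ, one_div, inv_pow, div_eq_mul_inv, mul_comm]

/-- Two-label schemes compose. -/
theorem growth_comp {w1 w2 : ℕ} {L1 L2 : ℝ}
    (hs1 : IsScheme w1 (fun _ : ℤˣ => (1 / 2 : ℝ)) (fun b => ((b : ℤ) : ℝ) * L1))
    (hs2 : IsScheme w2 (fun _ : ℤˣ => (1 / 2 : ℝ)) (fun b => ((b : ℤ) : ℝ) * L2)) :
    IsScheme (w2 * w1) (fun _ : ℤˣ => (1 / 2 : ℝ)) (fun b => ((b : ℤ) : ℝ) * (L1 * L2)) := by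
  obtain ⟨N, lab, h0, h1, h2⟩ := hs2
  have hP : ∀ l, Ex (fun _ : ℤˣ => (1 / 2 : ℝ)) (fun z : Fin N → ℤˣ =>
      if lab z = l then (1 : ℝ) else 0) = 1 / 2 := by
    intro l
    rw [growth_Ex_half, h1 l]
  have key := IsScheme.comp (ι := Fin N) hs1 lab h0
    (fun b => ((b : ℤ) : ℝ) * (L1 * L2)) (fun l => by
      rw [hP l, growth_Ex_half]
      have e : (fun z : Fin N → ℤˣ => if lab z = l then ∑ i, ((z i : ℤ) : ℝ) * L1 else 0) =
          fun z => (if lab z = l then ∑ i, ((z i : ℤ) : ℝ) else 0) * L1 := by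
        funext z
        rw [← Finset.sum_mul]
        split_ifs <;> simp
      have e2 : cubeAvg (fun z : Fin N → ℤˣ =>
          (if lab z = l then ∑ i, ((z i : ℤ) : ℝ) else 0) * L1) =
          cubeAvg (fun z : Fin N → ℤˣ =>
            (if lab z = l then ∑ i, ((z i : ℤ) : ℝ) else 0)) * L1 := by
        unfold cubeAvg
        rw [← Finset.sum_mul]
        ring
      rw [e, e2, h2 l]
      ring)
  simp only [hP] at key
  exact key

theorem growth_pow {w : ℕ} {L : ℝ}
    (h : IsScheme w (fun _ : ℤˣ => (1 / 2 : ℝ)) (fun b => ((b : ℤ) : ℝ) * L)) (k : ℕ) :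
    IsScheme (w ^ k) (fun _ : ℤˣ => (1 / 2 : ℝ)) (fun b => ((b : ℤ) : ℝ) * L ^ k) := by
  induction k with
  | zero => simpa using isScheme_bit
  | succ k ih =>
    have := growth_comp ih h
    rw [pow_succ', pow_succ]
    exact this

theorem growth_of_boolScheme (w : ℕ) (L : ℝ) (hw : 2 ≤ w) (hL : Real.sqrt w < L)
    (h : IsScheme w (fun _ : ℤˣ => (1 / 2 : ℝ)) (fun b => ((b : ℤ) : ℝ) * L)) :
    ∃ ε : ℝ, 0 < ε ∧ ∃ c : ℝ, 0 < c ∧ ∀ d : ℕ, 1 ≤ d → ∃ n : ℕ, 1 ≤ n ∧ ∃ f : Cube n → ℝ,
      IsBoolean f ∧ degree f ≤ d ∧ c * (d : ℝ) ^ (1 / 2 + ε) ≤ linearSum f := by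
  have hw1 : (1 : ℝ) < w := by exact_mod_cast (by omega : 1 < w)
  have hw0 : (0 : ℝ) < w := by linarith only [hw1]
  have hlogw : 0 < Real.log w := Real.log_pos hw1
  have hsq : 0 < Real.sqrt w := Real.sqrt_pos.2 hw0
  have hL0 : 0 < L := hsq.trans hL
  have hlog : Real.log w / 2 < Real.log L := by
    have := Real.log_lt_log hsq hL
    rwa [Real.log_sqrt hw0.le] at this
  have hexp : (1 : ℝ) / 2 + (Real.log L / Real.log w - 1 / 2) = Real.log L / Real.log w := by
    ring
  have hε : 0 < Real.log L / Real.log w - 1 / 2 := by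
    rw [sub_pos, div_lt_div_iff₀ (by norm_num) hlogw]
    linarith only [hlog]
  have hwL : (w : ℝ) ^ (Real.log L / Real.log w) = L := by
    rw [Real.rpow_def_of_pos hw0, mul_div_cancel₀ _ hlogw.ne', Real.exp_log hL0]
  refine ⟨Real.log L / Real.log w - 1 / 2, hε, L⁻¹, inv_pos.2 hL0, fun d hd => ?_⟩
  obtain ⟨n, hn, f, hf1, hf2, hf3⟩ := growth_extract (pow_pos hL0 (Nat.log w d))
    (growth_pow h (Nat.log w d))
  refine ⟨n, hn, f, hf1, hf2.trans (Nat.pow_log_le_self w (by omega)), ?_⟩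
  rw [hf3, hexp]
  have h1 : (d : ℝ) ≤ (w : ℝ) ^ (Nat.log w d + 1) := by
    exact_mod_cast (Nat.lt_pow_succ_log_self (by omega) d).le
  have h2 : (d : ℝ) ^ (Real.log L / Real.log w) ≤ L ^ (Nat.log w d + 1) := by
    have h3 : (d : ℝ) ^ (Real.log L / Real.log w) ≤
        ((w : ℝ) ^ (Nat.log w d + 1)) ^ (Real.log L / Real.log w) :=
      Real.rpow_le_rpow (by (clear * - hd; positivity)) h1 (by linarith only [hε])
    refine h3.trans (le_of_eq ?_)
    rw [← Real.rpow_natCast (w : ℝ), ← Real.rpow_mul hw0.le, mul_comm, Real.rpow_mul hw0.le, hwL,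
      Real.rpow_natCast]
  calc L⁻¹ * (d : ℝ) ^ (Real.log L / Real.log w) ≤ L⁻¹ * L ^ (Nat.log w d + 1) :=
        mul_le_mul_of_nonneg_left h2 (inv_pos.2 hL0).le
    _ = L ^ (Nat.log w d) := by
        rw [pow_succ]; (clear * - hL0; field_simp)

end Vale.Agent.P047
end
end

section

section

open Finset Filter
open scoped Topology

namespace Vale.Agent.P047

theorem exists_gadget : ∃ (Ω : Type) (_ : Fintype Ω) (_ : DecidableEq Ω) (cell : ℝ → Ω)
    (ι : Type) (_ : Fintype ι) (_ : DecidableEq ι) (t : ℕ) (C : Finset (ι → Ω)) (c : ℝ),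
    (∀ ω, (cell ⁻¹' {ω}).OrdConnected) ∧ t ≤ Fintype.card ι ∧
    BDeg (Fintype.card ι - t) (fun z => if z ∈ C then (1 : ℝ) else 0) ∧
    ∑ z ∈ C, quad (fun r ω => gm (cell ⁻¹' {ω}) r) c z <
      t * ∑ z ∈ C, ∏ i, gm (cell ⁻¹' {z i}) 0 := by
  obtain ⟨n, d, hn, hd, hL, m, hm, A, B, hAB, hne, hdeg, σ, hsmall⟩ := collision (1 / 10 ^ 9)
    (by norm_num)
  have hcond := fun ω => gcell_cond n hn d hd hL ω
  choose s v h1 h2 _ hv _ _ using hcond
  obtain ⟨g0, g0', g1, g1', g2, g2'⟩ := gcell_half n hn d hd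
  obtain ⟨ι, i1, i2, t, C, c, ht, hdegC, hC⟩ := combine
    (fun r ω => gm (gcell n d ⁻¹' {ω}) r) s v (fun ω => gcell_pos n hn d hd ω) h1 h2 hv
    (fun ω : Fin (2 * n + 2) => n + 1 ≤ ω.val) g0 g0' g1 g1' g2 g2' m hm A B hAB hne hdeg σ hsmall
  exact ⟨Fin (2 * n + 2), inferInstance, inferInstance, gcell n d, ι, i1, i2, t, C, c,
    gcell_ordConnected n d hd, ht, hdegC, hC⟩

theorem unbounded_aux (δ : ℝ) (hδ : 0 < δ)
    (h : ∀ (Λ : Type) [Fintype Λ] [DecidableEq Λ] (P a : Λ → ℝ) (I : ℝ),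
      FinLaw P a I → 0 < I →
      ∃ (ι' Λ' : Type) (_ : Fintype ι') (_ : DecidableEq ι') (_ : Fintype Λ')
        (_ : DecidableEq Λ') (g : (ι' → Λ) → Λ') (k : ℕ) (a' : Λ' → ℝ),
        1 ≤ k ∧ (∀ l, BDeg k (fun z => if g z = l then (1 : ℝ) else 0)) ∧
        (∀ l, Ex P (fun z => if g z = l then ∑ i, a (z i) else 0) =
          Ex P (fun z => if g z = l then (1 : ℝ) else 0) * a' l) ∧
        (1 + δ) * k * I ≤ ∑ l, Ex P (fun z => if g z = l then (1 : ℝ) else 0) * a' l ^ 2)
    (j : ℕ) : ∃ (Λ : Type) (_ : Fintype Λ) (_ : DecidableEq Λ) (w : ℕ)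
    (P a : Λ → ℝ), 1 ≤ w ∧ IsScheme w P a ∧ (1 + δ) ^ j * w ≤ ∑ l, P l * a l ^ 2 := by
  induction j with
  | zero =>
    refine ⟨ℤˣ, inferInstance, inferInstance, 1, _, _, le_refl _, isScheme_bit, ?_⟩
    have hu : (Finset.univ : Finset ℤˣ) = {1, -1} := rfl
    rw [hu, Finset.sum_pair (by decide)]
    norm_num
  | succ j ih =>
    obtain ⟨Λ, i1, i2, w, P, a, hw, hs, hI⟩ := ih
    have hI0 : 0 < ∑ l, P l * a l ^ 2 := by
      refine lt_of_lt_of_le ?_ hI
      have : (1 : ℝ) ≤ w := by exact_mod_cast hw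
      positivity
    obtain ⟨ι', Λ', j1, j2, j3, j4, g, k, a', hk, hdeg, ha, hinfo⟩ := h Λ P a _ hs.finLaw hI0
    refine ⟨Λ', j3, j4, k * w, _, a', ?_, hs.comp g hdeg a' ha, ?_⟩
    · exact Nat.one_le_iff_ne_zero.mpr (Nat.mul_ne_zero (by omega) (by omega))
    · refine le_trans ?_ hinfo
      push_cast
      have hk1 : (0 : ℝ) ≤ k := by positivity
      calc (1 + δ) ^ (j + 1) * ((k : ℝ) * w) = (1 + δ) * k * ((1 + δ) ^ j * w) := by ring
        _ ≤ (1 + δ) * k * ∑ l, P l * a l ^ 2 := by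
          refine mul_le_mul_of_nonneg_left hI ?_
          positivity

theorem unbounded : ∀ R : ℝ, ∃ (Λ : Type) (_ : Fintype Λ) (_ : DecidableEq Λ) (w : ℕ)
    (P a : Λ → ℝ), 1 ≤ w ∧ IsScheme w P a ∧ R * w ≤ ∑ l, P l * a l ^ 2 := by
  intro R
  obtain ⟨Ω, i1, i2, cell, ι, j1, j2, t, C, c, hcell, ht, hdeg, hC⟩ := exists_gadget
  obtain ⟨δ, hδ, h⟩ := amplify cell hcell t ht C c hdeg hC
  obtain ⟨j, hj⟩ := pow_unbounded_of_one_lt R (show (1 : ℝ) < 1 + δ by linarith only [hδ])
  obtain ⟨Λ, k1, k2, w, P, a, hw, hs, hI⟩ := unbounded_aux δ hδ h j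
  refine ⟨Λ, k1, k2, w, P, a, hw, hs, le_trans ?_ hI⟩
  exact mul_le_mul_of_nonneg_right hj.le (by positivity)

theorem main :
    (∃ ε : ℝ, 0 < ε ∧ ∃ c : ℝ, 0 < c ∧ ∀ d : ℕ, 1 ≤ d → ∃ n : ℕ, 1 ≤ n ∧ ∃ f : Cube n → ℝ,
      IsBoolean f ∧ degree f ≤ d ∧ c * (d : ℝ) ^ (1 / 2 + ε) ≤ linearSum f) ∧
    (¬ ∃ C : ℝ, ∀ n : ℕ, 1 ≤ n → ∀ f : Cube n → ℝ, IsBoolean f →
      linearSum f ≤ C * Real.sqrt (degree f)) ∧
    (∃ n : ℕ, 1 ≤ n ∧ ∃ f : Cube n → ℝ, IsBoolean f ∧ Real.sqrt (degree f) < linearSum f) := by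
  obtain ⟨w, L, hw, hL, hs⟩ := boolScheme_of_unbounded unbounded
  have hg := growth_of_boolScheme w L hw hL hs
  have hneg : ¬ ∃ C : ℝ, ∀ n : ℕ, 1 ≤ n → ∀ f : Cube n → ℝ, IsBoolean f →
      linearSum f ≤ C * Real.sqrt (degree f) := by
    rintro ⟨C, hC⟩
    obtain ⟨ε, hε, c, hc, h⟩ := hg
    have hlim : Tendsto (fun d : ℕ => c * (d : ℝ) ^ ε) atTop atTop :=
      Tendsto.const_mul_atTop hc ((tendsto_rpow_atTop hε).comp tendsto_natCast_atTop_atTop)
    obtain ⟨d, hd, hd1⟩ := ((hlim.eventually_gt_atTop (max C 0)).and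
      (eventually_ge_atTop 1)).exists
    obtain ⟨n, hn, f, hf, hdeg, hlin⟩ := h d hd1
    have hd0 : (0 : ℝ) < d := by exact_mod_cast hd1
    have h1 := hC n hn f hf
    have h2 : C * Real.sqrt (degree f) ≤ max C 0 * Real.sqrt d := by
      have h3 : Real.sqrt (degree f) ≤ Real.sqrt d := Real.sqrt_le_sqrt (by exact_mod_cast hdeg)
      calc C * Real.sqrt (degree f) ≤ max C 0 * Real.sqrt (degree f) :=
            mul_le_mul_of_nonneg_right (le_max_left _ _) (Real.sqrt_nonneg _)
        _ ≤ max C 0 * Real.sqrt d := mul_le_mul_of_nonneg_left h3 (le_max_right _ _)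
    have h4 : max C 0 * Real.sqrt d < c * (d : ℝ) ^ (1 / 2 + ε) := by
      rw [Real.rpow_add hd0, ← Real.sqrt_eq_rpow]
      have : 0 < Real.sqrt d := Real.sqrt_pos.mpr hd0
      nlinarith only [hd, this]
    linarith only [hlin, h1, h2, h4]
  refine ⟨hg, hneg, ?_⟩
  by_contra hcon
  push Not at hcon
  exact hneg ⟨1, fun n hn f hf => by simpa only [one_mul] using hcon n hn f hf⟩

end Vale.Agent.P047
end
end
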